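import Crest.Agent.R118.Walsh

/-! Row 118: bias of bicharacters. -/

set_option autoImplicit false

open Finset Crest.AnalysisR
open scoped BigOperators

namespace Crest.Agent.R118

namespace Bichar

variable {V W : Type} [AddCommGroup V] [AddCommGroup W] (β : Bichar V W)

theorem zero_left (y : W) : β.toFun 0 y = 1 := by
  have h := β.add_left 0 0 y
  rw [add_zero, β.sq] at h
  exact h

theorem zero_right (x : V) : β.toFun x 0 = 1 := β.flip.zero_left x

theorem abs_eq (x : V) (y : W) : |β.toFun x y| = 1 := by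
  have h := β.sq x y
  rcases mul_self_eq_one_iff.mp h with h | h <;> simp [h]

theorem eq_one_or (x : V) (y : W) : β.toFun x y = 1 ∨ β.toFun x y = -1 :=
  mul_self_eq_one_iff.mp (β.sq x y)

theorem sum_left {T : Type*} (s : Finset T) (x : T → V) (y : W) :
    β.toFun (∑ t ∈ s, x t) y = ∏ t ∈ s, β.toFun (x t) y := by
  classical
  induction s using Finset.induction_on with
  | empty => simp [zero_left]
  | insert a s ha ih => rw [sum_insert ha, prod_insert ha, β.add_left, ih]

theorem sum_right {T : Type*} (s : Finset T) (x : V) (y : T → W) :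
    β.toFun x (∑ t ∈ s, y t) = ∏ t ∈ s, β.toFun x (y t) := β.flip.sum_left s y x

open Classical in
/-- Indicator of the left kernel. -/
noncomputable def ker (x : V) : ℝ := if ∀ y, β.toFun x y = 1 then 1 else 0

theorem ker_nonneg (x : V) : 0 ≤ β.ker x := by
  unfold ker; split_ifs <;> norm_num

theorem ker_le_one (x : V) : β.ker x ≤ 1 := by
  unfold ker; split_ifs <;> norm_num

variable [Fintype V] [Fintype W]

omit [Fintype V] in
/-- Orthogonality: if `β x y₀ = -1`, translating `y` by `y₀` (`Equiv.addRight`) gives `E = -E`. -/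
theorem expect_right (x : V) : 𝔼 y, β.toFun x y = β.ker x := by
  unfold ker
  split_ifs with h
  · simp only [h]
    exact Fintype.expect_const _
  · push Not at h
    obtain ⟨y₀, hy⟩ := h
    have h1 := (β.eq_one_or x y₀).resolve_left hy
    have h2 : 𝔼 y, β.toFun x (y + y₀) = 𝔼 y, β.toFun x y :=
      Fintype.expect_equiv (Equiv.addRight y₀) _ _ fun _ => rfl
    simp only [β.add_right, h1, ← expect_mul] at h2
    linarith

theorem bias_eq : β.bias = 𝔼 x, β.ker x := by
  unfold bias; simp only [expect_right]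

theorem bias_flip : β.flip.bias = β.bias := by
  unfold bias; exact expect_comm _ _ _

/-- `ker 0 = 1` and `ker ≥ 0`. -/
theorem bias_pos : 0 < β.bias := by
  rw [bias_eq, Fintype.expect_eq_sum_div_card]
  refine div_pos (sum_pos' (fun x _ => β.ker_nonneg x) ⟨0, mem_univ _, ?_⟩)
    (by exact_mod_cast Fintype.card_pos)
  rw [ker, if_pos β.zero_left]
  exact one_pos

theorem bias_le_one : β.bias ≤ 1 := by
  rw [bias_eq]
  exact expect_le univ_nonempty fun x _ => β.ker_le_one x

omit [Fintype W] in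
/-- The annihilator of `κ` elements has index at most `2 ^ card κ`: the map
`x ↦ fun j => decide (β x (v j) = 1)` into `κ → Bool` has fibres that are cosets of `annih v`
(`Finset.card_le_mul_card_image` or `Fintype.card_eq_sum..`; a fibre injects in `annih v` by
`x ↦ x - x₀`). -/
theorem card_le_annih {κ : Type} [Fintype κ] (v : κ → W) [Fintype (β.annih v)] :
    (Fintype.card V : ℝ) ≤ 2 ^ Fintype.card κ * Fintype.card (β.annih v) := by
  classical
  have h := card_le_mul_card_image_of_maps_to (s := (univ : Finset V))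
    (t := (univ : Finset (κ → Bool))) (f := fun x j => decide (β.toFun x (v j) = 1))
    (fun _ _ => mem_univ _) (Fintype.card (β.annih v)) (fun b _ => by
      rcases (univ.filter fun x : V => (fun j => decide (β.toFun x (v j) = 1)) = b).eq_empty_or_nonempty
        with h0 | ⟨x₀, h0⟩
      · rw [h0]; exact Nat.zero_le _
      · rw [← Fintype.card_coe]
        refine Fintype.card_le_of_injective (fun x => ⟨x.1 - x₀, fun j => ?_⟩) ?_
        · have a1 := congrFun ((mem_filter.1 x.2).2.trans (mem_filter.1 h0).2.symm) j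
          have a2 := β.add_left (x.1 - x₀) x₀ (v j)
          rw [sub_add_cancel] at a2
          simp only [decide_eq_decide] at a1
          rcases β.eq_one_or x₀ (v j) with a3 | a3
          · rw [a1.2 a3, a3, mul_one] at a2
            exact a2.symm
          · have a4 : β.toFun x.1 (v j) = -1 := (β.eq_one_or x.1 (v j)).resolve_left fun a5 => by
              have := a1.1 a5
              linarith
            rw [a3, a4] at a2
            linarith
        · intro x y hxy
          exact Subtype.ext (sub_left_injective (congrArg Subtype.val hxy)))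
  rw [card_univ, card_univ, Fintype.card_fun, Fintype.card_bool, mul_comm] at h
  exact_mod_cast h

/-- restriction of the left variable only -/
private def helper28_res {V W : Type} [AddCommGroup V] [AddCommGroup W] (β : Bichar V W)
    (V₁ : AddSubgroup V) : Bichar V₁ W where
  toFun x y := β.toFun x y
  add_left x x' y := β.add_left x x' y
  add_right x y y' := β.add_right x y y'
  sq x y := β.sq x y

private theorem helper28_res_le {V W : Type} [AddCommGroup V] [AddCommGroup W] [Fintype V]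
    [Fintype W] (β : Bichar V W) (V₁ : AddSubgroup V) [Fintype V₁] {m : ℝ}
    (hm : (Fintype.card V : ℝ) ≤ m * Fintype.card V₁) :
    (helper28_res β V₁).bias ≤ m * β.bias := by
  classical
  rw [bias_eq, bias_eq, Fintype.expect_eq_sum_div_card, Fintype.expect_eq_sum_div_card]
  have c0 : (0 : ℝ) < Fintype.card V := by exact_mod_cast Fintype.card_pos
  have c1 : (0 : ℝ) < Fintype.card V₁ := by exact_mod_cast Fintype.card_pos
  have h1 : ∑ s : V₁, (helper28_res β V₁).ker s ≤ ∑ x, β.ker x := by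
    have e : ∑ s : V₁, (helper28_res β V₁).ker s =
        ∑ x ∈ univ.map (Function.Embedding.subtype (· ∈ V₁)), β.ker x := by
      rw [sum_map]
      rfl
    rw [e]
    exact sum_le_sum_of_subset_of_nonneg (subset_univ _) fun x _ _ => β.ker_nonneg x
  have h0 : 0 ≤ ∑ x, β.ker x := sum_nonneg fun x _ => β.ker_nonneg x
  rw [← mul_div_assoc, div_le_div_iff₀ c1 c0]
  calc _ ≤ (∑ x, β.ker x) * Fintype.card V := mul_le_mul_of_nonneg_right h1 c0.le
    _ ≤ (∑ x, β.ker x) * (m * Fintype.card V₁) := mul_le_mul_of_nonneg_left hm h0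
    _ = _ := by ring

/-- Restricting to subgroups of index `≤ m`, `≤ n` multiplies the bias by at most `m n`.  First
`W₁ = ⊤`-like step: `E_{s ∈ V₁} ker s ≤ m E_x ker x` (non-negative terms); do it once on each side
using `bias_flip`: `bias (β|V₁×W₁) = E_{t ∈ W₁} ker' t ≤ n E_{y ∈ W} ker' y = n bias (β|V₁×W)`, where
`ker'` is the kernel indicator of the flip of the bicharacter `V₁ × W → ℝ`. -/
theorem bias_restrict_le (V₁ : AddSubgroup V) (W₁ : AddSubgroup W) [Fintype V₁] [Fintype W₁]
    {m n : ℝ} (hm : (Fintype.card V : ℝ) ≤ m * Fintype.card V₁)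
    (hn : (Fintype.card W : ℝ) ≤ n * Fintype.card W₁) :
    (β.restrict V₁ W₁).bias ≤ m * n * β.bias := by
  have h1 := helper28_res_le β V₁ hm
  have h2 := helper28_res_le (helper28_res β V₁).flip W₁ hn
  rw [bias_flip] at h2
  have c0 : (0 : ℝ) < Fintype.card W := by exact_mod_cast Fintype.card_pos
  have c1 : (0 : ℝ) < Fintype.card W₁ := by exact_mod_cast Fintype.card_pos
  have hn0 : 0 ≤ n := nonneg_of_mul_nonneg_left (c0.le.trans hn) c1
  rw [← bias_flip]
  calc _ ≤ n * (helper28_res β V₁).bias := h2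
    _ ≤ n * (m * β.bias) := mul_le_mul_of_nonneg_left h1 hn0
    _ = _ := by ring

omit [Fintype W] in
/-- Resampling one coordinate `i ∈ I`: if `φ` does not depend on the coordinate `i` then
`E_x ker (∑_{I} x) φ x = bias * E_x φ x`.  (Average over `t : V` the bijection
`x ↦ Function.update x i (x i + t)`, then `t ↦ (∑_I x) + t` is a bijection.) -/
theorem expect_ker_sum_mul {ι : Type} [Fintype ι] [DecidableEq ι] (I : Finset ι) {i : ι}
    (hi : i ∈ I) (φ : (ι → V) → ℝ) (hφ : ∀ x t, φ (Function.update x i t) = φ x) :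
    𝔼 x : ι → V, β.ker (∑ l ∈ I, x l) * φ x = (𝔼 x, β.ker x) * 𝔼 x, φ x := by
  have h1 : ∀ t : V, 𝔼 x : ι → V, β.ker (∑ l ∈ I, x l) * φ x =
      𝔼 x : ι → V, β.ker (∑ l ∈ I, x l + t) * φ x := by
    intro t
    symm
    refine Fintype.expect_equiv (Equiv.addRight (Pi.single i t : ι → V)) _ _ fun x => ?_
    have e1 : (Equiv.addRight (Pi.single i t : ι → V)) x = Function.update x i (x i + t) := by
      funext l
      by_cases hl : l = i
      · subst hl; simp
      · simp [hl]
    have e2 : ∑ l ∈ I, ((Equiv.addRight (Pi.single i t : ι → V)) x) l = ∑ l ∈ I, x l + t := by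
      simp only [Equiv.coe_addRight, Pi.add_apply]
      rw [sum_add_distrib, Finset.sum_pi_single', if_pos hi]
    rw [e2, e1, hφ]
  have h2 : ∀ s : V, 𝔼 t : V, β.ker (s + t) = 𝔼 t, β.ker t := fun s =>
    Fintype.expect_equiv (Equiv.addLeft s) _ _ fun _ => rfl
  calc 𝔼 x : ι → V, β.ker (∑ l ∈ I, x l) * φ x
      = 𝔼 t : V, 𝔼 x : ι → V, β.ker (∑ l ∈ I, x l + t) * φ x := by
        simp only [← h1]
        exact (Fintype.expect_const _).symm
    _ = 𝔼 x : ι → V, 𝔼 t : V, β.ker (∑ l ∈ I, x l + t) * φ x := expect_comm _ _ _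
    _ = 𝔼 x : ι → V, (𝔼 t, β.ker t) * φ x := by
        refine expect_congr rfl fun x _ => ?_
        rw [← expect_mul, h2]
    _ = (𝔼 x, β.ker x) * 𝔼 x, φ x := (mul_expect _ _ _).symm

variable {ι κ : Type} [Fintype ι] [DecidableEq ι] [Fintype κ] [DecidableEq κ]

omit [Fintype V] in
/-- The `y`-average of the graph bicharacter is the product over the columns of kernel indicators:
`∏ e ∈ Γ, β (x e.1) (y e.2) = ∏ j, β (∑ i with (i,j) ∈ Γ, x i) (y j)` (`Finset.prod_fiberwise`-like,
`sum_left`), and averages over `κ → W` of products factor (`Finset.prod_univ_sum`). -/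
theorem expect_graph (Γ : Finset (ι × κ)) (x : ι → V) :
    𝔼 y : κ → W, (β.graph Γ).toFun x y =
      ∏ j, β.ker (∑ i ∈ univ.filter (fun i => (i, j) ∈ Γ), x i) := by
  have h1 : ∀ y : κ → W, (β.graph Γ).toFun x y =
      ∏ j, β.toFun (∑ i ∈ univ.filter (fun i => (i, j) ∈ Γ), x i) (y j) := by
    intro y
    simp only [sum_left]
    change ∏ e ∈ Γ, β.toFun (x e.1) (y e.2) = _
    simp only [prod_filter]
    rw [prod_comm, ← Fintype.prod_prod_type' (fun i j => if (i, j) ∈ Γ then β.toFun (x i) (y j) else 1),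
      ← prod_filter]
    congr 1
    ext e
    simp
  simp only [h1, ← expect_right, Fintype.expect_eq_sum_div_card]
  rw [prod_div_distrib, prod_const, prod_univ_sum, Fintype.piFinset_univ, Fintype.card_fun,
    card_univ, Nat.cast_pow]

/-- A non-empty graph: keep one non-empty column, bound the other factors by `1`, and use
`expect_ker_sum_mul` with `φ = 1`. -/
theorem bias_graph_le (Γ : Finset (ι × κ)) (hΓ : Γ.Nonempty) : (β.graph Γ).bias ≤ β.bias := by
  obtain ⟨⟨i, j⟩, hij⟩ := hΓ
  have hi : i ∈ univ.filter (fun i => (i, j) ∈ Γ) := mem_filter.2 ⟨mem_univ _, hij⟩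
  have h := β.expect_ker_sum_mul _ hi (fun _ => 1) (fun _ _ => rfl)
  rw [Fintype.expect_const, mul_one, ← bias_eq] at h
  rw [← h]
  unfold bias
  refine expect_le_expect fun x _ => ?_
  rw [expect_graph, ← mul_prod_erase univ _ (mem_univ j)]
  exact mul_le_mul_of_nonneg_left
    (prod_le_one (fun _ _ => β.ker_nonneg _) fun _ _ => β.ker_le_one _) (β.ker_nonneg _)

/-- If `Γ` is not a rectangle there are two non-empty columns `I₁`, `I₂` and `i ∈ I₁ \ I₂`
(take `(i, j) ∈ rows × cols` outside `Γ`: `I₂` = column `j`, `I₁` = a column containing `i`);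
keep these two factors and use `expect_ker_sum_mul` twice. -/
theorem bias_graph_le_sq (Γ : Finset (ι × κ)) (hΓ : Γ ≠ Γ.image Prod.fst ×ˢ Γ.image Prod.snd) :
    (β.graph Γ).bias ≤ β.bias ^ 2 := by
  have hsub : Γ ⊆ Γ.image Prod.fst ×ˢ Γ.image Prod.snd := fun e he =>
    mem_product.2 ⟨mem_image_of_mem _ he, mem_image_of_mem _ he⟩
  obtain ⟨⟨i, j⟩, hij, hn⟩ := exists_of_ssubset (Finset.ssubset_iff_subset_ne.2 ⟨hsub, hΓ⟩)
  obtain ⟨h1, h2⟩ := mem_product.1 hij
  obtain ⟨⟨i₀, j₁⟩, hj₁, e1⟩ := mem_image.1 h1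
  obtain ⟨⟨i₂, j₀⟩, hi₂, e2⟩ := mem_image.1 h2
  dsimp only at e1 e2
  subst e1 e2
  have hne : j₀ ≠ j₁ := by
    rintro rfl
    exact hn hj₁
  have hi : i₀ ∈ univ.filter (fun i => (i, j₁) ∈ Γ) := mem_filter.2 ⟨mem_univ _, hj₁⟩
  have hi' : i₂ ∈ univ.filter (fun i => (i, j₀) ∈ Γ) := mem_filter.2 ⟨mem_univ _, hi₂⟩
  have h := β.expect_ker_sum_mul _ hi' (fun _ => 1) (fun _ _ => rfl)
  rw [Fintype.expect_const, mul_one, ← bias_eq] at h
  simp only [mul_one] at h
  have h' := β.expect_ker_sum_mul _ hi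
    (fun x => β.ker (∑ l ∈ univ.filter (fun i => (i, j₀) ∈ Γ), x l)) (fun x t => by
      congr 1
      refine sum_congr rfl fun l hl => ?_
      refine Function.update_of_ne ?_ _ _
      rintro rfl
      exact hn (mem_filter.1 hl).2)
  rw [h, ← bias_eq, ← pow_two] at h'
  rw [← h']
  unfold bias
  refine expect_le_expect fun x _ => ?_
  rw [expect_graph, ← mul_prod_erase univ _ (mem_univ j₁),
    ← mul_prod_erase _ _ (mem_erase.2 ⟨hne, mem_univ j₀⟩)]
  refine mul_le_mul_of_nonneg_left ?_ (β.ker_nonneg _)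
  exact mul_le_of_le_one_right (β.ker_nonneg _)
    (prod_le_one (fun _ _ => β.ker_nonneg _) fun _ _ => β.ker_le_one _)

theorem h49_shift (y : W) : 𝔼 y', β.flip.ker (y + y') = β.bias := by
  rw [← β.bias_flip, β.flip.bias_eq]
  exact Fintype.expect_equiv (Equiv.addLeft y) _ _ fun _ => rfl

theorem h49_sq (v : W → ℝ) :
    𝔼 x, (𝔼 y, β.toFun x y * v y) ^ 2 ≤ β.bias * 𝔼 y, v y ^ 2 := by
  have h1 : 𝔼 x, (𝔼 y, β.toFun x y * v y) ^ 2 =
      𝔼 y, 𝔼 y', v y * v y' * β.flip.ker (y + y') := by
    have e : ∀ x, (𝔼 y, β.toFun x y * v y) ^ 2 =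
        𝔼 y, 𝔼 y', v y * v y' * β.toFun x (y + y') := by
      intro x
      rw [pow_two, expect_mul_expect]
      refine expect_congr rfl fun y _ => expect_congr rfl fun y' _ => ?_
      rw [β.add_right]
      ring
    simp only [e]
    rw [expect_comm]
    refine expect_congr rfl fun y _ => ?_
    rw [expect_comm]
    refine expect_congr rfl fun y' _ => ?_
    rw [← mul_expect, ← β.flip.expect_right]
    rfl
  have h2 : 𝔼 y, 𝔼 y', v y ^ 2 * β.flip.ker (y + y') = β.bias * 𝔼 y, v y ^ 2 := by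
    simp only [← mul_expect, h49_shift]
    rw [← expect_mul, mul_comm]
  have h3 : 𝔼 y, 𝔼 y', v y' ^ 2 * β.flip.ker (y + y') = β.bias * 𝔼 y, v y ^ 2 := by
    rw [expect_comm, ← h2]
    simp only [add_comm]
  have h4 : 𝔼 y, 𝔼 y', 2 * (v y * v y' * β.flip.ker (y + y')) ≤
      𝔼 y, 𝔼 y', (v y ^ 2 * β.flip.ker (y + y') + v y' ^ 2 * β.flip.ker (y + y')) := by
    refine expect_le_expect fun y _ => expect_le_expect fun y' _ => ?_
    nlinarith [mul_nonneg (β.flip.ker_nonneg (y + y')) (sq_nonneg (v y - v y'))]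
  simp only [expect_add_distrib, ← mul_expect] at h4
  simp only [mul_expect] at h4
  rw [h1]
  simp only [← mul_expect (a := (2 : ℝ))] at h4
  linarith

/-- The Hilbert space bound.  Cauchy-Schwarz in `x`; then
`E_x (E_y β x y v y)² = E_y E_y' v y v y' ker' (y + y')` with `ker' = β.flip.ker`, bounded by
`E_y E_y' (v y² + v y'²)/2 ker' (y + y') = bias * E v²` (translation invariance). -/
theorem abs_expect_le (u : V → ℝ) (v : W → ℝ) :
    |𝔼 x, 𝔼 y, β.toFun x y * (u x * v y)| ≤ √β.bias * (√(𝔼 x, u x ^ 2) * √(𝔼 y, v y ^ 2)) := by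
  have e : ∀ x, 𝔼 y, β.toFun x y * (u x * v y) = u x * 𝔼 y, β.toFun x y * v y := by
    intro x
    rw [mul_expect]
    exact expect_congr rfl fun y _ => by ring
  simp only [e]
  have h1 := expect_mul_sq_le_sq_mul_sq univ u fun x => 𝔼 y, β.toFun x y * v y
  have hu : 0 ≤ 𝔼 x, u x ^ 2 := expect_nonneg fun _ _ => sq_nonneg _
  have h2 := h1.trans (mul_le_mul_of_nonneg_left (β.h49_sq v) hu)
  rw [← Real.sqrt_mul hu, ← Real.sqrt_mul β.bias_pos.le]
  refine Real.abs_le_sqrt (h2.trans_eq ?_)
  ring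

end Bichar

/-- Symmetry of `H`. -/
theorem H.flip {A B : Type*} [NormedAddCommGroup A] [NormedSpace ℝ A] [NormedAddCommGroup B]
    [NormedSpace ℝ B] {Φ : A →ₗ[ℝ] B →ₗ[ℝ] ℝ} {PA : Set A} {PB : Set B} {ρ c : ℝ}
    (h : H Φ PA PB ρ c) : H Φ.flip PB PA ρ c := by
  intro V W _ _ _ _ β f g hf hg
  have h1 := h W V β.flip g f hg hf
  rw [Bichar.bias_flip] at h1
  have e : test β Φ.flip f g = test β.flip Φ g f := by
    unfold test
    exact expect_comm _ _ _
  rw [e, mul_right_comm]
  exact h1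

/-- Monotonicity of `H`. -/
theorem H.mono {A B : Type*} [NormedAddCommGroup A] [NormedSpace ℝ A] [NormedAddCommGroup B]
    [NormedSpace ℝ B] {Φ : A →ₗ[ℝ] B →ₗ[ℝ] ℝ} {PA PA' : Set A} {PB PB' : Set B} {ρ c c' : ℝ}
    (h : H Φ PA PB ρ c) (hA : PA' ⊆ PA) (hB : PB' ⊆ PB) (hc : c ≤ c') : H Φ PA' PB' ρ c' := by
  intro V W _ _ _ _ β f g hf hg
  refine (h V W β f g (fun x => hA (hf x)) fun y => hB (hg y)).trans ?_
  have h1 := Real.rpow_nonneg β.bias_pos.le ρ
  have h2 := nrm_nonneg f
  have h3 := nrm_nonneg g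
  gcongr

end Crest.Agent.R118
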