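import Crest.Agent.R118.Riesz

/-! Row 118: the coefficients of the Riesz product. -/

set_option autoImplicit false

open Finset Crest.AnalysisR
open scoped BigOperators

namespace Crest.Agent.R118

variable {A B : Type*} [NormedAddCommGroup A] [NormedSpace ℝ A] [NormedAddCommGroup B]
  [NormedSpace ℝ B] {V W ι κ : Type} [AddCommGroup V] [AddCommGroup W] [Fintype V] [Fintype W]
  [Fintype ι] [DecidableEq ι] [Fintype κ] [DecidableEq κ]

private theorem h31_expect_coord (φ : V → ℝ) (i : ι) : 𝔼 x : ι → V, φ (x i) = 𝔼 x, φ x := by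
  rw [Fintype.expect_equiv (Equiv.funSplitAt i V) (fun x => φ (x i)) (fun p => φ p.1)
    (fun x => by simp), ← univ_product_univ, expect_product]
  simp only [Fintype.expect_const]

private theorem h31_dom {Λ : ℝ} (hΛ : 0 ≤ Λ) {a : V → A} {F : (ι → Bool) → (ι → V) → A}
    (hF : Dom Λ a F) : 𝔼 ξ, nrm (F ξ) ≤ Λ * √(Fintype.card ι) * nrm a := by
  have h1 := expect_norm_le_nrm fun ξ => nrm (F ξ)
  simp only [Real.norm_eq_abs, abs_of_nonneg (nrm_nonneg _)] at h1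
  refine h1.trans (nrm_le_of_nsq_le _ (mul_nonneg (by positivity) (nrm_nonneg a)) ?_)
  have h2 : nsq (fun ξ => nrm (F ξ)) = 𝔼 x, nsq (fun ξ => F ξ x) := by
    unfold nsq
    simp only [Real.norm_eq_abs, sq_abs, nrm_sq]
    unfold nsq
    exact expect_comm _ _ _
  rw [h2]
  refine (expect_le_expect fun x _ => hF x).trans (le_of_eq ?_)
  rw [← mul_expect, expect_sum_comm]
  simp only [h31_expect_coord (fun v => ‖a v‖ ^ 2)]
  rw [sum_const, card_univ, nsmul_eq_mul, mul_pow, mul_pow, Real.sq_sqrt (Nat.cast_nonneg _),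
    nrm_sq, mul_assoc]
  rfl

/-- Every coefficient is a test for the graph bicharacter: for fixed `ξ, ζ`,
`∏ edge = (sign depending on ξ, ζ) * (β.graph Γ) x y`; apply `hH` to `F ξ`, `G ζ`, then
`E_ξ nrm (F ξ) ≤ √(E_ξ nsq (F ξ)) ≤ Λ √(card ι) nrm a` (`E_x ‖a (x i)‖² = nsq a`). -/
theorem abs_cG_le {Φ : A →ₗ[ℝ] B →ₗ[ℝ] ℝ} {PA : Set A} {PB : Set B} {ρ c Λ Λ' : ℝ}
    (hH : H Φ PA PB ρ c) (hc : 0 ≤ c) (hΛ : 0 ≤ Λ) (hΛ' : 0 ≤ Λ')
    (β : Bichar V W) (a : V → A) (b : W → B)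
    (F : (ι → Bool) → (ι → V) → A) (G : (κ → Bool) → (κ → W) → B)
    (hFP : ∀ ξ x, F ξ x ∈ PA) (hGP : ∀ ζ y, G ζ y ∈ PB) (hF : Dom Λ a F) (hG : Dom Λ' b G)
    (Γ : Finset (ι × κ)) :
    |cG β Φ F G Γ| ≤ c * (β.graph Γ).bias ^ ρ *
      ((Λ * √(Fintype.card ι) * nrm a) * (Λ' * √(Fintype.card κ) * nrm b)) := by
  have hb : 0 ≤ c * (β.graph Γ).bias ^ ρ :=
    mul_nonneg hc (Real.rpow_nonneg (β.graph Γ).bias_pos.le ρ)
  have h1 : ∀ ξ ζ, |𝔼 x, 𝔼 y, (∏ e ∈ Γ, edge β ξ ζ x y e) * Φ (F ξ x) (G ζ y)| ≤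
      c * (β.graph Γ).bias ^ ρ * (nrm (F ξ) * nrm (G ζ)) := by
    intro ξ ζ
    have h2 : 𝔼 x, 𝔼 y, (∏ e ∈ Γ, edge β ξ ζ x y e) * Φ (F ξ x) (G ζ y) =
        (∏ e ∈ Γ, signVal (ξ e.1) * signVal (ζ e.2)) * test (β.graph Γ) Φ (F ξ) (G ζ) := by
      unfold test
      simp only [mul_expect, edge, Bichar.graph]
      refine expect_congr rfl fun x _ => expect_congr rfl fun y _ => ?_
      rw [prod_mul_distrib, mul_assoc]
    have h3 : |∏ e ∈ Γ, signVal (ξ e.1) * signVal (ζ e.2)| = 1 := by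
      rw [abs_prod]
      simp [abs_mul, abs_signVal]
    rw [h2, abs_mul, h3, one_mul, ← mul_assoc]
    exact hH _ _ _ _ _ (hFP ξ) (hGP ζ)
  unfold cG
  refine (abs_expect_le _ _).trans ((expect_le_expect fun ξ _ =>
    (abs_expect_le _ _).trans (expect_le_expect fun ζ _ => h1 ξ ζ)).trans ?_)
  simp only [← mul_expect, ← expect_mul]
  exact mul_le_mul_of_nonneg_left (mul_le_mul (h31_dom hΛ hF) (h31_dom hΛ' hG)
    (expect_nonneg fun _ _ => nrm_nonneg _)
    (mul_nonneg (by positivity) (nrm_nonneg a))) hb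

/-- Transposition symmetry on rectangles. -/
theorem cG_flip (β : Bichar V W) (Φ : A →ₗ[ℝ] B →ₗ[ℝ] ℝ) (F : (ι → Bool) → (ι → V) → A)
    (G : (κ → Bool) → (κ → W) → B) (I : Finset ι) (J : Finset κ) :
    cG β.flip Φ.flip G F (J ×ˢ I) = cG β Φ F G (I ×ˢ J) := by
  unfold cG
  rw [expect_comm]
  refine expect_congr rfl fun ξ _ => expect_congr rfl fun ζ _ => ?_
  rw [expect_comm]
  refine expect_congr rfl fun x _ => expect_congr rfl fun y _ => ?_
  rw [prod_product, prod_product, prod_comm, LinearMap.flip_apply]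
  congr 1
  refine prod_congr rfl fun i _ => prod_congr rfl fun j _ => ?_
  simp only [edge, Bichar.flip]
  ring

private theorem h14_pow (b : Bool) {n : ℕ} (hn : Odd n) : signVal b ^ n = signVal b := by
  obtain ⟨k, rfl⟩ := hn
  rw [pow_succ, pow_mul, sq, signVal_mul_self, one_pow, one_mul]

private theorem h14_edge (β : Bichar V W) (ξ : ι → Bool) (ζ : κ → Bool) (x : ι → V) (y : κ → W)
    (I : Finset ι) (J : Finset κ) (hI : Odd I.card) (hJ : Odd J.card) :
    ∏ e ∈ I ×ˢ J, edge β ξ ζ x y e =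
      wal I ξ * (wal J ζ * ∏ i ∈ I, ∏ j ∈ J, β.toFun (x i) (y j)) := by
  rw [prod_product]
  simp only [edge, prod_mul_distrib, prod_const, h14_pow _ hJ, wal]
  rw [← prod_pow]
  simp only [h14_pow _ hI, mul_assoc]

/-- On a rectangle with odd sides, `∏ edge = wal I ξ * wal J ζ * ∏∏ β`, and the `ξ`-average is a Walsh
coefficient (`map_coef` with `ℓ = Φ.flip (G ζ y)`). -/
theorem cG_rect (β : Bichar V W) (Φ : A →ₗ[ℝ] B →ₗ[ℝ] ℝ) (F : (ι → Bool) → (ι → V) → A)
    (G : (κ → Bool) → (κ → W) → B) (I : Finset ι) (J : Finset κ) (hI : Odd I.card)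
    (hJ : Odd J.card) :
    cG β Φ F G (I ×ˢ J) = 𝔼 ζ, 𝔼 x : ι → V, 𝔼 y : κ → W,
      (wal J ζ * ∏ i ∈ I, ∏ j ∈ J, β.toFun (x i) (y j)) *
        Φ (coef I fun ξ => F ξ x) (G ζ y) := by
  unfold cG
  rw [expect_comm]
  refine expect_congr rfl fun ζ _ => ?_
  rw [expect_comm]
  refine expect_congr rfl fun x _ => ?_
  rw [expect_comm]
  refine expect_congr rfl fun y _ => ?_
  have := map_coef (Φ.flip (G ζ y)) I (fun ξ => F ξ x)
  simp only [LinearMap.flip_apply] at this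
  rw [this, mul_expect]
  refine expect_congr rfl fun ξ _ => ?_
  rw [h14_edge β ξ ζ x y I J hI hJ]
  ring

private theorem h14_eval (i : ι) (φ : V → ℝ) : 𝔼 x : ι → V, φ (x i) = 𝔼 x, φ x := by
  rw [Fintype.expect_equiv (Equiv.funSplitAt i V) (fun x => φ (x i)) (fun p => φ p.1) (fun x => rfl),
    ← univ_product_univ, expect_product]
  simp only [Fintype.expect_const]

/-- Row stars (`cG_rect`, and `E_{x : ι → V} φ (x i) = E_x φ x`). -/
theorem cG_row (β : Bichar V W) (Φ : A →ₗ[ℝ] B →ₗ[ℝ] ℝ) (a : V → A)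
    (F : (ι → Bool) → (ι → V) → A) (G : (κ → Bool) → (κ → W) → B)
    (hF : ∀ x i, coef {i} (fun ξ => F ξ x) = a (x i)) (i : ι) (J : Finset κ) (hJ : Odd J.card) :
    cG β Φ F G ({i} ×ˢ J) = sC β Φ a G J := by
  rw [cG_rect β Φ F G {i} J (by simp) hJ]
  unfold sC
  refine expect_congr rfl fun ζ _ => ?_
  simp only [prod_singleton, hF]
  exact h14_eval i fun x => 𝔼 y : κ → W, (wal J ζ * ∏ j ∈ J, β.toFun x (y j)) * Φ (a x) (G ζ y)

/-- A single edge gives the original test (`map_coef` with `ℓ = Φ (a x)`). -/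
theorem sC_single (β : Bichar V W) (Φ : A →ₗ[ℝ] B →ₗ[ℝ] ℝ) (a : V → A) (b : W → B)
    (G : (κ → Bool) → (κ → W) → B) (hG : ∀ y j, coef {j} (fun ζ => G ζ y) = b (y j)) (j : κ) :
    sC β Φ a G {j} = test β Φ a b := by
  unfold sC test
  rw [expect_comm]
  refine expect_congr rfl fun x _ => ?_
  rw [expect_comm, ← h14_eval j fun y => β.toFun x y * Φ (a x) (b y)]
  refine expect_congr rfl fun y _ => ?_
  rw [← hG y j, map_coef (Φ (a x)), mul_expect]
  refine expect_congr rfl fun ζ _ => ?_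
  rw [prod_singleton]
  ring

/-- The odd star sum is a Riesz test with one row: apply `riesz_total` with `ι = Unit`,
`F ξ x = signVal (ξ ()) • a (x ())`, `Λ = 1`; graphs on `Unit × κ` are the `{()} ×ˢ J`
(`Finset.sum_bij`/`Finset.sum_nbij'` with `Γ ↦ Γ.image Prod.snd`), and use `cG_row`
(`coef_wal_smul`, `wal_singleton`). -/
theorem star_total {Φ : A →ₗ[ℝ] B →ₗ[ℝ] ℝ} {PA : Set A} {PB : Set B} {ρ c w Λ' : ℝ}
    (hH : H Φ PA PB ρ c) (hc : 0 ≤ c) (hρ : 0 ≤ ρ) (hA : ∀ a ∈ PA, -a ∈ PA)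
    (hB : ∀ b ∈ PB, -b ∈ PB) (hw0 : 0 ≤ w) (hw1 : w ≤ 1) (hΛ' : 0 ≤ Λ')
    (β : Bichar V W) (a : V → A) (b : W → B) (G : (κ → Bool) → (κ → W) → B)
    (haP : ∀ x, a x ∈ PA) (hGP : ∀ ζ y, G ζ y ∈ PB) (hG : Dom Λ' b G)
    (hb : 2 ^ Fintype.card κ * β.bias ≤ 1) :
    |∑ J ∈ (univ : Finset (Finset κ)).filter (fun J => Odd J.card), w ^ J.card * sC β Φ a G J| ≤
      2 * c * (2 ^ (1 + Fintype.card κ) * β.bias) ^ ρ *
        (nrm a * (Λ' * √(Fintype.card κ) * nrm b)) := by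
  classical
  let F : (Unit → Bool) → (Unit → V) → A := fun ξ x => signVal (ξ ()) • a (x ())
  have hFP : ∀ ξ x, F ξ x ∈ PA := by
    intro ξ x
    have h1 := haP (x ())
    have h2 := hA _ h1
    cases h : ξ () <;> simp [F, h, signVal, h1, h2]
  have hF : Dom 1 a F := by
    intro x
    have h1 : ∀ ξ : Unit → Bool, ‖F ξ x‖ ^ 2 = ‖a (x ())‖ ^ 2 := by
      intro ξ
      simp only [F, norm_smul, Real.norm_eq_abs, abs_signVal, one_mul]
    unfold nsq
    simp only [h1]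
    simp
  have hco : ∀ (x : Unit → V) (i : Unit), coef {i} (fun ξ => F ξ x) = a (x i) := by
    intro x i
    have h1 := coef_wal_smul ({i} : Finset Unit) {i} (a (x i))
    simp only [wal_singleton, if_true] at h1
    exact h1
  have h := riesz_total hH hc hρ hA hB hw0 hw1 zero_le_one hΛ' β a b F G hFP hGP hF hG
    (by simpa using hb)
  have e : ∑ J ∈ (univ : Finset (Finset κ)).filter (fun J => Odd J.card),
      w ^ J.card * sC β Φ a G J =
      ∑ Γ ∈ (univ : Finset (Finset (Unit × κ))).filter (fun Γ => Odd Γ.card),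
        w ^ Γ.card * cG β Φ F G Γ := by
    have hinv : ∀ Γ : Finset (Unit × κ), ({()} : Finset Unit) ×ˢ Γ.image Prod.snd = Γ := by
      intro Γ
      ext ⟨u, j⟩
      simp only [mem_product, mem_singleton, mem_image, Prod.exists, exists_eq_right, true_and]
      exact ⟨fun ⟨_, h⟩ => h, fun h => ⟨u, h⟩⟩
    have hcard : ∀ J : Finset κ, (({()} : Finset Unit) ×ˢ J).card = J.card := by
      intro J
      rw [card_product, card_singleton, one_mul]
    refine Finset.sum_nbij' (fun J => ({()} : Finset Unit) ×ˢ J) (fun Γ => Γ.image Prod.snd)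
      ?_ ?_ ?_ ?_ ?_
    · intro J hJ
      simp only [mem_filter, mem_univ, true_and] at hJ ⊢
      rwa [hcard]
    · intro Γ hΓ
      simp only [mem_filter, mem_univ, true_and] at hΓ ⊢
      rwa [← hcard, hinv]
    · intro J _
      ext j
      simp
    · intro Γ _
      exact hinv Γ
    · intro J hJ
      simp only [mem_filter, mem_univ, true_and] at hJ
      rw [hcard, cG_row β Φ a F G hco () J hJ]
  rw [e]
  simpa using h

end Crest.Agent.R118
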