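import Crest.Agent.R118.Walsh

/-! Row 118: lifts (the dual form of cotype). -/

set_option autoImplicit false

open Finset Crest.AnalysisR
open scoped BigOperators

namespace Crest.Agent.R118

variable {X : Type*} [NormedAddCommGroup X] [NormedSpace ℝ X]

/-- `signAverage` is the average over the cube. -/
theorem signAverage_eq {s : ℕ} (g : (Fin s → Bool) → ℝ) : signAverage g = 𝔼 ε, g ε := by
  rw [Fintype.expect_eq_sum_div_card, signAverage]
  simp only [Fintype.card_fun, Fintype.card_bool, Fintype.card_fin, Nat.cast_pow, Nat.cast_ofNat]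
  rw [div_eq_inv_mul]

/-- Cotype `q ≤ n` gives the cotype-2 inequality on `k = t ^ (2 n)` vectors with constant
`|C| t ^ (n - 2)`.  Power mean inequality (`Real.rpow_sum_le_const_mul_sum_rpow` or
`Real.inner_le_nnorm_mul_nnorm`-type Hölder `Real.inner_le_Lp_mul_Lq`) gives
`∑ ‖y i‖² ≤ k ^ (1 - 2/q) (∑ ‖y i‖ ^ q) ^ (2/q)`, and `k ^ (1 - 2/q) ≤ k ^ (1 - 2/n) = (t ^ (n-2))²`. -/
theorem cot2_of_cotype {q C : ℝ} (hq : 2 ≤ q) (h : HasRademacherCotype X q C) {n t : ℕ}
    (hn : q ≤ n) (ht : 1 ≤ t) : Cot2 X (t ^ (2 * n)) (|C| * (t : ℝ) ^ (n - 2)) := by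
  intro y
  have hq0 : 0 < q := by linarith
  have hn2 : 2 ≤ n := by exact_mod_cast (hq.trans hn : (2 : ℝ) ≤ n)
  have hn0 : (0 : ℝ) < n := by linarith
  have ht1 : (1 : ℝ) ≤ t := by exact_mod_cast ht
  have ht0 : (0 : ℝ) < t := by linarith
  obtain ⟨N, hN⟩ : ∃ N, N = nsq (fun ξ : Fin (t ^ (2 * n)) → Bool => ∑ i, signVal (ξ i) • y i) :=
    ⟨_, rfl⟩
  have hN0 : 0 ≤ N := hN ▸ nsq_nonneg _
  obtain ⟨B, hB⟩ : ∃ B, B = ∑ i, ‖y i‖ ^ q := ⟨_, rfl⟩
  have hB0 : 0 ≤ B := hB ▸ Finset.sum_nonneg fun i _ => Real.rpow_nonneg (norm_nonneg _) _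
  obtain ⟨S, hS⟩ : ∃ S, S = ∑ i, ‖y i‖ ^ 2 := ⟨_, rfl⟩
  have hS0 : 0 ≤ S := hS ▸ Finset.sum_nonneg fun i _ => sq_nonneg _
  have h1 : B ^ (1 / q) ≤ C * N ^ (1 / 2 : ℝ) := by
    have h2 := h _ y
    rw [signAverage_eq] at h2
    simp only [Real.rpow_two] at h2
    rw [hB, hN]
    exact h2
  have h3 : (B ^ (1 / q)) ^ 2 ≤ C ^ 2 * N := by
    calc (B ^ (1 / q)) ^ 2 ≤ (C * N ^ (1 / 2 : ℝ)) ^ 2 :=
          pow_le_pow_left₀ (Real.rpow_nonneg hB0 _) h1 2
      _ = C ^ 2 * N := by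
          rw [mul_pow, ← Real.sqrt_eq_rpow, Real.sq_sqrt hN0]
  obtain ⟨k, hk⟩ : ∃ k : ℝ, k = (t : ℝ) ^ (2 * n) := ⟨_, rfl⟩
  have hk1 : 1 ≤ k := hk ▸ one_le_pow₀ ht1
  have hk0 : 0 ≤ k := by linarith
  have h4 : S ^ (q / 2) ≤ k ^ (q / 2 - 1) * B := by
    have h5 := Real.rpow_sum_le_const_mul_sum_rpow_of_nonneg (Finset.univ)
      (f := fun i : Fin (t ^ (2 * n)) => ‖y i‖ ^ 2) (p := q / 2) (by linarith)
      (fun i _ => sq_nonneg _)
    have h6 : ∀ i, (‖y i‖ ^ 2) ^ (q / 2) = ‖y i‖ ^ q := fun i => by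
      rw [← Real.rpow_two, ← Real.rpow_mul (norm_nonneg _)]
      congr 1; ring
    simp only [h6, Finset.card_univ, Fintype.card_fin, Nat.cast_pow] at h5
    rw [hS, hk, hB]
    exact h5
  have h7 : S ≤ k ^ (1 - 2 / q) * (B ^ (1 / q)) ^ 2 := by
    have h8 := Real.rpow_le_rpow (Real.rpow_nonneg hS0 _) h4 (show 0 ≤ 2 / q by positivity)
    rw [← Real.rpow_mul hS0, Real.mul_rpow (Real.rpow_nonneg hk0 _) hB0, ← Real.rpow_mul hk0] at h8
    have e1 : q / 2 * (2 / q) = 1 := by field_simp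
    have e2 : (q / 2 - 1) * (2 / q) = 1 - 2 / q := by field_simp
    have e3 : B ^ (2 / q) = (B ^ (1 / q)) ^ 2 := by
      rw [← Real.rpow_two, ← Real.rpow_mul hB0]
      congr 1; ring
    rwa [e1, e2, e3, Real.rpow_one] at h8
  have h9 : k ^ (1 - 2 / q) ≤ ((t : ℝ) ^ (n - 2)) ^ 2 := by
    have h10 : 1 - 2 / q ≤ 1 - 2 / (n : ℝ) := by
      have := div_le_div_of_nonneg_left (show (0 : ℝ) ≤ 2 by norm_num) hq0 hn
      linarith
    refine (Real.rpow_le_rpow_of_exponent_le hk1 h10).trans (le_of_eq ?_)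
    rw [hk, ← Real.rpow_natCast, ← Real.rpow_mul ht0.le, ← pow_mul, ← Real.rpow_natCast]
    congr 1
    push_cast [hn2]
    field_simp
  rw [← hS, ← hN, mul_pow, sq_abs]
  calc S ≤ k ^ (1 - 2 / q) * (B ^ (1 / q)) ^ 2 := h7
    _ ≤ ((t : ℝ) ^ (n - 2)) ^ 2 * (C ^ 2 * N) :=
        mul_le_mul h9 h3 (sq_nonneg _) (sq_nonneg _)
    _ = _ := by ring

theorem Cot2.mono {k : ℕ} {Λ Λ' : ℝ} (h : Cot2 X k Λ) (h0 : 0 ≤ Λ) (hle : Λ ≤ Λ') :
    Cot2 X k Λ' := by
  intro y
  exact (h y).trans (mul_le_mul_of_nonneg_right (pow_le_pow_left₀ h0 hle 2) (nsq_nonneg _))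

/-- Half-norming test functions: for `G : Ω → X*` there is `f : Ω → X` with `nrm f ≤ nrm G` and
`nsq G ≤ 2 * E (G ω) (f ω)`.  (For each `ω` pick `x` with `‖x‖ ≤ 1`, `‖G ω‖ ≤ 2 * G ω x`, e.g. from
`ContinuousLinearMap.exists_lt_apply_of_lt_opNorm` and a sign change; put `f ω = ‖G ω‖ • x`.) -/
theorem exists_half_norming {Ω : Type*} [Fintype Ω] (G : Ω → StrongDual ℝ X) :
    ∃ f : Ω → X, nrm f ≤ nrm G ∧ nsq G ≤ 2 * 𝔼 ω, G ω (f ω) := by
  have h1 : ∀ g : StrongDual ℝ X, ∃ x : X, ‖x‖ ≤ ‖g‖ ∧ ‖g‖ ^ 2 ≤ 2 * g x := by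
    intro g
    rcases (norm_nonneg g).eq_or_lt with h0 | h0
    · exact ⟨0, by simp, by rw [← h0]; simp⟩
    obtain ⟨x, hx1, hx2⟩ := g.exists_lt_apply_of_lt_opNorm (half_lt_self h0)
    rw [Real.norm_eq_abs] at hx2
    rcases le_total 0 (g x) with h2 | h2
    · rw [abs_of_nonneg h2] at hx2
      refine ⟨‖g‖ • x, ?_, ?_⟩
      · rw [norm_smul, norm_norm]; nlinarith
      · rw [map_smul, smul_eq_mul]; nlinarith
    · rw [abs_of_nonpos h2] at hx2
      refine ⟨(-‖g‖) • x, ?_, ?_⟩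
      · rw [norm_smul, norm_neg, norm_norm]; nlinarith
      · rw [map_smul, smul_eq_mul]; nlinarith
  choose φ hφ1 hφ2 using h1
  refine ⟨fun ω => φ (G ω), nrm_mono fun ω => hφ1 _, ?_⟩
  rw [Finset.mul_expect]
  exact Finset.expect_le_expect fun ω _ => hφ2 _

private theorem h67_coef_rad {k : ℕ} (x : Fin k → X) (j : Fin k) :
    coef {j} (fun ξ : Fin k → Bool => ∑ i, signVal (ξ i) • x i) = x j := by
  rw [coef_sum]
  have h1 : ∀ i, coef {j} (fun ξ : Fin k → Bool => signVal (ξ i) • x i) =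
      if j = i then x i else 0 := by
    intro i
    have h2 := coef_wal_smul ({j} : Finset (Fin k)) {i} (x i)
    simp only [wal_singleton, Finset.singleton_inj] at h2
    exact h2
  simp only [h1, Finset.sum_ite_eq, Finset.mem_univ, if_true]

/-- Lifts in the dual space.  On `E = (Fin k → Bool) → X` the function
`N f = Λ √(∑ ‖b j‖²) * nrm f` is sublinear; `R : (Fin k → X) →ₗ E`, `R x ξ = ∑ signVal (ξ j) • x j` is
injective (`Cot2` or `coef`), and `ℓ (R x) = ∑ b j (x j) ≤ N (R x)` (Cauchy-Schwarz and `Cot2`).  A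
convenient form of `ℓ` on the range is the restriction of `f ↦ ∑ j, b j (coef {j} f)`.  Extend by
`exists_extension_of_le_sublinear` to `L ≤ N`; set `G ζ x = 2 ^ k * L (Pi.single ζ x)` (continuous by
`LinearMap.mkContinuous`), so `L f = E_ζ G ζ (f ζ)`.  Then `coef {j} G x = L (wal {j} • x) = b j x`, and
`exists_half_norming` gives `nsq G ≤ 2 N f ≤ 2 Λ ‖b‖ nrm G`. -/
theorem lift_dual {k : ℕ} {Λ : ℝ} (hΛ : 0 ≤ Λ) (h : Cot2 X k Λ) (b : Fin k → StrongDual ℝ X) :
    ∃ G, IsLift 1 (2 * Λ) b G := by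
  classical
  obtain ⟨β, hβ⟩ : ∃ β : ℝ, β = √(∑ i, ‖b i‖ ^ 2) := ⟨_, rfl⟩
  have hβ0 : 0 ≤ β := hβ ▸ Real.sqrt_nonneg _
  have hβ2 : β ^ 2 = ∑ i, ‖b i‖ ^ 2 := by
    rw [hβ]; exact Real.sq_sqrt (Finset.sum_nonneg fun i _ => sq_nonneg _)
  let ℓ : ((Fin k → Bool) → X) →ₗ[ℝ] ℝ :=
    { toFun := fun f => ∑ j, b j (coef {j} f)
      map_add' := fun f g => by
        rw [← Finset.sum_add_distrib]
        refine Finset.sum_congr rfl fun j _ => ?_
        rw [← map_add, ← coef_add]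
        rfl
      map_smul' := fun t f => by
        rw [RingHom.id_apply, smul_eq_mul, Finset.mul_sum]
        refine Finset.sum_congr rfl fun j _ => ?_
        rw [← smul_eq_mul, ← map_smul, ← coef_smul]
        rfl }
  have hℓ : ∀ f, ℓ f = ∑ j, b j (coef {j} f) := fun f => rfl
  let R : (Fin k → X) →ₗ[ℝ] ((Fin k → Bool) → X) :=
    { toFun := fun x ξ => ∑ i, signVal (ξ i) • x i
      map_add' := fun x y => by
        funext ξ
        simp only [Pi.add_apply, smul_add, Finset.sum_add_distrib]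
      map_smul' := fun t x => by
        funext ξ
        simp only [Pi.smul_apply, RingHom.id_apply, Finset.smul_sum, smul_comm t] }
  have hR : ∀ x, R x = fun ξ => ∑ i, signVal (ξ i) • x i := fun x => rfl
  have hℓR : ∀ x, ℓ (R x) = ∑ j, b j (x j) := fun x => by
    rw [hℓ, hR]
    simp only [h67_coef_rad]
  obtain ⟨L, hL1, hL2⟩ := exists_extension_of_le_sublinear (ℓ.toPMap (LinearMap.range R))
    (fun f => Λ * β * nrm f)
    (fun c hc f => by
      have h1 := nrm_smul c f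
      rw [abs_of_pos hc] at h1
      change Λ * β * nrm (fun x => c • f x) = _
      rw [h1]; ring)
    (fun f g => by
      have h1 := nrm_add_le f g
      change Λ * β * nrm (fun x => f x + g x) ≤ _
      have h2 := mul_le_mul_of_nonneg_left h1 (mul_nonneg hΛ hβ0)
      linarith)
    (by
      rintro ⟨_, x, rfl⟩
      change ℓ (R x) ≤ Λ * β * nrm (R x)
      rw [hℓR]
      have h1 : ∑ j, b j (x j) ≤ ∑ j, ‖b j‖ * ‖x j‖ :=
        Finset.sum_le_sum fun j _ => (le_abs_self _).trans ((b j).le_opNorm (x j))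
      have h2 := Real.sum_mul_le_sqrt_mul_sqrt Finset.univ (fun j => ‖b j‖) (fun j => ‖x j‖)
      have h3 : √(∑ j, ‖x j‖ ^ 2) ≤ Λ * nrm (R x) := by
        rw [Real.sqrt_le_left (mul_nonneg hΛ (nrm_nonneg _)), mul_pow, nrm_sq]
        exact h x
      rw [← hβ] at h2
      have h4 := mul_le_mul_of_nonneg_left h3 hβ0
      linarith)
  have hLR : ∀ x, L (R x) = ∑ j, b j (x j) := fun x => by
    rw [← hℓR]
    exact hL1 ⟨R x, x, rfl⟩
  have hLabs : ∀ f, |L f| ≤ Λ * β * nrm f := fun f => by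
    rw [abs_le]
    refine ⟨?_, hL2 f⟩
    have h1 := hL2 ((-1 : ℝ) • f)
    have h2 := nrm_smul (-1 : ℝ) f
    rw [map_smul] at h1
    change _ ≤ Λ * β * nrm (fun x => (-1 : ℝ) • f x) at h1
    rw [h2] at h1
    simp only [smul_eq_mul, abs_neg, abs_one, one_mul] at h1
    linarith
  have hsingle : ∀ (ζ : Fin k → Bool) (x : X),
      nrm (Pi.single ζ x : (Fin k → Bool) → X) ≤ ‖x‖ := by
    intro ζ x
    refine nrm_le_of_nsq_le _ (norm_nonneg _) ?_
    refine Finset.expect_le Finset.univ_nonempty fun v _ => ?_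
    refine pow_le_pow_left₀ (norm_nonneg _) ?_ 2
    by_cases hv : v = ζ
    · subst hv; simp
    · simp [Pi.single_eq_of_ne hv]
  let G : (Fin k → Bool) → StrongDual ℝ X := fun ζ =>
    LinearMap.mkContinuous
      (((2 : ℝ) ^ k) • L ∘ₗ LinearMap.single ℝ (fun _ : Fin k → Bool => X) ζ)
      (2 ^ k * (Λ * β)) (fun x => by
        change ‖(2 : ℝ) ^ k * L (Pi.single ζ x)‖ ≤ _
        rw [norm_mul, Real.norm_eq_abs, Real.norm_eq_abs, abs_of_pos (by positivity), mul_assoc]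
        refine mul_le_mul_of_nonneg_left ((hLabs _).trans ?_) (by positivity)
        exact mul_le_mul_of_nonneg_left (hsingle ζ x) (mul_nonneg hΛ hβ0))
  have hG : ∀ ζ x, G ζ x = (2 : ℝ) ^ k * L (Pi.single ζ x) := fun ζ x => rfl
  have hLG : ∀ f : (Fin k → Bool) → X, 𝔼 ζ, G ζ (f ζ) = L f := by
    intro f
    rw [Fintype.expect_eq_sum_div_card]
    simp only [hG]
    rw [← Finset.mul_sum, ← map_sum, Finset.univ_sum_single]
    simp only [Fintype.card_fun, Fintype.card_bool, Fintype.card_fin, Nat.cast_pow, Nat.cast_ofNat]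
    field_simp
  refine ⟨G, fun j => ?_, fun S h1 h2 => by omega, ?_⟩
  · ext x
    have h1 := map_coef (evalP X x) {j} G
    simp only [evalP_apply, wal_singleton] at h1
    rw [h1]
    have h2 : ∀ ξ : Fin k → Bool, signVal (ξ j) * G ξ x = G ξ (R (Pi.single j x) ξ) := by
      intro ξ
      rw [← smul_eq_mul, ← map_smul, hR]
      congr 1
      simp only [Pi.single_apply, smul_ite, smul_zero, Finset.sum_ite_eq', Finset.mem_univ, if_true]
    simp only [h2]
    rw [hLG, hLR]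
    simp only [Pi.single_apply, apply_ite, map_zero, Finset.sum_ite_eq', Finset.mem_univ, if_true]
  · obtain ⟨f, hf1, hf2⟩ := exists_half_norming G
    rw [hLG] at hf2
    have h1 := hL2 f
    have h2 := mul_le_mul_of_nonneg_left hf1 (mul_nonneg hΛ hβ0)
    rw [← hβ2, ← nrm_sq] at *
    have h3 := nrm_nonneg G
    have h4 := mul_nonneg hΛ hβ0
    nlinarith [sq_nonneg (nrm G - 2 * Λ * β)]

private theorem h32_mem_closure {k : ℕ} {Λ : ℝ} (hΛ : 0 ≤ Λ) (h : Cot2 (StrongDual ℝ X) k Λ)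
    (a : Fin k → X) : a ∈ closure {z : Fin k → X | ∃ F : (Fin k → Bool) → X,
      nrm F ≤ 2 * Λ * √(∑ i, ‖a i‖ ^ 2) ∧ ∀ i, z i = coef {i} F} := by
  classical
  set α := √(∑ i, ‖a i‖ ^ 2) with hα
  have hα0 : 0 ≤ α := Real.sqrt_nonneg _
  set K := {z : Fin k → X | ∃ F : (Fin k → Bool) → X, nrm F ≤ 2 * Λ * α ∧ ∀ i, z i = coef {i} F}
    with hK
  have hconv : Convex ℝ K := by
    rintro z ⟨F, hF, hz⟩ w ⟨G, hG, hw⟩ s t hs ht hst
    refine ⟨fun ξ => s • F ξ + t • G ξ, ?_, fun i => ?_⟩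
    · refine (nrm_add_le _ _).trans ?_
      rw [nrm_smul, nrm_smul, abs_of_nonneg hs, abs_of_nonneg ht]
      calc s * nrm F + t * nrm G ≤ s * (2 * Λ * α) + t * (2 * Λ * α) := by gcongr
        _ = 2 * Λ * α := by rw [← add_mul, hst, one_mul]
    · rw [coef_add, coef_smul, coef_smul, ← hz, ← hw]; rfl
  by_contra hcl
  obtain ⟨φ, u, hφ, hu⟩ := geometric_hahn_banach_closed_point hconv.closure isClosed_closure hcl
  set y : Fin k → StrongDual ℝ X := fun i =>
    φ.comp (ContinuousLinearMap.single ℝ (fun _ : Fin k => X) i) with hy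
  have hφy : ∀ z : Fin k → X, φ z = ∑ i, y i (z i) := by
    intro z
    conv_lhs => rw [← Finset.univ_sum_single z, map_sum]
    rfl
  set G : (Fin k → Bool) → StrongDual ℝ X := fun ξ => ∑ i, signVal (ξ i) • y i with hG
  have hg0 : 0 ≤ nrm G := nrm_nonneg G
  have h1 : φ a ≤ Λ * α * nrm G := by
    have e1 : φ a ≤ ∑ i, ‖y i‖ * ‖a i‖ := by
      rw [hφy]
      exact Finset.sum_le_sum fun i _ => (le_abs_self _).trans ((y i).le_opNorm (a i))
    have e2 : ∑ i, ‖y i‖ * ‖a i‖ ≤ √(∑ i, ‖y i‖ ^ 2) * α :=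
      Real.sum_mul_le_sqrt_mul_sqrt _ _ _
    have e3 : √(∑ i, ‖y i‖ ^ 2) ≤ Λ * nrm G := by
      rw [Real.sqrt_le_iff]
      refine ⟨by positivity, ?_⟩
      rw [mul_pow, nrm_sq]
      exact h y
    calc φ a ≤ √(∑ i, ‖y i‖ ^ 2) * α := e1.trans e2
      _ ≤ Λ * nrm G * α := by gcongr
      _ = _ := by ring
  have h2 : ∀ F : (Fin k → Bool) → X, φ (fun i => coef {i} F) = 𝔼 ξ, G ξ (F ξ) := by
    intro F
    rw [hφy]
    have : ∀ i, y i (coef {i} F) = 𝔼 ξ, signVal (ξ i) * y i (F ξ) := by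
      intro i
      have := map_coef (y i : X →ₗ[ℝ] ℝ) {i} F
      simpa only [wal_singleton, ContinuousLinearMap.coe_coe] using this
    simp only [this]
    rw [← Finset.expect_sum_comm]
    refine Finset.expect_congr rfl fun ξ _ => ?_
    simp [hG]
  obtain ⟨f, hf1, hf2⟩ := exists_half_norming G
  have h3 : ∀ t : ℝ, 0 ≤ t → t * nrm G ≤ 2 * Λ * α → t * (nrm G ^ 2 / 2) < u := by
    intro t ht htle
    have hm : (fun i => coef {i} (fun ξ => t • f ξ)) ∈ K := by
      refine ⟨fun ξ => t • f ξ, ?_, fun _ => rfl⟩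
      rw [nrm_smul, abs_of_nonneg ht]
      exact (mul_le_mul_of_nonneg_left hf1 ht).trans htle
    have h4 := hφ _ (subset_closure hm)
    rw [h2] at h4
    have h5 : 𝔼 ξ, G ξ (t • f ξ) = t * 𝔼 ξ, G ξ (f ξ) := by
      rw [Finset.mul_expect]
      exact Finset.expect_congr rfl fun ξ _ => by rw [map_smul, smul_eq_mul]
    rw [h5] at h4
    refine lt_of_le_of_lt (mul_le_mul_of_nonneg_left ?_ ht) h4
    rw [nrm_sq]; linarith
  rcases hg0.eq_or_lt with hg | hg
  · have := h3 0 le_rfl (by rw [zero_mul]; positivity)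
    rw [← hg] at h1
    linarith
  · have := h3 (2 * Λ * α / nrm G) (by positivity) (by rw [div_mul_cancel₀ _ hg.ne'])
    have e : 2 * Λ * α / nrm G * (nrm G ^ 2 / 2) = Λ * α * nrm G := by field_simp
    linarith

/-- Lifts in the predual.  Let `α = √(∑ ‖a i‖²)`, `K = {(coef {i} F)_i | nrm F ≤ 2 Λ α} ⊆ (Fin k → X)`,
a convex set.  If `a ∉ closure K`, `geometric_hahn_banach_closed_point` (or `point_closed`) gives a
continuous functional `φ` with `φ z < u < φ a` on `K`; `y i = φ ∘ single i`; `φ a = ∑ y i (a i) ≤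
‖y‖₂ α ≤ Λ α nrm G` for `G ξ = ∑ signVal (ξ i) • y i`, while `exists_half_norming G` rescaled to norm
`≤ 2 Λ α` gives a point of `K` with `φ ≥ Λ α nrm G` (`E_ξ G ξ (F ξ) = ∑ i, y i (coef {i} F)` by
`map_coef`): contradiction.  So some `F` has `nrm F ≤ 2 Λ α` and `‖coef {i} F - a i‖ < δ`; correct it by
`F ξ - ∑ i, signVal (ξ i) • (coef {i} F - a i)`, whose norm is `≤ 2 Λ α + k δ ≤ (2 Λ + 1) α`
(if `α = 0` take `F = 0`). -/
theorem lift_pre {k : ℕ} {Λ : ℝ} (hΛ : 0 ≤ Λ) (h : Cot2 (StrongDual ℝ X) k Λ) (a : Fin k → X) :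
    ∃ F, IsLift 1 (2 * Λ + 1) a F := by
  classical
  have hS : 0 ≤ ∑ i, ‖a i‖ ^ 2 := Finset.sum_nonneg fun i _ => sq_nonneg _
  have hcl := h32_mem_closure hΛ h a
  set α := √(∑ i, ‖a i‖ ^ 2) with hα
  have hα0 : 0 ≤ α := Real.sqrt_nonneg _
  have hα2 : α ^ 2 = ∑ i, ‖a i‖ ^ 2 := Real.sq_sqrt hS
  rcases hα0.eq_or_lt with h0 | h0
  · refine ⟨fun _ => 0, fun i => ?_, fun S h2 h1 => by omega, ?_⟩
    · have h1 : ∑ i, ‖a i‖ ^ 2 = 0 := by rw [← hα2, ← h0]; norm_num
      have h2 := (Finset.sum_eq_zero_iff_of_nonneg fun i _ => sq_nonneg ‖a i‖).1 h1 i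
        (Finset.mem_univ i)
      have h3 : a i = 0 := by simpa using h2
      simp [coef, h3]
    · have : nsq (fun _ : Fin k → Bool => (0 : X)) = 0 := by simp [nsq]
      rw [this]; positivity
  · have hδ : 0 < α / (k + 1) := by positivity
    obtain ⟨z, ⟨F, hF, hz⟩, hd⟩ := Metric.mem_closure_iff.1 hcl _ hδ
    have hw : ∀ i, ‖a i - z i‖ ≤ α / (k + 1) := fun i => by
      rw [← dist_eq_norm]; exact (dist_le_pi_dist a z i).trans hd.le
    refine ⟨fun ξ => F ξ + ∑ i, wal {i} ξ • (a i - z i), fun j => ?_, fun S h2 h1 => by omega, ?_⟩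
    · rw [coef_add, coef_sum, ← hz]
      simp only [coef_wal_smul, Finset.singleton_inj]
      rw [Finset.sum_ite_eq]
      simp
    · have h1 : nrm (fun ξ : Fin k → Bool => ∑ i, wal {i} ξ • (a i - z i)) ≤ α := by
        refine nrm_le_of_nsq_le _ hα0 (Finset.expect_le Finset.univ_nonempty fun ξ _ => ?_)
        refine pow_le_pow_left₀ (norm_nonneg _) ((norm_sum_le _ _).trans ?_) 2
        calc ∑ i, ‖wal {i} ξ • (a i - z i)‖ ≤ ∑ _i : Fin k, α / (k + 1) :=
              Finset.sum_le_sum fun i _ => by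
                rw [norm_smul, Real.norm_eq_abs, abs_wal, one_mul]; exact hw i
          _ = k * (α / (k + 1)) := by simp
          _ ≤ (k + 1) * (α / (k + 1)) := by gcongr; linarith
          _ = α := by field_simp
      have h2 := (nrm_add_le F fun ξ => ∑ i, wal {i} ξ • (a i - z i)).trans (add_le_add hF h1)
      rw [← nrm_sq, ← hα2, ← mul_pow]
      exact pow_le_pow_left₀ (nrm_nonneg _) (by linarith) 2

theorem IsLift.mono {ι : Type*} [Fintype ι] [DecidableEq ι] {d : ℕ} {Λ Λ' : ℝ} {a : ι → X}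
    {F : (ι → Bool) → X} (h : IsLift d Λ a F) (h0 : 0 ≤ Λ) (hle : Λ ≤ Λ') : IsLift d Λ' a F := by
  exact ⟨h.one, h.mid, h.le.trans (mul_le_mul_of_nonneg_right (pow_le_pow_left₀ h0 hle 2)
    (Finset.sum_nonneg fun i _ => sq_nonneg _))⟩

/-- The noise operator with parameter `1/2`: `T F ξ = ∑ η, p η • F (fun i => ξ i == η i)` with the
probability weights `p η = ∏ i, (1 + signVal (η i) / 2) / 2`.  It contracts `nrm` (`nrm_sum_le`,
`nrm_smul`, `nsq_equiv` for the involution `ξ ↦ fun i => ξ i == η i`, `sum_prod_bool`) and multiplies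
`coef S` by `∑ η, p η * wal S η = (1/2) ^ card S` (`wal_beq`, `sum_prod_bool`). -/
theorem exists_noise {ι : Type*} [Fintype ι] [DecidableEq ι] (F : (ι → Bool) → X) :
    ∃ F' : (ι → Bool) → X, nrm F' ≤ nrm F ∧ ∀ S, coef S F' = (1 / 2 : ℝ) ^ S.card • coef S F := by
  set p : (ι → Bool) → ℝ := fun η => ∏ i, (1 + signVal (η i) / 2) / 2 with hp
  have hp0 : ∀ η, 0 ≤ p η := fun η => prod_nonneg fun i _ => by
    cases η i <;> simp [signVal] <;> norm_num
  have hp1 : ∑ η, p η = 1 := by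
    rw [hp, sum_prod_bool fun _ b => (1 + signVal b / 2) / 2]
    refine prod_eq_one fun i _ => ?_
    simp [signVal]
    norm_num
  have hpS : ∀ S : Finset ι, ∑ η, p η * wal S η = (1 / 2 : ℝ) ^ S.card := by
    intro S
    have h1 : ∀ η, p η * wal S η =
        ∏ i, ((1 + signVal (η i) / 2) / 2 * if i ∈ S then signVal (η i) else 1) := by
      intro η
      rw [prod_mul_distrib, hp, wal, ← prod_filter, filter_mem_eq_inter, univ_inter]
    simp only [h1]
    rw [sum_prod_bool fun i b => (1 + signVal b / 2) / 2 * if i ∈ S then signVal b else 1]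
    have h2 : ∀ i, ((1 + signVal true / 2) / 2 * if i ∈ S then signVal true else 1) +
        ((1 + signVal false / 2) / 2 * if i ∈ S then signVal false else 1) =
        if i ∈ S then (1 / 2 : ℝ) else 1 := by
      intro i
      split_ifs <;> simp [signVal] <;> norm_num
    simp only [h2]
    rw [← prod_filter, filter_mem_eq_inter, univ_inter, prod_const]
  clear_value p
  have hinv : ∀ η : ι → Bool, Function.Involutive fun (ξ : ι → Bool) i => ξ i == η i := by
    intro η ξ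
    funext i
    show ((ξ i == η i) == η i) = ξ i
    cases ξ i <;> cases η i <;> rfl
  refine ⟨fun ξ => ∑ η, p η • F (fun i => ξ i == η i), ?_, fun S => ?_⟩
  · have h0 := nrm_sum_le (univ : Finset (ι → Bool))
      fun (η : ι → Bool) (ξ : ι → Bool) => p η • F (fun i => ξ i == η i)
    refine h0.trans (le_of_eq ?_)
    have h1 : ∀ η : ι → Bool, nrm (fun ξ : ι → Bool => F (fun i => ξ i == η i)) = nrm F := by
      intro η
      unfold nrm
      rw [← nsq_equiv (hinv η).toPerm F]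
      rfl
    simp only [nrm_smul, h1, abs_of_nonneg (hp0 _)]
    rw [← sum_mul, hp1, one_mul]
  · rw [coef_sum (univ : Finset (ι → Bool)) S
      fun (η : ι → Bool) (ξ : ι → Bool) => p η • F (fun i => ξ i == η i)]
    have h1 : ∀ η : ι → Bool, coef S (fun ξ : ι → Bool => F (fun i => ξ i == η i)) =
        wal S η • coef S F := by
      intro η
      unfold coef
      rw [smul_comm (wal S η), smul_sum (r := wal S η)]
      congr 1
      refine Fintype.sum_equiv (hinv η).toPerm _ _ fun ξ => ?_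
      simp only [Function.Involutive.coe_toPerm, wal_beq, smul_smul]
      congr 1
      rw [mul_comm (wal S ξ), ← mul_assoc, wal_mul_self, one_mul]
    simp only [coef_smul, h1, smul_smul]
    rw [← sum_smul, hpS]

/-- Filtering out the levels `2, …, d`.  Induction on `d`: to kill level `s = d + 1 ≥ 2` replace `F`
by `(T F - 2⁻ˢ F) / (1/2 - 2⁻ˢ)`, whose norm is at most `(1 + 1/4) / (1/4) = 5` times larger. -/
theorem IsLift.filter {ι : Type*} [Fintype ι] [DecidableEq ι] {Λ : ℝ} (hΛ : 0 ≤ Λ) {a : ι → X}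
    {F : (ι → Bool) → X} (h : IsLift 1 Λ a F) (d : ℕ) : ∃ F', IsLift d (5 ^ d * Λ) a F' := by
  have h0 : ∀ d : ℕ, ∃ F', IsLift (d + 1) (5 ^ d * Λ) a F' := by
    intro d
    induction d with
    | zero => exact ⟨F, by simpa using h⟩
    | succ d ih =>
      obtain ⟨G, hG⟩ := ih
      obtain ⟨G', hG'1, hG'2⟩ := exists_noise G
      set s : ℝ := (1 / 2 : ℝ) ^ (d + 2) with hs
      have hs0 : 0 < s := by positivity
      have hs1 : s ≤ 1 / 4 := by
        rw [hs, pow_add]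
        have : (1 / 2 : ℝ) ^ d ≤ 1 := pow_le_one₀ (by norm_num) (by norm_num)
        linarith
      have hr : 0 < 1 / 2 - s := by linarith
      have hc : ∀ S, coef S (fun ξ => (1 / 2 - s)⁻¹ • (G' ξ + (-s) • G ξ)) =
          ((1 / 2 - s)⁻¹ * ((1 / 2 : ℝ) ^ S.card - s)) • coef S G := by
        intro S
        rw [coef_smul, coef_add, coef_smul, hG'2, ← add_smul, smul_smul, sub_eq_add_neg
          ((1 / 2 : ℝ) ^ S.card)]
      refine ⟨fun ξ => (1 / 2 - s)⁻¹ • (G' ξ + (-s) • G ξ), fun i => ?_, fun S h2 hS => ?_, ?_⟩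
      · rw [hc, card_singleton, pow_one, inv_mul_cancel₀ hr.ne', one_smul, hG.one]
      · rw [hc]
        rcases Nat.lt_or_ge S.card (d + 2) with h3 | h3
        · rw [hG.mid S h2 (by omega), smul_zero]
        · rw [show S.card = d + 2 by omega, ← hs, sub_self, mul_zero, zero_smul]
      · have h1 : nrm (fun ξ => (1 / 2 - s)⁻¹ • (G' ξ + (-s) • G ξ)) ≤ 5 * nrm G := by
          rw [nrm_smul, abs_of_pos (inv_pos.mpr hr), inv_mul_le_iff₀ hr]
          refine (nrm_add_le G' fun ξ => (-s) • G ξ).trans ?_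
          rw [nrm_smul, abs_neg, abs_of_pos hs0]
          have := nrm_nonneg G
          nlinarith
        have h2 := pow_le_pow_left₀ (nrm_nonneg _) h1 2
        rw [nrm_sq, mul_pow, nrm_sq] at h2
        have h3 := hG.le
        calc _ ≤ _ := h2
          _ ≤ 5 ^ 2 * ((5 ^ d * Λ) ^ 2 * ∑ i, ‖a i‖ ^ 2) := by gcongr
          _ = _ := by ring
  obtain ⟨F', hF'⟩ := h0 d
  exact ⟨F', hF'.one, fun S h2 hS => hF'.mid S h2 (by omega), hF'.le⟩

end Crest.Agent.R118
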