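import Crest.Agent.R118.Step
import Crest.Agent.R118.Lift

/-! Row 118: Walsh decay for a space with the approximation property. -/

set_option autoImplicit false

open Finset Crest.AnalysisR
open scoped BigOperators

namespace Crest.Agent.R118

variable {X : Type*} [NormedAddCommGroup X] [NormedSpace ℝ X]

private theorem exists_rank_decomp (S : X →L[ℝ] X)
    (hS : FiniteDimensional ℝ (LinearMap.range (S : X →ₗ[ℝ] X))) :
    ∃ (n : ℕ) (α : Fin n → X →L[ℝ] ℝ) (e : Fin n → X), ∀ a, S a = ∑ l, α l a • e l := by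
  let R := LinearMap.range (S : X →ₗ[ℝ] X)
  let b := Module.finBasis ℝ R
  let S' : X →L[ℝ] R := S.codRestrict R (fun a => ⟨a, rfl⟩)
  refine ⟨Module.finrank ℝ R, fun l => (LinearMap.toContinuousLinearMap (b.coord l)).comp S',
    fun l => (b l : X), fun a => ?_⟩
  have h := congrArg (fun z : R => (z : X)) (b.sum_repr (S' a))
  simp only [AddSubmonoidClass.coe_finsetSum, Submodule.coe_smul] at h
  exact h.symm

private theorem sqrt_expect_le {V A : Type*} [Fintype V] [NormedAddCommGroup A] (f : V → A)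
    (u : V → ℝ) {c : ℝ} (hc : 0 ≤ c) (h : ∀ x, |u x| ≤ c * ‖f x‖) :
    √(𝔼 x, u x ^ 2) ≤ c * nrm f := by
  rw [Real.sqrt_le_left (mul_nonneg hc (nrm_nonneg f)), mul_pow, nrm_sq, nsq, mul_expect]
  refine expect_le_expect fun x _ => ?_
  rw [← mul_pow, ← sq_abs (u x)]
  exact pow_le_pow_left₀ (abs_nonneg _) (h x) 2

/-- Finite rank forms satisfy `H` with some constant.  Take a basis `e l` of the finite-dimensional
range of `S`; the coordinates `α l a` of `S a` are bounded by `C l * ‖a‖`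
(`LinearMap.continuous_of_finiteDimensional`), `b (S a) = ∑ l, α l a * b (e l)`; use
`Bichar.abs_expect_le` and `√bias = bias ^ (1/2) ≤ bias ^ ρ` (`Real.rpow_le_rpow_of_exponent_ge`,
`bias_pos`, `bias_le_one`). -/
theorem H_of_finiteRank (S : X →L[ℝ] X)
    (hS : FiniteDimensional ℝ (LinearMap.range (S : X →ₗ[ℝ] X))) {ρ : ℝ} (hρ : ρ ≤ 1 / 2) :
    ∃ Θ : ℝ, 0 ≤ Θ ∧ H ((evalP X).comp (S : X →ₗ[ℝ] X)) Set.univ Set.univ ρ Θ := by
  obtain ⟨n, α, e, hα⟩ := exists_rank_decomp S hS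
  refine ⟨∑ l, ‖α l‖ * ‖e l‖, sum_nonneg fun l _ => by positivity, ?_⟩
  intro V W _ _ _ _ β f g _ _
  have h1 : test β ((evalP X).comp (S : X →ₗ[ℝ] X)) f g
      = ∑ l, 𝔼 x, 𝔼 y, β.toFun x y * (α l (f x) * g y (e l)) := by
    unfold test
    rw [← expect_sum_comm]
    refine expect_congr rfl fun x _ => ?_
    rw [← expect_sum_comm]
    refine expect_congr rfl fun y _ => ?_
    rw [← mul_sum]
    congr 1
    simp only [LinearMap.comp_apply, evalP_apply, ContinuousLinearMap.coe_coe, hα, map_sum,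
      map_smul, smul_eq_mul, LinearMap.sum_apply, LinearMap.smul_apply]
  have hb : √β.bias ≤ β.bias ^ ρ := by
    rw [Real.sqrt_eq_rpow]
    exact Real.rpow_le_rpow_of_exponent_ge β.bias_pos β.bias_le_one hρ
  rw [h1, sum_mul, sum_mul, sum_mul]
  refine (abs_sum_le_sum_abs _ _).trans (sum_le_sum fun l _ => ?_)
  refine (β.abs_expect_le (fun x => α l (f x)) (fun y => g y (e l))).trans ?_
  have hu := sqrt_expect_le f (fun x => α l (f x)) (norm_nonneg (α l))
    (fun x => (α l).le_opNorm (f x))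
  have hv := sqrt_expect_le g (fun y => g y (e l)) (norm_nonneg (e l))
    (fun y => by rw [mul_comm]; exact (g y).le_opNorm (e l))
  have hf := nrm_nonneg f
  have hg := nrm_nonneg g
  calc √β.bias * (√(𝔼 x, α l (f x) ^ 2) * √(𝔼 y, g y (e l) ^ 2))
      ≤ β.bias ^ ρ * ((‖α l‖ * nrm f) * (‖e l‖ * nrm g)) := by
        have := (Real.rpow_pos_of_pos β.bias_pos ρ).le
        gcongr
    _ = ‖α l‖ * ‖e l‖ * β.bias ^ ρ * nrm f * nrm g := by ring

/-- Finite level sets and the approximation property.  The set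
`M = {0} ∪ ⋃ j, (fun g => ((2 ^ j * ‖g‖)⁻¹) • g) '' P j` is compact (for `ε > 0` all but finitely many
points lie in `ball 0 ε`; e.g. `isCompact_of_finite_subcover`, or `Metric.totallyBounded_iff` and take
the closure, which needs completeness). -/
theorem exists_approx [CompleteSpace X] (hAP : HasApproximationProperty X) (P : ℕ → Set X)
    (hP : ∀ j, (P j).Finite) {δ : ℝ} (hδ : 0 < δ) :
    ∃ S : X →L[ℝ] X, FiniteDimensional ℝ (LinearMap.range (S : X →ₗ[ℝ] X)) ∧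
      ∀ j, ∀ a ∈ P j, ‖S a - a‖ ≤ δ * 2 ^ j * ‖a‖ := by
  set φ : ℕ → X → X := fun j g => ((2 : ℝ) ^ j * ‖g‖)⁻¹ • g with hφ
  have hφn : ∀ j g, ‖φ j g‖ ≤ (1 / 2 : ℝ) ^ j := by
    intro j g
    have h2 : (0 : ℝ) < 2 ^ j := by positivity
    rcases eq_or_ne g 0 with rfl | hg
    · simp only [hφ, smul_zero, norm_zero]; positivity
    · have hg' : 0 < ‖g‖ := norm_pos_iff.mpr hg
      simp only [hφ, norm_smul, Real.norm_eq_abs]
      rw [abs_of_pos (by positivity), one_div, inv_pow]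
      apply le_of_eq
      field_simp
  have htb : TotallyBounded (⋃ j, φ j '' P j) := by
    rw [Metric.totallyBounded_iff]
    intro ε hε
    obtain ⟨N, hN⟩ := exists_pow_lt_of_lt_one hε (by norm_num : (1 / 2 : ℝ) < 1)
    refine ⟨insert 0 (⋃ j ∈ Set.Iio N, φ j '' P j), ?_, ?_⟩
    · exact ((Set.finite_Iio N).biUnion fun j _ => (hP j).image _).insert _
    · intro x hx
      obtain ⟨j, hj⟩ := Set.mem_iUnion.mp hx
      by_cases hjN : j < N
      · refine Set.mem_biUnion (x := x) (Set.mem_insert_of_mem _ ?_) (Metric.mem_ball_self hε)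
        exact Set.mem_biUnion (x := j) hjN hj
      · refine Set.mem_biUnion (x := 0) (Set.mem_insert _ _) ?_
        obtain ⟨g, -, rfl⟩ := hj
        rw [mem_ball_zero_iff]
        refine (hφn j g).trans_lt (lt_of_le_of_lt ?_ hN)
        exact pow_le_pow_of_le_one (by norm_num) (by norm_num) (not_lt.mp hjN)
  have hc : IsCompact (closure (⋃ j, φ j '' P j)) :=
    htb.closure.isCompact_of_isClosed isClosed_closure
  obtain ⟨S, hS, hSx⟩ := hAP _ hc δ hδ
  refine ⟨S, hS, fun j a ha => ?_⟩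
  rcases eq_or_ne a 0 with rfl | ha0
  · simp
  have ha' : 0 < ‖a‖ := norm_pos_iff.mpr ha0
  have h2 : (0 : ℝ) < 2 ^ j * ‖a‖ := by positivity
  have h := hSx (φ j a) (subset_closure (Set.mem_iUnion.mpr ⟨j, a, ha, rfl⟩))
  simp only [hφ, map_smul] at h
  rw [← smul_sub, norm_smul, Real.norm_eq_abs, abs_of_pos (inv_pos.mpr h2),
    inv_mul_lt_iff₀ h2] at h
  calc ‖S a - a‖ ≤ 2 ^ j * ‖a‖ * δ := h.le
    _ = δ * 2 ^ j * ‖a‖ := by ring

/-- Finite symmetric level sets closed under a chosen lift: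
`P 0 = P₀ ∪ -P₀`, `P (j+1) = Q ∪ -Q` with `Q = P j ∪ {L a ξ | ∀ i, a i ∈ P j}`
(`Set.Finite.pi'`, `Set.Finite.image`/`biUnion`). -/
theorem exists_levels {k : ℕ} (L : (Fin k → X) → (Fin k → Bool) → X) (P₀ : Set X)
    (h₀ : P₀.Finite) :
    ∃ P : ℕ → Set X, P₀ ⊆ P 0 ∧ (∀ j, (P j).Finite) ∧ (∀ j, P j ⊆ P (j + 1)) ∧
      (∀ j, ∀ a ∈ P j, -a ∈ P j) ∧
      ∀ j, ∀ a : Fin k → X, (∀ i, a i ∈ P j) → ∀ ξ, L a ξ ∈ P (j + 1) := by
  let sym : Set X → Set X := fun Q => Q ∪ (fun a => -a) '' Q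
  let nxt : Set X → Set X := fun Q =>
    Q ∪ ⋃ ξ : Fin k → Bool, (fun a => L a ξ) '' {a | ∀ i, a i ∈ Q}
  have hsymf : ∀ Q, Q.Finite → (sym Q).Finite := fun Q h => h.union (h.image _)
  have hnf : ∀ Q, Q.Finite → (nxt Q).Finite := fun Q h =>
    h.union (Set.finite_iUnion fun ξ => (Set.Finite.pi' fun _ => h).image _)
  have hneg : ∀ Q, ∀ a ∈ sym Q, -a ∈ sym Q := by
    rintro Q a (h | ⟨b, hb, rfl⟩)
    · exact Or.inr ⟨a, h, rfl⟩
    · exact Or.inl (by simpa using hb)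
  let P : ℕ → Set X := fun j => Nat.rec (sym P₀) (fun _ Q => sym (nxt Q)) j
  have hP : ∀ j, P (j + 1) = sym (nxt (P j)) := fun j => rfl
  refine ⟨P, Set.subset_union_left, ?_, ?_, ?_, ?_⟩
  · intro j
    induction j with
    | zero => exact hsymf _ h₀
    | succ j ih => rw [hP]; exact hsymf _ (hnf _ ih)
  · intro j a ha
    rw [hP]
    exact Or.inl (Or.inl ha)
  · intro j
    cases j with
    | zero => exact hneg _
    | succ j => rw [hP]; exact hneg _
  · intro j a ha ξ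
    rw [hP]
    exact Or.inl (Or.inr (Set.mem_iUnion.2 ⟨ξ, a, ha, rfl⟩))

/-- **Walsh decay.**  Given `β, f, g` take `P₀ = range f`, levels from `exists_levels`, and for
`0 < δ ≤ 1` the operator `S` of `exists_approx`; `core` applies to `(evalP X).comp S`, and the two tests
differ by at most `δ * nrm f * nrm g` (`expect_norm_le_nrm`).  Let `δ → 0`
(`le_of_forall_pos_le_add`). -/
theorem decay_of_lifts [CompleteSpace X] (hAP : HasApproximationProperty X) {k d : ℕ} {w Λ : ℝ}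
    (hk : 0 < k) (hw0 : 0 < w) (hw1 : w ≤ 1) (hw : w ^ (d + 1) * (k : ℝ) ^ 2 ≤ 1) (hΛ : 0 ≤ Λ)
    (hnum : 64 * Λ ≤ w * √k) (liftA : ∀ a : Fin k → X, ∃ F, IsLift d Λ a F)
    (liftB : ∀ b : Fin k → StrongDual ℝ X, ∃ G, IsLift d Λ b G) :
    H (evalP X) Set.univ Set.univ (1 / (2 * k)) (2 * 2 ^ (k * k) + 1) := by
  intro V W _ _ _ _ β f g _ _
  choose L hL using liftA
  obtain ⟨P, hP0, hPf, hPs, hPn, hPL⟩ := exists_levels L (Set.range f) (Set.finite_range f)
  have hρ : (1 / (2 * k) : ℝ) ≤ 1 / 2 := by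
    have : (1 : ℝ) ≤ k := by exact_mod_cast hk
    exact one_div_le_one_div_of_le (by norm_num) (by linarith)
  have hf0 := nrm_nonneg f
  have hg0 := nrm_nonneg g
  have key : ∀ δ : ℝ, 0 < δ → δ ≤ 1 → |test β (evalP X) f g| ≤
      (2 * 2 ^ (k * k) + 1) * β.bias ^ (1 / (2 * k) : ℝ) * nrm f * nrm g + δ * (nrm f * nrm g) := by
    intro δ hδ hδ1
    obtain ⟨S, hS, hSa⟩ := exists_approx hAP P hPf hδ
    obtain ⟨Θ, hΘ, hH⟩ := H_of_finiteRank S hS hρ
    have hcore := core P hH hΘ hk hw0 hw1 hw hΛ hnum hPs hPn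
      (fun j a ha => ⟨L a, hPL j a ha, hL a⟩) liftB (by
        intro j a ha b
        have h1 : (1 : ℝ) ≤ 2 ^ j := one_le_pow₀ (by norm_num)
        have ha0 := norm_nonneg a
        have h2 : ‖S a‖ ≤ 2 * 2 ^ j * ‖a‖ := by
          have h3 : ‖S a‖ ≤ ‖S a - a‖ + ‖a‖ := by
            simpa using norm_add_le (S a - a) a
          have h4 := hSa j a ha
          have h5 : δ * 2 ^ j * ‖a‖ ≤ 1 * 2 ^ j * ‖a‖ := by gcongr
          nlinarith
        have h6 : |b (S a)| ≤ ‖b‖ * ‖S a‖ := b.le_opNorm _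
        have hb0 := norm_nonneg b
        calc |((evalP X).comp (S : X →ₗ[ℝ] X)) a b| = |b (S a)| := rfl
          _ ≤ ‖b‖ * ‖S a‖ := h6
          _ ≤ ‖b‖ * (2 * 2 ^ j * ‖a‖) := by gcongr
          _ = 2 * 2 ^ j * (‖a‖ * ‖b‖) := by ring)
    have h1 := hcore V W β f g (fun x => hP0 ⟨x, rfl⟩) (fun _ => trivial)
    have h2 : |test β (evalP X) f g - test β ((evalP X).comp (S : X →ₗ[ℝ] X)) f g| ≤
        δ * (nrm f * nrm g) := by
      unfold test
      rw [← expect_sub_distrib]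
      simp only [← expect_sub_distrib]
      calc |𝔼 x, 𝔼 y, (β.toFun x y * evalP X (f x) (g y) -
              β.toFun x y * ((evalP X).comp (S : X →ₗ[ℝ] X)) (f x) (g y))|
          ≤ 𝔼 x, 𝔼 y, δ * (‖f x‖ * ‖g y‖) := by
            refine (abs_expect_le _ _).trans (expect_le_expect fun x _ => ?_)
            refine (abs_expect_le _ _).trans (expect_le_expect fun y _ => ?_)
            rw [← mul_sub, abs_mul, β.abs_eq, one_mul]
            have e : evalP X (f x) (g y) - ((evalP X).comp (S : X →ₗ[ℝ] X)) (f x) (g y) =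
                g y (f x - S (f x)) := by
              rw [map_sub]; rfl
            rw [e]
            have h6 : |g y (f x - S (f x))| ≤ ‖g y‖ * ‖f x - S (f x)‖ := (g y).le_opNorm _
            have h7 := hSa 0 (f x) (hP0 ⟨x, rfl⟩)
            rw [norm_sub_rev, pow_zero, mul_one] at h7
            have hb0 := norm_nonneg (g y)
            calc _ ≤ ‖g y‖ * ‖f x - S (f x)‖ := h6
              _ ≤ ‖g y‖ * (δ * ‖f x‖) := by gcongr
              _ = δ * (‖f x‖ * ‖g y‖) := by ring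
        _ = δ * ((𝔼 x, ‖f x‖) * 𝔼 y, ‖g y‖) := by
            rw [expect_mul, mul_expect]
            refine expect_congr rfl fun x _ => ?_
            rw [mul_expect, mul_expect]
        _ ≤ δ * (nrm f * nrm g) := by
            have h8 := expect_norm_le_nrm f
            have h9 := expect_norm_le_nrm g
            have h10 : 0 ≤ 𝔼 y, ‖g y‖ := expect_nonneg fun _ _ => norm_nonneg _
            exact mul_le_mul_of_nonneg_left (mul_le_mul h8 h9 h10 hf0) hδ.le
    have h3 := abs_sub_abs_le_abs_sub (test β (evalP X) f g)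
      (test β ((evalP X).comp (S : X →ₗ[ℝ] X)) f g)
    linarith
  refine le_of_forall_pos_le_add fun ε hε => ?_
  have hm : 0 ≤ nrm f * nrm g := mul_nonneg hf0 hg0
  have h := key (min 1 (ε / (nrm f * nrm g + 1))) (by positivity) (min_le_left _ _)
  have h2 : min 1 (ε / (nrm f * nrm g + 1)) * (nrm f * nrm g) ≤ ε := by
    calc _ ≤ ε / (nrm f * nrm g + 1) * (nrm f * nrm g + 1) :=
          mul_le_mul (min_le_right _ _) (by linarith) hm (by positivity)
      _ = ε := by field_simp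
  linarith

/-- Choice of the parameters: `n ≥ max q r` (so `n ≥ 2`), `d + 1 = 4 n`, `E = max |C| |D|`,
`t ≥ 64 * 5 ^ d * (2 E + 1)` a natural number, `k = t ^ (2 n)`, `w = 1 / t`,
`Λ = 5 ^ d * (2 E t ^ (n-2) + 1)`; then `√k = t ^ n`, `w √k = t ^ (n-1)`, `w ^ (d+1) k² = 1`. -/
theorem decay [CompleteSpace X] (hAP : HasApproximationProperty X) {q r C D : ℝ} (hq : 2 ≤ q)
    (hr : 2 ≤ r) (hX : HasRademacherCotype X q C)
    (hX' : HasRademacherCotype (StrongDual ℝ X) r D) :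
    ∃ ρ c : ℝ, 0 < ρ ∧ 0 ≤ c ∧ H (evalP X) Set.univ Set.univ ρ c := by
  obtain ⟨m, hm⟩ : ∃ m : ℕ, max q r ≤ ((m + 2 : ℕ) : ℝ) := by
    refine ⟨⌈max q r⌉₊, ?_⟩
    have := Nat.le_ceil (max q r)
    push_cast
    linarith
  set E : ℝ := max |C| |D| with hE
  have hE0 : 0 ≤ E := (abs_nonneg C).trans (le_max_left _ _)
  set d : ℕ := 4 * m + 7 with hd
  obtain ⟨t, ht⟩ : ∃ t : ℕ, 64 * 5 ^ d * (2 * E + 1) ≤ (t : ℝ) := ⟨_, Nat.le_ceil _⟩
  have h5 : (1 : ℝ) ≤ 5 ^ d := one_le_pow₀ (by norm_num)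
  have ht1' : (1 : ℝ) ≤ t := by nlinarith
  have ht1 : 1 ≤ t := by exact_mod_cast ht1'
  have ht0 : (0 : ℝ) < t := by linarith
  have htm : (1 : ℝ) ≤ (t : ℝ) ^ m := one_le_pow₀ ht1'
  set Λ₀ : ℝ := E * (t : ℝ) ^ m with hΛ₀
  have hΛ₀0 : 0 ≤ Λ₀ := by positivity
  have cA : Cot2 X (t ^ (2 * (m + 2))) Λ₀ := by
    have := cot2_of_cotype hq hX ((le_max_left _ _).trans hm) ht1
    rw [Nat.add_sub_cancel] at this
    exact this.mono (by positivity)
      (mul_le_mul_of_nonneg_right (le_max_left _ _) (by positivity))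
  have cB : Cot2 (StrongDual ℝ X) (t ^ (2 * (m + 2))) Λ₀ := by
    have := cot2_of_cotype hr hX' ((le_max_right _ _).trans hm) ht1
    rw [Nat.add_sub_cancel] at this
    exact this.mono (by positivity)
      (mul_le_mul_of_nonneg_right (le_max_right _ _) (by positivity))
  have hk : 0 < t ^ (2 * (m + 2)) := pow_pos ht1 _
  refine ⟨_, _, ?_, ?_, decay_of_lifts hAP (k := t ^ (2 * (m + 2))) (d := d) (w := 1 / t)
    (Λ := 5 ^ d * (2 * Λ₀ + 1)) hk (by positivity) ?_ ?_ (by positivity) ?_ ?_ ?_⟩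
  · have : (0 : ℝ) < ((t ^ (2 * (m + 2)) : ℕ) : ℝ) := by exact_mod_cast hk
    positivity
  · positivity
  · rw [div_le_one ht0]; exact ht1'
  · apply le_of_eq
    push_cast
    rw [← pow_mul, show d + 1 = 2 * (m + 2) * 2 by omega, ← mul_pow, one_div,
      inv_mul_cancel₀ ht0.ne', one_pow]
  · have e1 : √(((t ^ (2 * (m + 2)) : ℕ) : ℝ)) = (t : ℝ) ^ (m + 2) := by
      push_cast
      rw [mul_comm 2 (m + 2), pow_mul, Real.sqrt_sq (by positivity)]
    have e2 : 1 / (t : ℝ) * (t : ℝ) ^ (m + 2) = t * (t : ℝ) ^ m := by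
      field_simp
      ring
    rw [e1, e2]
    have e3 : 2 * Λ₀ + 1 ≤ (2 * E + 1) * (t : ℝ) ^ m := by
      rw [hΛ₀]; nlinarith
    calc 64 * (5 ^ d * (2 * Λ₀ + 1)) ≤ 64 * (5 ^ d * ((2 * E + 1) * (t : ℝ) ^ m)) := by gcongr
      _ = (64 * 5 ^ d * (2 * E + 1)) * (t : ℝ) ^ m := by ring
      _ ≤ t * (t : ℝ) ^ m := by gcongr
  · intro a
    obtain ⟨F, hF⟩ := lift_pre hΛ₀0 cB a
    exact hF.filter (by positivity) d
  · intro b
    obtain ⟨G, hG⟩ := lift_dual hΛ₀0 cA b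
    exact (hG.mono (by positivity) (by linarith : 2 * Λ₀ ≤ 2 * Λ₀ + 1)).filter (by positivity) d

end Crest.Agent.R118
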