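import Mathlib
import Crest.Prelude.Def_Rademacher

/-! Row 118 (S0158): definitions.  Owner helper63.

Plan.  A *test* is a `±1` bicharacter `β` on finite abelian groups `V × W`; `H Φ PA PB ρ c` says that
every test of the bilinear form `Φ` is at most `c * bias^ρ * ‖f‖₂ ‖g‖₂`.  `Step.step` improves `c` to
`c / 4` using lifts (dual cotype on both sides) and an odd Riesz product; `Decay.decay` deduces `H`
for the duality pairing of `X`; `Mult`/`Kato` turn this into K-convexity. -/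

set_option autoImplicit false

open Finset Crest.AnalysisR
open scoped BigOperators

namespace Crest.Agent.R118

/-- Walsh function of the finite set `S`. -/
def wal {ι : Type*} (S : Finset ι) (ξ : ι → Bool) : ℝ := ∏ i ∈ S, signVal (ξ i)

/-- Mean square norm. -/
noncomputable def nsq {V A : Type*} [Fintype V] [SeminormedAddCommGroup A] (f : V → A) : ℝ :=
  𝔼 v, ‖f v‖ ^ 2

/-- Normalised `L₂` norm. -/
noncomputable def nrm {V A : Type*} [Fintype V] [SeminormedAddCommGroup A] (f : V → A) : ℝ :=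
  √(nsq f)

/-- Walsh coefficient of a vector valued function on the sign cube. -/
noncomputable def coef {ι A : Type*} [Fintype ι] [DecidableEq ι] [AddCommGroup A] [Module ℝ A]
    (S : Finset ι) (F : (ι → Bool) → A) : A :=
  ((2 : ℝ) ^ Fintype.card ι)⁻¹ • ∑ ξ, wal S ξ • F ξ

/-- `F` has first level `a`, no levels `2, …, d`, and `‖F‖₂ ≤ Λ ‖a‖_{ℓ²}`. -/
structure IsLift {ι A : Type*} [Fintype ι] [DecidableEq ι] [NormedAddCommGroup A] [NormedSpace ℝ A]
    (d : ℕ) (Λ : ℝ) (a : ι → A) (F : (ι → Bool) → A) : Prop where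
  one : ∀ i, coef {i} F = a i
  mid : ∀ S : Finset ι, 2 ≤ S.card → S.card ≤ d → coef S F = 0
  le : nsq F ≤ Λ ^ 2 * ∑ i, ‖a i‖ ^ 2

/-- Cotype-2 inequality on `k` vectors with constant `Λ`. -/
def Cot2 (Y : Type*) [NormedAddCommGroup Y] [NormedSpace ℝ Y] (k : ℕ) (Λ : ℝ) : Prop :=
  ∀ y : Fin k → Y, ∑ i, ‖y i‖ ^ 2 ≤
    Λ ^ 2 * nsq (fun ξ : Fin k → Bool => ∑ i, signVal (ξ i) • y i)

/-- A `±1` valued bicharacter. -/
structure Bichar (V W : Type) [AddCommGroup V] [AddCommGroup W] where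
  toFun : V → W → ℝ
  add_left : ∀ x x' y, toFun (x + x') y = toFun x y * toFun x' y
  add_right : ∀ x y y', toFun x (y + y') = toFun x y * toFun x y'
  sq : ∀ x y, toFun x y * toFun x y = 1

namespace Bichar

variable {V W : Type} [AddCommGroup V] [AddCommGroup W]

/-- Mean value of the bicharacter (`2 ^ (-rank)`). -/
noncomputable def bias [Fintype V] [Fintype W] (β : Bichar V W) : ℝ := 𝔼 x, 𝔼 y, β.toFun x y

/-- Transposed bicharacter. -/
def flip (β : Bichar V W) : Bichar W V where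
  toFun y x := β.toFun x y
  add_left y y' x := β.add_right x y y'
  add_right y x x' := β.add_left x x' y
  sq y x := β.sq x y

/-- Restriction to subgroups. -/
def restrict (β : Bichar V W) (V₁ : AddSubgroup V) (W₁ : AddSubgroup W) : Bichar V₁ W₁ where
  toFun x y := β.toFun x y
  add_left x x' y := β.add_left x x' y
  add_right x y y' := β.add_right x y y'
  sq x y := β.sq x y

/-- The bicharacter of a bipartite graph `Γ`. -/
noncomputable def graph {ι κ : Type} (β : Bichar V W) (Γ : Finset (ι × κ)) :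
    Bichar (ι → V) (κ → W) where
  toFun x y := ∏ e ∈ Γ, β.toFun (x e.1) (y e.2)
  add_left x x' y := by simp only [Pi.add_apply, β.add_left, prod_mul_distrib]
  add_right x y y' := by simp only [Pi.add_apply, β.add_right, prod_mul_distrib]
  sq x y := by rw [← prod_mul_distrib]; simp only [β.sq, prod_const_one]

/-- The elements of `V` that pair trivially with all the `v j`. -/
def annih {κ : Type} (β : Bichar V W) (v : κ → W) : AddSubgroup V where
  carrier := {s | ∀ j, β.toFun s (v j) = 1}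
  add_mem' := by
    intro a b ha hb j
    rw [β.add_left, ha j, hb j, one_mul]
  zero_mem' := by
    intro j
    have h := β.add_left 0 0 (v j)
    rw [add_zero, β.sq] at h
    exact h
  neg_mem' := by
    intro a ha j
    have h := β.add_left a (-a) (v j)
    have h0 := β.add_left 0 0 (v j)
    rw [add_zero, β.sq] at h0
    rw [add_neg_cancel, h0, ha j, one_mul] at h
    exact h.symm

end Bichar

section Test

variable {A B : Type*} [NormedAddCommGroup A] [NormedSpace ℝ A] [NormedAddCommGroup B]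
  [NormedSpace ℝ B]

/-- The value of the test `β` on the families `f`, `g`. -/
noncomputable def test {V W : Type} [AddCommGroup V] [AddCommGroup W] [Fintype V] [Fintype W]
    (β : Bichar V W) (Φ : A →ₗ[ℝ] B →ₗ[ℝ] ℝ) (f : V → A) (g : W → B) : ℝ :=
  𝔼 x, 𝔼 y, β.toFun x y * Φ (f x) (g y)

/-- All tests with values in `PA`, `PB` decay like `c * bias ^ ρ`. -/
def H (Φ : A →ₗ[ℝ] B →ₗ[ℝ] ℝ) (PA : Set A) (PB : Set B) (ρ c : ℝ) : Prop :=
  ∀ (V W : Type) [AddCommGroup V] [AddCommGroup W] [Fintype V] [Fintype W] (β : Bichar V W)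
    (f : V → A) (g : W → B), (∀ x, f x ∈ PA) → (∀ y, g y ∈ PB) →
    |test β Φ f g| ≤ c * β.bias ^ ρ * nrm f * nrm g

variable {V W ι κ : Type} [AddCommGroup V] [AddCommGroup W] [Fintype V] [Fintype W]
  [Fintype ι] [DecidableEq ι] [Fintype κ] [DecidableEq κ]

/-- The edge variable `M_{ij} = ξ_i ζ_j β(x_i, y_j)`. -/
def edge (β : Bichar V W) (ξ : ι → Bool) (ζ : κ → Bool) (x : ι → V) (y : κ → W) (e : ι × κ) : ℝ :=
  signVal (ξ e.1) * signVal (ζ e.2) * β.toFun (x e.1) (y e.2)

/-- The coefficient `c_Γ = E M_Γ Φ(F, G)`. -/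
noncomputable def cG (β : Bichar V W) (Φ : A →ₗ[ℝ] B →ₗ[ℝ] ℝ) (F : (ι → Bool) → (ι → V) → A)
    (G : (κ → Bool) → (κ → W) → B) (Γ : Finset (ι × κ)) : ℝ :=
  𝔼 ξ, 𝔼 ζ, 𝔼 x, 𝔼 y, (∏ e ∈ Γ, edge β ξ ζ x y e) * Φ (F ξ x) (G ζ y)

/-- The star coefficient: one vector `a x` against the level `J` of `G`. -/
noncomputable def sC (β : Bichar V W) (Φ : A →ₗ[ℝ] B →ₗ[ℝ] ℝ) (a : V → A)
    (G : (κ → Bool) → (κ → W) → B) (J : Finset κ) : ℝ :=
  𝔼 ζ, 𝔼 x, 𝔼 y, (wal J ζ * ∏ j ∈ J, β.toFun x (y j)) * Φ (a x) (G ζ y)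

/-- `F` is dominated by the family `a`. -/
def Dom (Λ : ℝ) (a : V → A) (F : (ι → Bool) → (ι → V) → A) : Prop :=
  ∀ x : ι → V, nsq (fun ξ => F ξ x) ≤ Λ ^ 2 * ∑ i, ‖a (x i)‖ ^ 2

end Test

/-- The duality pairing as a bilinear form. -/
def evalP (X : Type*) [NormedAddCommGroup X] [NormedSpace ℝ X] :
    X →ₗ[ℝ] StrongDual ℝ X →ₗ[ℝ] ℝ :=
  LinearMap.mk₂ ℝ (fun a b => b a) (fun _ _ _ => map_add _ _ _) (fun _ _ _ => map_smul _ _ _)
    (fun _ _ _ => rfl) (fun _ _ _ => rfl)

@[simp] theorem evalP_apply {X : Type*} [NormedAddCommGroup X] [NormedSpace ℝ X] (a : X)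
    (b : StrongDual ℝ X) : evalP X a b = b a := rfl

/-- Walsh multiplier. -/
noncomputable def mult {ι A : Type*} [Fintype ι] [DecidableEq ι] [AddCommGroup A] [Module ℝ A]
    (μ : Finset ι → ℝ) (f : (ι → Bool) → A) : (ι → Bool) → A :=
  fun ε => ∑ U : Finset ι, (μ U * wal U ε) • coef U f

/-- The multiplier `μ` has norm at most `c` on `L₂(cube; X)`. -/
def Bdd {ι : Type*} [Fintype ι] [DecidableEq ι] (X : Type*) [NormedAddCommGroup X]
    [NormedSpace ℝ X] (μ : Finset ι → ℝ) (c : ℝ) : Prop :=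
  ∀ f : (ι → Bool) → X, nrm (mult μ f) ≤ c * nrm f

end Crest.Agent.R118
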