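import Crest.Agent.R118.Defs

/-! Row 118: a Beurling-Kato type lemma for multiplier seminorms. -/

set_option autoImplicit false

open Finset Crest.AnalysisR
open scoped BigOperators

namespace Crest.Agent.R118

variable {D : Type} [Fintype D] [DecidableEq D]

/-- Norming functionals (`exists_extension_of_le_sublinear` from the line through `μ`, or
`Seminorm`/`Module.Dual.exists_extension..`); a linear functional on `D → ℝ` is given by the weights
`g U = ℓ (Pi.single U 1)`. -/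
theorem exists_norming (N : Seminorm ℝ (D → ℝ)) (μ : D → ℝ) :
    ∃ g : D → ℝ, ∑ U, μ U * g U = N μ ∧ ∀ ν : D → ℝ, |∑ U, ν U * g U| ≤ N ν := by
  have H : ∀ c : ℝ, c • μ = 0 → (RingHom.id ℝ) c • N μ = 0 := fun c hc => by
    have h1 : N (c • μ) = 0 := by rw [hc, map_zero]
    rw [map_smul_eq_mul, Real.norm_eq_abs, mul_eq_zero, abs_eq_zero] at h1
    rcases h1 with h1 | h1 <;> simp [h1]
  obtain ⟨ℓ, h1, h2⟩ := exists_extension_of_le_sublinear (LinearPMap.mkSpanSingleton' μ (N μ) H) N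
    (fun c hc x => by rw [map_smul_eq_mul, Real.norm_eq_abs, abs_of_pos hc])
    (fun x y => map_add_le_add N x y) (by
      rintro ⟨x, hx⟩
      obtain ⟨c, rfl⟩ := Submodule.mem_span_singleton.1 hx
      rw [LinearPMap.mkSpanSingleton'_apply, map_smul_eq_mul, Real.norm_eq_abs]
      exact mul_le_mul_of_nonneg_right (le_abs_self c) (apply_nonneg N μ))
  have e : ∀ ν : D → ℝ, ∑ U, ν U * ℓ (Pi.single U 1) = ℓ ν := fun ν => by
    conv_rhs => rw [← Finset.univ_sum_single ν, map_sum]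
    refine Finset.sum_congr rfl fun U _ => ?_
    rw [← smul_eq_mul, ← map_smul, ← Pi.single_smul', smul_eq_mul, mul_one]
  refine ⟨fun U => ℓ (Pi.single U 1), ?_, fun ν => ?_⟩
  · rw [e]
    have := h1 ⟨μ, Submodule.mem_span_singleton_self μ⟩
    exact this.trans (LinearPMap.mkSpanSingleton'_apply_self _ _ _ _)
  · rw [e, abs_le]
    refine ⟨?_, h2 ν⟩
    have := h2 (-ν)
    rw [map_neg, map_neg_eq_map] at this
    linarith

/-- `1 / (1 + z) = (3/4) ∑ M, ((1 - 3 z)/4) ^ M` for `0 ≤ z ≤ 1`; test against a norming `g`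
(`hasSum_sum`, `HasSum.mul_right`, `hasSum_le`, `hasSum_geometric_of_lt_one`). -/
theorem seminorm_inv_le (N : Seminorm ℝ (D → ℝ)) {C θ : ℝ} (hθ0 : 0 ≤ θ) (hθ : θ < 1)
    (z : D → ℝ) (hz0 : ∀ U, 0 ≤ z U) (hz1 : ∀ U, z U ≤ 1)
    (h : ∀ M : ℕ, N (fun U => ((1 - 3 * z U) / 4) ^ M) ≤ C * θ ^ M) :
    N (fun U => 1 / (1 + z U)) ≤ C / (1 - θ) := by
  obtain ⟨g, hg1, hg2⟩ := exists_norming N (fun U => 1 / (1 + z U))
  rw [← hg1]
  have hs : ∀ U, HasSum (fun M : ℕ => (3 / 4 : ℝ) * (((1 - 3 * z U) / 4) ^ M * g U))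
      (1 / (1 + z U) * g U) := fun U => by
    have a1 : |(1 - 3 * z U) / 4| < 1 := by
      rw [abs_lt]
      constructor <;> linarith [hz0 U, hz1 U]
    have a2 := ((hasSum_geometric_of_abs_lt_one a1).mul_right (g U)).mul_left (3 / 4)
    have : 0 < 1 + z U := by linarith [hz0 U]
    have e : 1 - (1 - 3 * z U) / 4 = 3 / 4 * (1 + z U) := by ring
    have e2 : 3 / 4 * ((1 - (1 - 3 * z U) / 4)⁻¹ * g U) = 1 / (1 + z U) * g U := by
      rw [e]
      field_simp
    rwa [e2] at a2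
  have hs2 := hasSum_sum (s := Finset.univ) fun U _ => hs U
  have hC : 0 ≤ C := by
    have := (apply_nonneg N _).trans (h 0)
    simpa using this
  have hs3 : HasSum (fun M : ℕ => C * θ ^ M) (C / (1 - θ)) := by
    rw [div_eq_mul_inv]
    exact (hasSum_geometric_of_lt_one hθ0 hθ).mul_left C
  refine hasSum_le (fun M => ?_) hs2 hs3
  rw [← Finset.mul_sum]
  have a1 := (le_abs_self _).trans ((hg2 fun U => ((1 - 3 * z U) / 4) ^ M).trans (h M))
  have a2 : 0 ≤ C * θ ^ M := by positivity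
  linarith

/-- Integrals of the semigroup against a bounded weight: test against a norming `g`, swap the finite
sum and the integral, `intervalIntegral.norm_integral_le_of_norm_le_const`;
`exp (-u * n) = exp (-u) ^ n`. -/
theorem seminorm_integral_le (N : Seminorm ℝ (D → ℝ)) (deg : D → ℕ)
    (h1 : ∀ w : ℝ, 0 ≤ w → w ≤ 1 → N (fun U => w ^ deg U) ≤ 1) (φ : ℝ → ℝ) (hφ : Continuous φ)
    (hφ1 : ∀ u, |φ u| ≤ 1) {t : ℝ} (ht : 0 ≤ t) :
    N (fun U => ∫ u in (0 : ℝ)..t, φ u * Real.exp (-(u * deg U))) ≤ t := by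
  obtain ⟨g, hg1, hg2⟩ := exists_norming N
    (fun U => ∫ u in (0 : ℝ)..t, φ u * Real.exp (-(u * deg U)))
  rw [← hg1]
  have e : ∑ U, (∫ u in (0 : ℝ)..t, φ u * Real.exp (-(u * deg U))) * g U =
      ∫ u in (0 : ℝ)..t, ∑ U, φ u * Real.exp (-(u * deg U)) * g U := by
    rw [intervalIntegral.integral_finsetSum fun U _ => Continuous.intervalIntegrable (by fun_prop) _ _]
    simp only [intervalIntegral.integral_mul_const]
  rw [e]
  refine (le_abs_self _).trans ?_
  rw [← Real.norm_eq_abs]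
  refine (intervalIntegral.norm_integral_le_of_norm_le_const (C := 1) fun u hu => ?_).trans ?_
  · rw [Set.uIoc_of_le ht] at hu
    have e2 : ∑ U, φ u * Real.exp (-(u * deg U)) * g U =
        φ u * ∑ U, Real.exp (-u) ^ deg U * g U := by
      rw [Finset.mul_sum]
      refine Finset.sum_congr rfl fun U _ => ?_
      rw [← Real.exp_nat_mul, mul_assoc]
      congr 3
      ring
    rw [e2, Real.norm_eq_abs, abs_mul]
    exact mul_le_one₀ (hφ1 u) (abs_nonneg _) ((hg2 _).trans
      (h1 _ (Real.exp_pos _).le (Real.exp_le_one_iff.2 (by linarith [hu.1]))))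
  · rw [sub_zero, abs_of_nonneg ht, one_mul]

private theorem helper5_int_cos (n τ t : ℝ) (hτ : τ ≠ 0) (hc : Real.cos (τ * t) = -1)
    (hs : Real.sin (τ * t) = 0) :
    ∫ u in (0 : ℝ)..t, Real.cos (τ * u) * Real.exp (-(u * n)) =
      n * (1 + Real.exp (-(t * n))) / (n ^ 2 + τ ^ 2) := by
  have hpos : n ^ 2 + τ ^ 2 ≠ 0 := by positivity
  have hd : ∀ u ∈ Set.uIcc (0 : ℝ) t, HasDerivAt (fun u => Real.exp (-(u * n)) *
      (τ * Real.sin (τ * u) - n * Real.cos (τ * u)) / (n ^ 2 + τ ^ 2))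
      (Real.cos (τ * u) * Real.exp (-(u * n))) u := by
    intro u _
    have h1 : HasDerivAt (fun u : ℝ => τ * u) τ u := by simpa using (hasDerivAt_id u).const_mul τ
    have h2 : HasDerivAt (fun u : ℝ => -(u * n)) (-n) u := by
      simpa using ((hasDerivAt_id u).mul_const n).fun_neg
    have h3 := (h2.exp.fun_mul ((h1.sin.const_mul τ).fun_sub (h1.cos.const_mul n))).div_const
      (n ^ 2 + τ ^ 2)
    refine h3.congr_deriv ?_
    rw [div_eq_iff hpos]
    ring
  rw [intervalIntegral.integral_eq_sub_of_hasDerivAt hd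
    (Continuous.intervalIntegrable (by fun_prop) _ _), hc, hs]
  simp only [mul_zero, zero_mul, neg_zero, Real.exp_zero, Real.sin_zero, Real.cos_zero]
  field_simp
  ring

private theorem helper5_int_sin (n τ t : ℝ) (hτ : τ ≠ 0) (hc : Real.cos (τ * t) = -1)
    (hs : Real.sin (τ * t) = 0) :
    ∫ u in (0 : ℝ)..t, Real.sin (τ * u) * Real.exp (-(u * n)) =
      τ * (1 + Real.exp (-(t * n))) / (n ^ 2 + τ ^ 2) := by
  have hpos : n ^ 2 + τ ^ 2 ≠ 0 := by positivity
  have hd : ∀ u ∈ Set.uIcc (0 : ℝ) t, HasDerivAt (fun u => Real.exp (-(u * n)) *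
      (-n * Real.sin (τ * u) - τ * Real.cos (τ * u)) / (n ^ 2 + τ ^ 2))
      (Real.sin (τ * u) * Real.exp (-(u * n))) u := by
    intro u _
    have h1 : HasDerivAt (fun u : ℝ => τ * u) τ u := by simpa using (hasDerivAt_id u).const_mul τ
    have h2 : HasDerivAt (fun u : ℝ => -(u * n)) (-n) u := by
      simpa using ((hasDerivAt_id u).mul_const n).fun_neg
    have h3 := (h2.exp.fun_mul ((h1.sin.const_mul (-n)).fun_sub (h1.cos.const_mul τ))).div_const
      (n ^ 2 + τ ^ 2)
    refine h3.congr_deriv ?_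
    rw [div_eq_iff hpos]
    ring
  rw [intervalIntegral.integral_eq_sub_of_hasDerivAt hd
    (Continuous.intervalIntegrable (by fun_prop) _ _), hc, hs]
  simp only [mul_zero, zero_mul, neg_zero, Real.exp_zero, Real.sin_zero, Real.cos_zero]
  field_simp
  ring

/-- Kato's resolvent bound on the imaginary axis.  With `t = π / |τ|`, `exp (i τ t) = -1`, so
`1 / (n - i τ) = (1 + exp (-t n))⁻¹ ∫₀ᵗ exp (-(n - i τ) u) du`; take real and imaginary parts:
`∫₀ᵗ cos (τ u) e^{-u n} du = n (1 + e^{-t n}) / (n² + τ²)`,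
`∫₀ᵗ sin (τ u) e^{-u n} du = τ (1 + e^{-t n}) / (n² + τ²)`
(`intervalIntegral.integral_eq_sub_of_hasDerivAt`). -/
theorem resolvent_axis (N : Seminorm ℝ (D → ℝ)) (hmul : ∀ μ ν, N (μ * ν) ≤ N μ * N ν)
    (deg : D → ℕ) (h1 : ∀ w : ℝ, 0 ≤ w → w ≤ 1 → N (fun U => w ^ deg U) ≤ 1) {C₁ : ℝ}
    (h2 : ∀ w : ℝ, 0 ≤ w → w ≤ 1 → N (fun U => 1 / (1 + w ^ deg U)) ≤ C₁) {τ : ℝ} (hτ : τ ≠ 0) :
    N (fun U => (1 / ((deg U : ℂ) - τ * Complex.I)).re) +
      N (fun U => (1 / ((deg U : ℂ) - τ * Complex.I)).im) ≤ 2 * Real.pi * C₁ / |τ| := by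
  have hτa : 0 < |τ| := abs_pos.2 hτ
  set t : ℝ := Real.pi / |τ| with ht
  have ht0 : 0 ≤ t := div_nonneg Real.pi_pos.le hτa.le
  have hab : |τ * t| = Real.pi := by
    rw [abs_mul, abs_of_nonneg ht0, ht, mul_div_cancel₀ _ hτa.ne']
  have hc : Real.cos (τ * t) = -1 := by rw [← Real.cos_abs, hab, Real.cos_pi]
  have hs : Real.sin (τ * t) = 0 := by
    have h := Real.sin_sq_add_cos_sq (τ * t)
    rw [hc] at h
    exact pow_eq_zero_iff (two_ne_zero) |>.1 (by linarith)
  have hw0 : 0 ≤ Real.exp (-t) := (Real.exp_pos _).le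
  have hw1 : Real.exp (-t) ≤ 1 := Real.exp_le_one_iff.2 (by linarith)
  have hN := h2 _ hw0 hw1
  have hC : 0 ≤ C₁ := (apply_nonneg N _).trans hN
  have hpow : ∀ U, Real.exp (-t) ^ deg U = Real.exp (-(t * deg U)) := by
    intro U
    rw [← Real.exp_nat_mul]
    congr 1
    ring
  have hne : ∀ U, (deg U : ℝ) ^ 2 + τ ^ 2 ≠ 0 := fun U => by positivity
  have hne' : ∀ U, 1 + Real.exp (-(t * deg U)) ≠ 0 := fun U => by positivity
  have e1 : (fun U => (1 / ((deg U : ℂ) - τ * Complex.I)).re) =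
      (fun U => 1 / (1 + Real.exp (-t) ^ deg U)) *
        fun U => ∫ u in (0 : ℝ)..t, Real.cos (τ * u) * Real.exp (-(u * deg U)) := by
    funext U
    rw [Pi.mul_apply, helper5_int_cos _ τ t hτ hc hs, hpow, one_div, Complex.inv_re,
      Complex.normSq_apply]
    have := hne U
    have := hne' U
    simp
    field_simp
  have e2 : (fun U => (1 / ((deg U : ℂ) - τ * Complex.I)).im) =
      (fun U => 1 / (1 + Real.exp (-t) ^ deg U)) *
        fun U => ∫ u in (0 : ℝ)..t, Real.sin (τ * u) * Real.exp (-(u * deg U)) := by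
    funext U
    rw [Pi.mul_apply, helper5_int_sin _ τ t hτ hc hs, hpow, one_div, Complex.inv_im,
      Complex.normSq_apply]
    have := hne U
    have := hne' U
    simp
    field_simp
  have b1 := seminorm_integral_le N deg h1 (fun u => Real.cos (τ * u)) (by fun_prop)
    (fun u => Real.abs_cos_le_one _) ht0
  have b2 := seminorm_integral_le N deg h1 (fun u => Real.sin (τ * u)) (by fun_prop)
    (fun u => Real.abs_sin_le_one _) ht0
  have c1 := (hmul _ _).trans (mul_le_mul hN b1 (apply_nonneg N _) hC)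
  have c2 := (hmul _ _).trans (mul_le_mul hN b2 (apply_nonneg N _) hC)
  rw [e1, e2]
  have : 2 * Real.pi * C₁ / |τ| = C₁ * t + C₁ * t := by rw [ht]; ring
  rw [this]
  exact add_le_add c1 c2

/-- One Neumann step.  With `r = 1 / (n - i τ)`, `r' = 1 / (n - λ)`, `λ = x + i τ`: `r' = r + x r r'`.
The sum `Nc m = N (re m) + N (im m)` is subadditive and submultiplicative on complex functions, so
`Nc r' ≤ Nc r + |x| Nc r Nc r' ≤ Nc r + Nc r' / 2`. -/
theorem resolvent_sector (N : Seminorm ℝ (D → ℝ)) (hmul : ∀ μ ν, N (μ * ν) ≤ N μ * N ν)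
    (deg : D → ℕ) {C₂ : ℝ}
    (h : ∀ τ : ℝ, τ ≠ 0 → N (fun U => (1 / ((deg U : ℂ) - τ * Complex.I)).re) +
      N (fun U => (1 / ((deg U : ℂ) - τ * Complex.I)).im) ≤ C₂ / |τ|)
    {z : ℂ} (hz : z.im ≠ 0) (hzx : 2 * C₂ * |z.re| ≤ |z.im|) :
    N (fun U => (1 / ((deg U : ℂ) - z)).re) + N (fun U => (1 / ((deg U : ℂ) - z)).im) ≤
      2 * C₂ / |z.im| := by
  have hτa : 0 < |z.im| := abs_pos.2 hz
  have h0 := h z.im hz
  set a : D → ℝ := fun U => (1 / ((deg U : ℂ) - z.im * Complex.I)).re with ha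
  set b : D → ℝ := fun U => (1 / ((deg U : ℂ) - z.im * Complex.I)).im with hb
  set a' : D → ℝ := fun U => (1 / ((deg U : ℂ) - z)).re with ha'
  set b' : D → ℝ := fun U => (1 / ((deg U : ℂ) - z)).im with hb'
  have key : ∀ U, 1 / ((deg U : ℂ) - z) = 1 / ((deg U : ℂ) - z.im * Complex.I) +
      (z.re : ℂ) * (1 / ((deg U : ℂ) - z.im * Complex.I) * (1 / ((deg U : ℂ) - z))) := by
    intro U
    have h1 : (deg U : ℂ) - z ≠ 0 := fun h' => hz (by simpa using congrArg Complex.im h')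
    have h2 : (deg U : ℂ) - z.im * Complex.I ≠ 0 :=
      fun h' => hz (by simpa using congrArg Complex.im h')
    field_simp
    linear_combination (-1 : ℂ) * Complex.re_add_im z
  have e1 : a' = a + z.re • (a * a' - b * b') := by
    funext U
    have := congrArg Complex.re (key U)
    rw [Complex.add_re, Complex.re_ofReal_mul, Complex.mul_re] at this
    exact this
  have e2 : b' = b + z.re • (a * b' + b * a') := by
    funext U
    have := congrArg Complex.im (key U)
    rw [Complex.add_im, Complex.im_ofReal_mul, Complex.mul_im] at this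
    exact this
  have n1 : N a' ≤ N a + |z.re| * (N a * N a' + N b * N b') := by
    conv_lhs => rw [e1]
    refine (map_add_le_add N _ _).trans (add_le_add le_rfl ?_)
    rw [map_smul_eq_mul, Real.norm_eq_abs]
    exact mul_le_mul_of_nonneg_left ((map_sub_le_add N _ _).trans
      (add_le_add (hmul _ _) (hmul _ _))) (abs_nonneg _)
  have n2 : N b' ≤ N b + |z.re| * (N a * N b' + N b * N a') := by
    conv_lhs => rw [e2]
    refine (map_add_le_add N _ _).trans (add_le_add le_rfl ?_)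
    rw [map_smul_eq_mul, Real.norm_eq_abs]
    exact mul_le_mul_of_nonneg_left ((map_add_le_add N _ _).trans
      (add_le_add (hmul _ _) (hmul _ _))) (abs_nonneg _)
  have h3 : |z.re| * (N a + N b) ≤ 1 / 2 := by
    refine (mul_le_mul_of_nonneg_left h0 (abs_nonneg _)).trans ?_
    rw [← mul_div_assoc, div_le_iff₀ hτa]
    linarith
  have h4 : 0 ≤ N a' + N b' := add_nonneg (apply_nonneg N _) (apply_nonneg N _)
  have h5 := mul_le_mul_of_nonneg_right h3 h4
  rw [mul_div_assoc]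
  nlinarith

theorem h50_norm_sin_le (w : ℂ) : ‖Complex.sin w‖ ≤ Real.exp |w.im| := by
  have h1 : ‖Complex.exp (-w * Complex.I)‖ ≤ Real.exp |w.im| := by
    rw [Complex.norm_exp]
    exact Real.exp_le_exp.2 (by simpa using le_abs_self w.im)
  have h2 : ‖Complex.exp (w * Complex.I)‖ ≤ Real.exp |w.im| := by
    rw [Complex.norm_exp]
    exact Real.exp_le_exp.2 (by simpa using neg_le_abs w.im)
  have h3 := norm_sub_le (Complex.exp (-w * Complex.I)) (Complex.exp (w * Complex.I))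
  rw [Complex.sin, norm_div, norm_mul, Complex.norm_I, mul_one, Complex.norm_two]
  linarith

/-- The maximum principle.  Let `m ≥ 1`, `a = π m + 1`, and
`φ z = z * exp (-a z) * ∑ U, g U * dslope (fun z => sin (π z)) (deg U) z`, an entire function
(`differentiable_dslope..`: `(Complex.differentiableOn_dslope ..)`, or `DifferentiableOn.dslope`), with
`φ 1 = -π exp (-a) ∑_{deg U = 1} g U` and `φ z = -z exp (-a z) sin (π z) ∑ U, g U / (deg U - z)` off the
integers.  On the triangle `T = {|im z| < m re z, re z < R}` apply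
`Complex.norm_le_of_forall_mem_frontier_norm_le`: on the slanted sides `‖z‖ ≤ 2 |im z|`,
`‖sin (π z)‖ ≤ exp (π |im z|)`, so `‖φ z‖ ≤ 2 C₃`; `φ 0 = 0`; on `re z = R` (with `R ≥ deg U + 1`),
`‖φ z‖ ≤ (1 + m) R exp (-R) ∑ |g U| ≤ 1` for `R` large. -/
theorem level_one_le (deg : D → ℕ) (g : D → ℝ) {m C₃ : ℝ} (hm : 1 ≤ m) (hC : 0 ≤ C₃)
    (h : ∀ z : ℂ, 0 < z.re → |z.im| = m * z.re →
      ‖∑ U, (g U : ℂ) / ((deg U : ℂ) - z)‖ ≤ C₃ / |z.im|) :
    |∑ U, (if deg U = 1 then (1 : ℝ) else 0) * g U| ≤ (2 * C₃ + 1) * Real.exp (Real.pi * m + 1) := by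
  set a : ℝ := Real.pi * m + 1 with ha
  set s : ℂ → ℂ := fun z => Complex.sin (Real.pi * z) with hs
  have hsd : Differentiable ℂ s := by simp only [hs]; fun_prop
  have hsn : ∀ n : ℕ, s n = 0 := fun n => by
    simp only [hs]
    rw [mul_comm]
    exact Complex.sin_nat_mul_pi n
  have hds : ∀ n : ℕ, Differentiable ℂ (dslope s n) := fun n => by
    rw [← differentiableOn_univ]
    exact (Complex.differentiableOn_dslope Filter.univ_mem).2 hsd.differentiableOn
  set φ : ℂ → ℂ := fun z => z * Complex.exp (-(a * z)) * ∑ U, (g U : ℂ) * dslope s (deg U) z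
    with hφ
  have hφd : Differentiable ℂ φ := by
    refine Differentiable.mul (by fun_prop) ?_
    exact Differentiable.fun_sum fun U _ => (hds (deg U)).const_mul _
  have hbd : ∀ z : ℂ, (∀ U, z ≠ deg U) → |z.im| ≤ m * z.re →
      ‖φ z‖ ≤ ‖z‖ * Real.exp (-z.re) * ‖∑ U, (g U : ℂ) / ((deg U : ℂ) - z)‖ := by
    intro z hz hi
    have e : ∑ U, (g U : ℂ) * dslope s (deg U) z =
        -s z * ∑ U, (g U : ℂ) / ((deg U : ℂ) - z) := by
      rw [mul_sum]
      refine sum_congr rfl fun U _ => ?_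
      have h1 : z - deg U ≠ 0 := sub_ne_zero.2 (hz U)
      have h2 : (deg U : ℂ) - z ≠ 0 := sub_ne_zero.2 (hz U).symm
      rw [dslope_of_ne _ (hz U), slope_def_field, hsn]
      field_simp
      ring
    have h1 : ‖s z‖ ≤ Real.exp (Real.pi * m * z.re) := by
      refine (h50_norm_sin_le _).trans (Real.exp_le_exp.2 ?_)
      rw [Complex.im_ofReal_mul, abs_mul, abs_of_pos Real.pi_pos, mul_assoc]
      exact mul_le_mul_of_nonneg_left hi Real.pi_pos.le
    have h2 : ‖Complex.exp (-(a * z))‖ * Real.exp (Real.pi * m * z.re) = Real.exp (-z.re) := by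
      rw [Complex.norm_exp, ← Real.exp_add, Complex.neg_re, Complex.re_ofReal_mul, ha]
      congr 1
      ring
    simp only [hφ]
    rw [e, norm_mul, norm_mul, norm_mul, norm_neg, ← h2, ← mul_assoc, ← mul_assoc]
    gcongr
  set G : ℝ := ∑ U, |g U| with hG
  obtain ⟨R, hR1, hR2, hR3⟩ : ∃ R : ℝ, 1 < R ∧ (∀ U, (deg U : ℝ) + 1 ≤ R) ∧
      (1 + m) * G * (R ^ 1 * Real.exp (-R)) ≤ 1 := by
    have h1 := (Real.tendsto_pow_mul_exp_neg_atTop_nhds_zero 1).const_mul ((1 + m) * G)
    rw [mul_zero] at h1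
    exact ((Filter.eventually_gt_atTop 1).and ((Filter.eventually_all.2 fun U =>
      Filter.eventually_ge_atTop _).and (h1.eventually (ge_mem_nhds one_pos)))).exists
  have hA : Continuous fun z : ℂ => |z.im| := by fun_prop
  have hB : Continuous fun z : ℂ => m * z.re := by fun_prop
  have hnz : ∀ z : ℂ, |z.im| ≤ m * z.re → 0 ≤ z.re := fun z hz =>
    nonneg_of_mul_nonneg_right ((abs_nonneg _).trans hz) (by linarith)
  have hn : ∀ z : ℂ, |z.im| ≤ m * z.re → z.re ≤ R → ‖z‖ ≤ (1 + m) * R := fun z h1 h2 => by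
    have h3 := Complex.norm_le_abs_re_add_abs_im z
    rw [abs_of_nonneg (hnz z h1)] at h3
    nlinarith
  have hmax : ‖φ 1‖ ≤ 2 * C₃ + 1 := by
    refine Complex.norm_le_of_forall_mem_frontier_norm_le
      (U := {z : ℂ | |z.im| < m * z.re} ∩ {z : ℂ | z.re < R})
      ((Metric.isBounded_closedBall (x := (0 : ℂ)) (r := (1 + m) * R)).subset fun z hz =>
        mem_closedBall_zero_iff.2 (hn z (le_of_lt hz.1) (le_of_lt hz.2)))
      hφd.diffContOnCl (fun z hz => ?_) (subset_closure ⟨by simp; linarith, by simpa using hR1⟩)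
    rcases frontier_inter_subset _ _ hz with ⟨h1, -⟩ | ⟨h1, h2⟩
    · have h1' : |z.im| = m * z.re := frontier_lt_subset_eq hA hB h1
      rcases (hnz z h1'.le).eq_or_lt with h0 | h0
      · have : z = 0 := Complex.ext h0.symm (by
          rw [← h0, mul_zero] at h1'
          exact abs_eq_zero.1 h1')
        simp only [hφ, this, zero_mul, norm_zero]
        linarith
      · have hi : 0 < |z.im| := by rw [h1']; nlinarith
        have h3 := hbd z (fun U e => by simp [e] at hi) h1'.le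
        have h4 : ‖z‖ ≤ 2 * |z.im| := by
          have := Complex.norm_le_abs_re_add_abs_im z
          rw [abs_of_pos h0] at this
          nlinarith
        have h5 : Real.exp (-z.re) ≤ 1 := Real.exp_le_one_iff.2 (by linarith)
        calc ‖φ z‖ ≤ 2 * |z.im| * 1 * (C₃ / |z.im|) := h3.trans (by gcongr; exact h z h0 h1')
          _ = 2 * C₃ := by field_simp
          _ ≤ 2 * C₃ + 1 := by linarith
    · have h1' : |z.im| ≤ m * z.re := closure_lt_subset_le hA hB h1
      have h2' : z.re = R := frontier_lt_subset_eq Complex.continuous_re continuous_const h2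
      have h3 : ∀ U, 1 ≤ ‖(deg U : ℂ) - z‖ := fun U => by
        have h4 := Complex.abs_re_le_norm ((deg U : ℂ) - z)
        have h5 := neg_le_abs ((deg U : ℂ) - z).re
        simp only [Complex.sub_re, Complex.natCast_re] at h4 h5
        linarith [hR2 U]
      have h4 := hbd z (fun U e => by have := h3 U; rw [e] at this; norm_num at this) h1'
      have h5 : ‖∑ U, (g U : ℂ) / ((deg U : ℂ) - z)‖ ≤ G :=
        norm_sum_le_of_le _ fun U _ => by
          rw [norm_div, Complex.norm_real, Real.norm_eq_abs]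
          exact div_le_self (abs_nonneg _) (h3 U)
      have h6 := hn z h1' h2'.le
      calc ‖φ z‖ ≤ (1 + m) * R * Real.exp (-z.re) * G := h4.trans (by gcongr)
        _ = (1 + m) * G * (R ^ 1 * Real.exp (-R)) := by rw [h2']; ring
        _ ≤ 2 * C₃ + 1 := by linarith
  have hd1 : deriv s 1 = -Real.pi := by
    have := ((hasDerivAt_id (1 : ℂ)).const_mul (Real.pi : ℂ)).csin.deriv
    simpa [hs] using this
  have e1 : ∑ U, (g U : ℂ) * dslope s (deg U) 1 =
      -Real.pi * ((∑ U, (if deg U = 1 then (1 : ℝ) else 0) * g U : ℝ) : ℂ) := by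
    rw [Complex.ofReal_sum, mul_sum]
    refine sum_congr rfl fun U _ => ?_
    by_cases hU : deg U = 1
    · simp [hU, hd1, mul_comm]
    · have h1 : (1 : ℂ) ≠ deg U := fun e => hU (by exact_mod_cast e.symm)
      have h2 : s 1 = 0 := by simpa using hsn 1
      rw [dslope_of_ne _ h1, slope_def_field, hsn, h2]
      simp [hU]
  simp only [hφ] at hmax
  rw [e1, one_mul, mul_one, norm_mul, norm_mul, norm_neg, Complex.norm_real, Complex.norm_real,
    Complex.norm_exp, Complex.neg_re, Complex.ofReal_re, Real.norm_eq_abs, Real.norm_eq_abs,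
    abs_of_pos Real.pi_pos, Real.exp_neg, inv_mul_le_iff₀ (Real.exp_pos a)] at hmax
  have := abs_nonneg (∑ U, (if deg U = 1 then (1 : ℝ) else 0) * g U)
  nlinarith [Real.pi_gt_three]

/-- The constant in `kato`. -/
noncomputable def katoC (C θ : ℝ) : ℝ :=
  (2 * (2 * (2 * Real.pi * (C / (1 - θ)))) + 1) *
    Real.exp (Real.pi * (2 * (2 * Real.pi * (C / (1 - θ))) + 1) + 1)

/-- **Beurling-Kato.**  Combine the previous lemmas with `C₁ = C / (1 - θ)`, `C₂ = 2 π C₁`,
`m = 2 C₂ + 1`, `C₃ = 2 C₂` and a norming `g` for the indicator of `deg = 1`;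
`‖∑ g U / (deg U - z)‖ ≤ |re| + |im|` (`Complex.norm_le_abs_re_add_abs_im`). -/
theorem kato (N : Seminorm ℝ (D → ℝ)) (hmul : ∀ μ ν, N (μ * ν) ≤ N μ * N ν) (deg : D → ℕ)
    {C θ : ℝ} (hC : 0 ≤ C) (hθ0 : 0 ≤ θ) (hθ : θ < 1)
    (h1 : ∀ w : ℝ, 0 ≤ w → w ≤ 1 → N (fun U => w ^ deg U) ≤ 1)
    (h2 : ∀ w : ℝ, 0 ≤ w → w ≤ 1 → ∀ M : ℕ,
      N (fun U => ((1 - 3 * w ^ deg U) / 4) ^ M) ≤ C * θ ^ M) :
    N (fun U => if deg U = 1 then (1 : ℝ) else 0) ≤ katoC C θ := by
  have hC₁ : 0 ≤ C / (1 - θ) := div_nonneg hC (by linarith)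
  set C₂ := 2 * Real.pi * (C / (1 - θ)) with hC₂
  have hC₂' : 0 ≤ C₂ := by positivity
  have a1 : ∀ w : ℝ, 0 ≤ w → w ≤ 1 → N (fun U => 1 / (1 + w ^ deg U)) ≤ C / (1 - θ) :=
    fun w hw0 hw1 => seminorm_inv_le N hθ0 hθ (fun U => w ^ deg U) (fun U => by positivity)
      (fun U => pow_le_one₀ hw0 hw1) (h2 w hw0 hw1)
  have a2 := fun (τ : ℝ) (hτ : τ ≠ 0) => resolvent_axis N hmul deg h1 a1 hτ
  obtain ⟨g, hg1, hg2⟩ := exists_norming N (fun U => if deg U = 1 then (1 : ℝ) else 0)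
  rw [← hg1]
  refine (le_abs_self _).trans ?_
  refine level_one_le deg g (m := 2 * C₂ + 1) (C₃ := 2 * C₂) (by linarith) (by positivity)
    fun z hz hzm => ?_
  have hz0 : z.im ≠ 0 := by
    rw [← abs_pos, hzm]
    positivity
  have a3 := resolvent_sector N hmul deg a2 hz0 (by
    rw [hzm, abs_of_pos hz]
    nlinarith)
  refine (Complex.norm_le_abs_re_add_abs_im _).trans (le_trans (add_le_add ?_ ?_) a3)
  · refine le_trans (le_of_eq ?_) (hg2 _)
    rw [Complex.re_sum]
    congr 1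
    refine Finset.sum_congr rfl fun U _ => ?_
    rw [div_eq_mul_one_div, Complex.re_ofReal_mul, mul_comm]
  · refine le_trans (le_of_eq ?_) (hg2 _)
    rw [Complex.im_sum]
    congr 1
    refine Finset.sum_congr rfl fun U _ => ?_
    rw [div_eq_mul_one_div, Complex.im_ofReal_mul, mul_comm]

end Crest.Agent.R118
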