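import Crest.Agent.R118.Bichar

/-! Row 118: Walsh multipliers on `L₂(cube; X)`. -/

set_option autoImplicit false

open Finset Crest.AnalysisR
open scoped BigOperators

namespace Crest.Agent.R118

variable {ι : Type} [Fintype ι] [DecidableEq ι] {X : Type*} [NormedAddCommGroup X]
  [NormedSpace ℝ X]

private theorem h8_norm_coef_le (U : Finset ι) (f : (ι → Bool) → X) : ‖coef U f‖ ≤ nrm f := by
  refine le_trans ?_ (expect_norm_le_nrm f)
  rw [Finset.expect_eq_sum_div_card, coef, norm_smul, norm_inv, Real.norm_eq_abs,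
    abs_of_pos (by positivity)]
  have hc : ((Finset.univ : Finset (ι → Bool)).card : ℝ) = (2 : ℝ) ^ Fintype.card ι := by
    simp [Finset.card_univ]
  rw [hc, div_eq_inv_mul]
  refine mul_le_mul_of_nonneg_left ?_ (by positivity)
  refine (norm_sum_le _ _).trans (le_of_eq (sum_congr rfl fun ξ _ => ?_))
  rw [norm_smul, Real.norm_eq_abs, abs_wal, one_mul]

private theorem h8_bdd_sum (μ : Finset ι → ℝ) : Bdd X μ (∑ U, |μ U|) := by
  intro f
  have h1 := nrm_sum_le (univ : Finset (Finset ι))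
    (fun U (ε : ι → Bool) => (μ U * wal U ε) • coef U f)
  refine le_trans h1 ?_
  rw [sum_mul]
  refine sum_le_sum fun U _ => ?_
  refine nrm_le_of_nsq_le _ (mul_nonneg (abs_nonneg _) (nrm_nonneg _)) ?_
  unfold nsq
  refine Finset.expect_le univ_nonempty fun ε _ => ?_
  refine pow_le_pow_left₀ (norm_nonneg _) ?_ 2
  rw [norm_smul, Real.norm_eq_abs, abs_mul, abs_wal, mul_one]
  exact mul_le_mul_of_nonneg_left (h8_norm_coef_le U f) (abs_nonneg _)

private theorem h8_mult_add (μ ν : Finset ι → ℝ) (f : (ι → Bool) → X) :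
    mult (μ + ν) f = fun ε => mult μ f ε + mult ν f ε := by
  funext ε
  simp only [mult, Pi.add_apply, add_mul, add_smul, sum_add_distrib]

private theorem h8_mult_smul (r : ℝ) (μ : Finset ι → ℝ) (f : (ι → Bool) → X) :
    mult (r • μ) f = fun ε => r • mult μ f ε := by
  funext ε
  simp only [mult, Pi.smul_apply, smul_eq_mul, smul_sum, smul_smul, mul_assoc]

/-- The multiplier norm is a submultiplicative seminorm.  Either take
`N μ = ‖Op μ‖` for `Op : (Finset ι → ℝ) →ₗ[ℝ] (E →L[ℝ] E)`, `E = PiLp 2 (fun _ : ι → Bool => X)`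
(`‖toLp 2 f‖ = √(2 ^ card ι) * nrm f`), or `N μ = sInf {c | 0 ≤ c ∧ Bdd X μ c}` (non-empty: `mult μ` is
bounded by `∑ U, |μ U|` since `‖coef U f‖ ≤ E ‖f‖ ≤ nrm f`; the infimum is attained because the set is
closed), with `Seminorm.of`/`Seminorm.ofSMulLE`, `nrm_add_le`, `nrm_smul`, `mult_mult`. -/
theorem exists_seminorm (X : Type*) [NormedAddCommGroup X] [NormedSpace ℝ X] :
    ∃ N : Seminorm ℝ (Finset ι → ℝ), (∀ μ ν, N (μ * ν) ≤ N μ * N ν) ∧
      ∀ μ c, 0 ≤ c → (N μ ≤ c ↔ Bdd X μ c) := by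
  set S : (Finset ι → ℝ) → Set ℝ := fun μ => {c | 0 ≤ c ∧ Bdd X μ c} with hS
  have hne : ∀ μ, (S μ).Nonempty := fun μ =>
    ⟨∑ U, |μ U|, sum_nonneg fun U _ => abs_nonneg _, h8_bdd_sum μ⟩
  have hbd : ∀ μ, BddBelow (S μ) := fun μ => ⟨0, fun c hc => hc.1⟩
  have h0 : ∀ μ, 0 ≤ sInf (S μ) := fun μ => le_csInf (hne μ) fun c hc => hc.1
  have hle : ∀ μ c, 0 ≤ c → Bdd X μ c → sInf (S μ) ≤ c := fun μ c hc h =>
    csInf_le (hbd μ) ⟨hc, h⟩
  have hN : ∀ μ, Bdd X μ (sInf (S μ)) := by
    intro μ f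
    rcases (nrm_nonneg f).eq_or_lt with h | h
    · obtain ⟨c, -, hc⟩ := hne μ
      have := hc f
      rw [← h] at this ⊢
      simpa using this
    · rw [← div_le_iff₀ h]
      refine le_csInf (hne μ) fun c hc => ?_
      rw [div_le_iff₀ h]
      exact hc.2 f
  refine ⟨Seminorm.ofSMulLE (fun μ => sInf (S μ)) ?_ ?_ ?_, ?_, ?_⟩
  · refine le_antisymm ?_ (h0 0)
    simpa using hle 0 _ (sum_nonneg fun U _ => abs_nonneg _) (h8_bdd_sum (X := X) 0)
  · intro μ ν
    refine hle _ _ (add_nonneg (h0 μ) (h0 ν)) fun f => ?_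
    rw [h8_mult_add, add_mul]
    exact (nrm_add_le _ _).trans (add_le_add (hN μ f) (hN ν f))
  · intro r μ
    refine hle _ _ (mul_nonneg (norm_nonneg r) (h0 μ)) fun f => ?_
    rw [h8_mult_smul, nrm_smul, Real.norm_eq_abs, mul_assoc]
    exact mul_le_mul_of_nonneg_left (hN μ f) (abs_nonneg r)
  · intro μ ν
    refine hle _ _ (mul_nonneg (h0 μ) (h0 ν)) fun f => ?_
    rw [← mult_mult, mul_assoc]
    exact (hN μ _).trans (mul_le_mul_of_nonneg_left (hN ν f) (h0 μ))
  · intro μ c hc
    refine ⟨fun h f => ?_, fun h => hle μ c hc h⟩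
    exact (hN μ f).trans (mul_le_mul_of_nonneg_right h (nrm_nonneg f))

/-- Duality: take `g ε = ‖φ ε‖ • x*` with `x*` norming `φ ε = mult μ f ε` (`exists_dual_vector''`), so
`nsq φ = E (g ε) (φ ε)` and `nrm g ≤ nrm φ`; use `expect_mult_mult` with `ν = 1` and `mult_one`. -/
theorem bdd_of_pairing {μ : Finset ι → ℝ} {c : ℝ} (hc : 0 ≤ c)
    (h : ∀ (f : (ι → Bool) → X) (g : (ι → Bool) → StrongDual ℝ X),
      |∑ U, μ U * (coef U g) (coef U f)| ≤ c * nrm f * nrm g) : Bdd X μ c := by
  intro f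
  choose x hx1 hx2 using fun ε => exists_dual_vector'' ℝ (mult μ f ε)
  let g : (ι → Bool) → StrongDual ℝ X := fun ε => ‖mult μ f ε‖ • x ε
  have hg : nrm g ≤ nrm (mult μ f) := by
    refine nrm_mono fun ε => ?_
    simp only [g, norm_smul, norm_norm]
    exact mul_le_of_le_one_right (norm_nonneg _) (hx1 ε)
  have h1 := expect_mult_mult (evalP X) μ (fun _ => 1) f g
  rw [mult_one] at h1
  have h2 : nsq (mult μ f) = ∑ U, μ U * (coef U g) (coef U f) := by
    simp only [evalP_apply, mul_one] at h1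
    rw [← h1]
    unfold nsq
    refine expect_congr rfl fun ε _ => ?_
    have := hx2 ε
    simp only [g, _root_.smul_apply, smul_eq_mul, this]
    simp [sq]
  have h3 : nrm (mult μ f) ^ 2 ≤ c * nrm f * nrm (mult μ f) := by
    rw [nrm_sq, h2]
    exact (le_abs_self _).trans ((h f g).trans
      (mul_le_mul_of_nonneg_left hg (mul_nonneg hc (nrm_nonneg _))))
  rcases (nrm_nonneg (mult μ f)).eq_or_lt with h0 | h0
  · rw [← h0]
    exact mul_nonneg hc (nrm_nonneg _)
  · rw [sq] at h3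
    exact le_of_mul_le_mul_right h3 h0

/-- Convex combinations (`mult` is linear in `μ`; `nrm_sum_le`, `nrm_smul`). -/
theorem Bdd.sum {T : Type*} (s : Finset T) (p : T → ℝ) (hp : ∀ t ∈ s, 0 ≤ p t)
    (hs : ∑ t ∈ s, p t = 1) (μ : T → Finset ι → ℝ) {c : ℝ} (h : ∀ t ∈ s, Bdd X (μ t) c) :
    Bdd X (fun U => ∑ t ∈ s, p t * μ t U) c := by
  intro f
  have e : mult (fun U => ∑ t ∈ s, p t * μ t U) f = fun ε => ∑ t ∈ s, p t • mult (μ t) f ε := by
    funext ε
    simp only [mult, smul_sum, sum_mul, sum_smul, smul_smul, mul_assoc]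
    exact sum_comm
  rw [e]
  refine (nrm_sum_le s fun t ε => p t • mult (μ t) f ε).trans ?_
  calc ∑ t ∈ s, nrm (fun ε => p t • mult (μ t) f ε) ≤ ∑ t ∈ s, p t * (c * nrm f) := by
        refine sum_le_sum fun t ht => ?_
        rw [nrm_smul, abs_of_nonneg (hp t ht)]
        exact mul_le_mul_of_nonneg_left (h t ht f) (hp t ht)
    _ = c * nrm f := by rw [← sum_mul, hs, one_mul]

private theorem helper47_bdd_wal (η : ι → Bool) : Bdd X (fun U => wal U η) 1 := by
  intro f
  let e : (ι → Bool) ≃ (ι → Bool) :=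
    { toFun := fun ε i => ε i == η i
      invFun := fun ε i => ε i == η i
      left_inv := fun ε => by funext i; dsimp only; cases ε i <;> cases η i <;> rfl
      right_inv := fun ε => by funext i; dsimp only; cases ε i <;> cases η i <;> rfl }
  have h1 : mult (fun U => wal U η) f = fun ε => f (e ε) := by
    funext ε
    conv_rhs => rw [← mult_one f]
    simp only [mult, one_mul]
    refine sum_congr rfl fun U _ => ?_
    have : wal U (e ε) = wal U ε * wal U η := wal_beq U ε η
    rw [this, mul_comm]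
  rw [h1, one_mul]
  unfold nrm
  rw [nsq_equiv e f]

/-- Averaging out the coordinates in `Z` is a contraction.  The multiplier is the average over
`η : ι → Bool` of the isometries `f ↦ f (ε * η_Z)`, where `η_Z i = if i ∈ Z then η i else true` and
`(ε * η) i = (ε i == η i)`; the isometry is the multiplier `U ↦ wal U η_Z` (`eq_of_coef_eq`, `wal_beq`,
`nsq_equiv`), and `E_η wal U η_Z = if Disjoint U Z then 1 else 0` (`sum_prod_bool`); use `Bdd.sum`. -/
theorem bdd_disjoint (Z : Finset ι) : Bdd X (fun U => if Disjoint U Z then (1 : ℝ) else 0) 1 := by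
  have hpos : (0 : ℝ) < 2 ^ Fintype.card ι := by positivity
  have h := Bdd.sum (X := X) (univ : Finset (ι → Bool)) (fun _ => ((2 : ℝ) ^ Fintype.card ι)⁻¹)
    (fun _ _ => by positivity) (by simp)
    (fun η U => wal U fun i => if i ∈ Z then η i else true) (fun η _ => helper47_bdd_wal _)
  convert h using 2 with U
  have h1 : ∀ η : ι → Bool, wal U (fun i => if i ∈ Z then η i else true) =
      wal (U ∩ Z) η * wal ∅ η := by
    intro η
    simp only [wal, prod_empty, mul_one]
    rw [← filter_mem_eq_inter, prod_filter]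
    refine prod_congr rfl fun i _ => ?_
    split_ifs <;> simp [signVal]
  simp only [h1]
  rw [← mul_sum, sum_wal_mul]
  by_cases hd : Disjoint U Z
  · rw [if_pos hd, if_pos (disjoint_iff_inter_eq_empty.1 hd), inv_mul_cancel₀ hpos.ne']
  · rw [if_neg hd, if_neg (fun h' => hd (disjoint_iff_inter_eq_empty.2 h')), mul_zero]

/-- The law of a random subset containing each point with probability `1 - w`. -/
noncomputable def subW (w : ℝ) (Z : Finset ι) : ℝ := ∏ i, if i ∈ Z then 1 - w else w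

/-- `∑ Z, ∏ i, (if i ∈ Z then p i else q i) = ∏ i, (p i + q i)` (`Finset.prod_add`,
`Finset.prod_add_prod_eq`, `Finset.prod_ite`, or `Fintype.sum_equiv` to `ι → Bool` and
`sum_prod_bool`), with `p i = if i ∈ U then 0 else 1 - w`. -/
theorem sum_subW_disjoint (w : ℝ) (U : Finset ι) :
    ∑ Z : Finset ι, subW w Z * (if Disjoint U Z then (1 : ℝ) else 0) = w ^ U.card := by
  have key : ∀ Z : Finset ι, subW w Z * (if Disjoint U Z then (1 : ℝ) else 0) =
      (∏ i ∈ Z, (if i ∈ U then (0 : ℝ) else 1 - w)) * ∏ _i ∈ univ \ Z, w := by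
    intro Z
    split_ifs with h
    · rw [mul_one, subW, prod_ite]
      congr 1
      · rw [filter_mem_eq_inter, univ_inter]
        refine prod_congr rfl fun i hi => ?_
        rw [if_neg fun hU => disjoint_left.1 h hU hi]
      · congr 1
        ext i
        simp
    · obtain ⟨i, hU, hZ⟩ := not_disjoint_iff.1 h
      rw [mul_zero, prod_eq_zero (f := fun i => if i ∈ U then (0 : ℝ) else 1 - w) hZ (if_pos hU),
        zero_mul]
  have h2 := prod_add (fun i => if i ∈ U then (0 : ℝ) else 1 - w) (fun _ => w) (univ : Finset ι)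
  rw [powerset_univ] at h2
  simp only [key]
  rw [← h2]
  have h3 : ∀ i : ι, ((if i ∈ U then (0 : ℝ) else 1 - w) + w) = if i ∈ U then w else 1 := by
    intro i
    split_ifs <;> ring
  simp only [h3]
  rw [prod_ite_mem, univ_inter, prod_const]

theorem sum_subW (w : ℝ) : ∑ Z : Finset ι, subW w Z = 1 := by
  simpa using sum_subW_disjoint w (∅ : Finset ι)

theorem subW_nonneg {w : ℝ} (h0 : 0 ≤ w) (h1 : w ≤ 1) (Z : Finset ι) : 0 ≤ subW w Z :=
  prod_nonneg fun i _ => by split_ifs <;> linarith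

/-- The noise operator is a contraction. -/
theorem bdd_noise {w : ℝ} (h0 : 0 ≤ w) (h1 : w ≤ 1) :
    Bdd X (fun U : Finset ι => w ^ U.card) 1 := by
  have h := Bdd.sum (X := X) univ (subW (ι := ι) w) (fun Z _ => subW_nonneg h0 h1 Z) (sum_subW w)
    (fun Z U => if Disjoint U Z then (1 : ℝ) else 0) (fun Z _ => bdd_disjoint Z)
  simpa only [sum_subW_disjoint] using h

/-- The bicharacter of `ZMod 2`. -/
def chi2 (a b : ZMod 2) : ℝ := if a = 1 ∧ b = 1 then -1 else 1

theorem zmod2_cases (a : ZMod 2) : a = 0 ∨ a = 1 := by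
  revert a; decide

theorem chi2_add_left (a a' b : ZMod 2) : chi2 (a + a') b = chi2 a b * chi2 a' b := by
  have h2 : (1 : ZMod 2) + 1 = 0 := by decide
  rcases zmod2_cases a with rfl | rfl <;> rcases zmod2_cases a' with rfl | rfl <;>
    rcases zmod2_cases b with rfl | rfl <;> simp [chi2, h2]

theorem chi2_comm (a b : ZMod 2) : chi2 a b = chi2 b a := by
  simp only [chi2, and_comm]

/-- The standard bicharacter `(-1) ^ (S · T)` on `(ZMod 2) ^ M`. -/
noncomputable def stdBichar (M : ℕ) : Bichar (Fin M → ZMod 2) (Fin M → ZMod 2) where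
  toFun S T := ∏ i, chi2 (S i) (T i)
  add_left S S' T := by
    simp only [Pi.add_apply, chi2_add_left, prod_mul_distrib]
  add_right S T T' := by
    rw [← prod_mul_distrib]
    refine prod_congr rfl fun i _ => ?_
    rw [Pi.add_apply, chi2_comm, chi2_add_left, chi2_comm (T i), chi2_comm (T' i)]
  sq S T := by
    rw [← prod_mul_distrib]
    refine prod_eq_one fun i _ => ?_
    unfold chi2
    split_ifs <;> norm_num

/-- The double average factors over the coordinates, each factor being `(1 + 1 + 1 - 1) / 4`. -/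
theorem bias_stdBichar (M : ℕ) : (stdBichar M).bias = (1 / 2 : ℝ) ^ M := by
  have h1 : ∀ S : Fin M → ZMod 2, ∑ T : Fin M → ZMod 2, ∏ i, chi2 (S i) (T i) =
      ∏ i, ∑ b : ZMod 2, chi2 (S i) b := by
    intro S
    rw [prod_univ_sum, Fintype.piFinset_univ]
  have h2 : ∑ S : Fin M → ZMod 2, ∏ i, ∑ b : ZMod 2, chi2 (S i) b =
      ∏ _i : Fin M, ∑ a : ZMod 2, ∑ b : ZMod 2, chi2 a b := by
    rw [prod_univ_sum, Fintype.piFinset_univ]
  have hu : (univ : Finset (ZMod 2)) = {0, 1} := by decide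
  have h3 : ∑ a : ZMod 2, ∑ b : ZMod 2, chi2 a b = 2 := by
    have h01 : (0 : ZMod 2) ≠ 1 := by decide
    simp only [hu, sum_pair h01, chi2]
    norm_num [h01]
  simp only [Bichar.bias, stdBichar, expect_eq_sum_div_card, h1]
  rw [← sum_div, h2, h3]
  simp only [prod_const, card_univ, Fintype.card_fin, Fintype.card_pi, ZMod.card, Nat.cast_pow,
    Nat.cast_ofNat]
  rw [one_div, inv_pow]
  field_simp

private theorem bp_expect_pi {M : ℕ} {α : Type} [Fintype α] [DecidableEq α]
    (g : Fin M → α → ℝ) : 𝔼 S : Fin M → α, ∏ i, g i (S i) = ∏ i, 𝔼 a, g i a := by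
  simp only [Fintype.expect_eq_sum_div_card]
  rw [prod_div_distrib, Finset.prod_univ_sum, Fintype.piFinset_univ, prod_const, card_univ,
    Fintype.card_fun]
  push_cast
  rfl

private theorem bp_expect_zmod2 (g : ZMod 2 → ℝ) : 𝔼 a, g a = (g 0 + g 1) / 2 := by
  rw [Fintype.expect_eq_sum_div_card]
  have h : (univ : Finset (ZMod 2)) = {0, 1} := by decide
  rw [h, sum_pair (by decide)]
  simp

/-- The signed indicator multiplier. -/
private noncomputable def bpMu {M : ℕ} (Z : Fin M → Finset ι) (S : Fin M → ZMod 2)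
    (U : Finset ι) : ℝ :=
  ∏ i, if S i = 1 then -(if Disjoint U (Z i) then (1 : ℝ) else 0) else 1

omit [Fintype ι] in
private theorem bpMu_eq {M : ℕ} (Z : Fin M → Finset ι) (S : Fin M → ZMod 2) (U : Finset ι) :
    bpMu Z S U = (∏ i, if S i = 1 then (-1 : ℝ) else 1) *
      (if Disjoint U ((univ.filter fun i => S i = 1).biUnion Z) then (1 : ℝ) else 0) := by
  unfold bpMu
  by_cases h : Disjoint U ((univ.filter fun i => S i = 1).biUnion Z)
  · rw [if_pos h, mul_one]
    refine prod_congr rfl fun i _ => ?_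
    by_cases hi : S i = 1
    · have : Disjoint U (Z i) :=
        (disjoint_biUnion_right _ _ _).mp h i (mem_filter.mpr ⟨mem_univ _, hi⟩)
      simp [hi, this]
    · simp [hi]
  · rw [if_neg h, mul_zero]
    rw [disjoint_biUnion_right] at h
    push Not at h
    obtain ⟨i, hi, hd⟩ := h
    refine prod_eq_zero (mem_univ i) ?_
    simp [(mem_filter.mp hi).2, hd]

private theorem bp_nsq_le {Y : Type*} [NormedAddCommGroup Y] [NormedSpace ℝ Y] {M : ℕ}
    (Z : Fin M → Finset ι) (S : Fin M → ZMod 2) (f : (ι → Bool) → Y) :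
    nsq (mult (bpMu Z S) f) ≤ nsq f := by
  set s : ℝ := ∏ i, if S i = 1 then (-1 : ℝ) else 1 with hs
  set Z' := (univ.filter fun i => S i = 1).biUnion Z with hZ'
  have hs1 : |s| = 1 := by
    rw [hs, abs_prod]
    refine prod_eq_one fun i _ => ?_
    split_ifs <;> simp
  have h1 : mult (bpMu Z S) f =
      fun ε => s • mult (fun U => if Disjoint U Z' then (1 : ℝ) else 0) f ε := by
    funext ε
    unfold mult
    rw [smul_sum]
    refine sum_congr rfl fun U _ => ?_
    rw [bpMu_eq, smul_smul, mul_assoc]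
  have h2 : nrm (mult (bpMu Z S) f) ≤ nrm f := by
    rw [h1, nrm_smul, hs1, one_mul]
    simpa using bdd_disjoint (X := Y) Z' f
  rw [← nrm_sq, ← nrm_sq]
  exact pow_le_pow_left₀ (nrm_nonneg _) h2 2

omit [Fintype ι] in
private theorem bp_expect_mu {M : ℕ} (Z : Fin M → Finset ι) (U : Finset ι) :
    𝔼 S, 𝔼 T, (stdBichar M).toFun S T * (bpMu Z S U * bpMu Z T U) =
      ∏ i, (1 - 3 * (if Disjoint U (Z i) then (1 : ℝ) else 0)) / 4 := by
  have h : ∀ S T : Fin M → ZMod 2, (stdBichar M).toFun S T * (bpMu Z S U * bpMu Z T U) =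
      ∏ i, chi2 (S i) (T i) *
        ((if S i = 1 then -(if Disjoint U (Z i) then (1 : ℝ) else 0) else 1) *
          (if T i = 1 then -(if Disjoint U (Z i) then (1 : ℝ) else 0) else 1)) := by
    intro S T
    simp only [stdBichar, bpMu, prod_mul_distrib]
  simp only [h]
  have h2 : ∀ S : Fin M → ZMod 2, 𝔼 T : Fin M → ZMod 2, ∏ i, chi2 (S i) (T i) *
        ((if S i = 1 then -(if Disjoint U (Z i) then (1 : ℝ) else 0) else 1) *
          (if T i = 1 then -(if Disjoint U (Z i) then (1 : ℝ) else 0) else 1)) =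
      ∏ i, 𝔼 b : ZMod 2, chi2 (S i) b *
        ((if S i = 1 then -(if Disjoint U (Z i) then (1 : ℝ) else 0) else 1) *
          (if b = 1 then -(if Disjoint U (Z i) then (1 : ℝ) else 0) else 1)) := fun S =>
    bp_expect_pi (fun i b => chi2 (S i) b *
        ((if S i = 1 then -(if Disjoint U (Z i) then (1 : ℝ) else 0) else 1) *
          (if b = 1 then -(if Disjoint U (Z i) then (1 : ℝ) else 0) else 1)))
  simp only [h2]
  rw [bp_expect_pi (fun i a => 𝔼 b : ZMod 2, chi2 a b *
        ((if a = 1 then -(if Disjoint U (Z i) then (1 : ℝ) else 0) else 1) *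
          (if b = 1 then -(if Disjoint U (Z i) then (1 : ℝ) else 0) else 1)))]
  refine prod_congr rfl fun i _ => ?_
  simp only [bp_expect_zmod2]
  have h01 : ¬ ((0 : ZMod 2) = 1) := by decide
  simp only [chi2, h01, false_and, and_false, and_self, if_true, if_false]
  split_ifs <;> norm_num

private theorem bp_sqrt_le {Y : Type*} [NormedAddCommGroup Y] [NormedSpace ℝ Y] {M : ℕ}
    (Z : Fin M → Finset ι) (f : (ι → Bool) → Y) :
    √(𝔼 ε, nrm (fun S : Fin M → ZMod 2 => mult (bpMu Z S) f ε) ^ 2) ≤ nrm f := by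
  refine Real.sqrt_le_sqrt ?_
  simp only [nrm_sq]
  unfold nsq
  rw [expect_comm]
  exact expect_le univ_nonempty fun S _ => bp_nsq_le Z S f

/-- The `(-1) ^ |S ∪ T|` trick.  For `S : Fin M → ZMod 2` let
`μ S U = ∏ i, if S i = 1 then -(if Disjoint U (Z i) then 1 else 0) else 1`; it is `±` the indicator of
`Disjoint U (⋃_{S i = 1} Z i)`, so `nrm (mult (μ S) f) ≤ nrm f` (`bdd_disjoint`, also for `X*`).
Coordinatewise (with `p ∈ {0,1}`): `E_{a,b} χ(ab) m(a) m(b) = (1 - p - p - p²)/4 = (1 - 3p)/4`, hence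
`E_S E_T β S T * μ S U * μ T U = ∏ i, (1 - 3 p_i) / 4`.  By `expect_mult_mult`,
`∑ U, (∏ ..) (coef U g) (coef U f) = E_ε test β (evalP X) (fun S => mult (μ S) f ε) (fun T => mult (μ T) g ε)`;
bound each test by `hH`, then Cauchy-Schwarz in `ε` and `E_ε nsq (S ↦ ..) = E_S nsq (mult (μ S) f)`.
Conclude with `bdd_of_pairing`. -/
theorem bdd_prod {ρ c : ℝ} (hH : H (evalP X) Set.univ Set.univ ρ c) (hc : 0 ≤ c) (M : ℕ)
    (Z : Fin M → Finset ι) :
    Bdd X (fun U => ∏ i, (1 - 3 * (if Disjoint U (Z i) then (1 : ℝ) else 0)) / 4)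
      (c * ((1 / 2 : ℝ) ^ ρ) ^ M) := by
  have hc' : 0 ≤ c * ((1 / 2 : ℝ) ^ ρ) ^ M := by positivity
  refine bdd_of_pairing hc' fun f g => ?_
  have key : ∑ U, (∏ i, (1 - 3 * (if Disjoint U (Z i) then (1 : ℝ) else 0)) / 4) *
        (coef U g) (coef U f) =
      𝔼 ε, test (stdBichar M) (evalP X) (fun S => mult (bpMu Z S) f ε)
        (fun T => mult (bpMu Z T) g ε) := by
    unfold test
    rw [expect_comm]
    have h1 : ∀ S : Fin M → ZMod 2, 𝔼 ε, 𝔼 T, (stdBichar M).toFun S T *
          evalP X (mult (bpMu Z S) f ε) (mult (bpMu Z T) g ε) =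
        ∑ U, 𝔼 T, (stdBichar M).toFun S T * (bpMu Z S U * bpMu Z T U) *
          (coef U g) (coef U f) := by
      intro S
      rw [expect_comm, ← expect_sum_comm]
      refine expect_congr rfl fun T _ => ?_
      rw [← mul_expect, expect_mult_mult, mul_sum]
      refine sum_congr rfl fun U _ => ?_
      rw [evalP_apply]
      ring
    simp only [h1]
    rw [expect_sum_comm]
    refine sum_congr rfl fun U _ => ?_
    rw [← bp_expect_mu, expect_mul]
    refine expect_congr rfl fun S _ => ?_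
    rw [expect_mul]
  rw [key]
  have hb : (stdBichar M).bias ^ ρ = ((1 / 2 : ℝ) ^ ρ) ^ M := by
    rw [bias_stdBichar, Real.rpow_pow_comm (by norm_num)]
  calc |𝔼 ε, test (stdBichar M) (evalP X) (fun S => mult (bpMu Z S) f ε)
        (fun T => mult (bpMu Z T) g ε)|
      ≤ 𝔼 ε, |test (stdBichar M) (evalP X) (fun S => mult (bpMu Z S) f ε)
        (fun T => mult (bpMu Z T) g ε)| := Finset.abs_expect_le _ _
    _ ≤ 𝔼 ε, c * ((1 / 2 : ℝ) ^ ρ) ^ M *
          (nrm (fun S : Fin M → ZMod 2 => mult (bpMu Z S) f ε) *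
            nrm (fun T : Fin M → ZMod 2 => mult (bpMu Z T) g ε)) := by
        refine expect_le_expect fun ε _ => ?_
        have := hH _ _ (stdBichar M) (fun S => mult (bpMu Z S) f ε)
          (fun T => mult (bpMu Z T) g ε) (fun _ => Set.mem_univ _) (fun _ => Set.mem_univ _)
        rw [hb] at this
        simpa only [mul_assoc] using this
    _ = c * ((1 / 2 : ℝ) ^ ρ) ^ M *
          𝔼 ε, nrm (fun S : Fin M → ZMod 2 => mult (bpMu Z S) f ε) *
            nrm (fun T : Fin M → ZMod 2 => mult (bpMu Z T) g ε) := by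
        rw [mul_expect]
    _ ≤ c * ((1 / 2 : ℝ) ^ ρ) ^ M * (nrm f * nrm g) := by
        refine mul_le_mul_of_nonneg_left ((expect_mul_le_sqrt _ _).trans ?_) hc'
        exact mul_le_mul (bp_sqrt_le Z f) (bp_sqrt_le Z g) (Real.sqrt_nonneg _) (nrm_nonneg _)
    _ = c * ((1 / 2 : ℝ) ^ ρ) ^ M * nrm f * nrm g := by ring

/-- Average `bdd_prod` over independent random subsets: weights `∏ i, subW w (Z i)`
(`Finset.prod_univ_sum`, `Fintype.piFinset_univ`, `sum_subW`, `sum_subW_disjoint`), `Bdd.sum`. -/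
theorem bdd_pow {ρ c : ℝ} (hH : H (evalP X) Set.univ Set.univ ρ c) (hc : 0 ≤ c) {w : ℝ}
    (h0 : 0 ≤ w) (h1 : w ≤ 1) (M : ℕ) :
    Bdd X (fun U : Finset ι => ((1 - 3 * w ^ U.card) / 4) ^ M) (c * ((1 / 2 : ℝ) ^ ρ) ^ M) := by
  have hs : ∑ Z : Fin M → Finset ι, ∏ i, subW w (Z i) = 1 := by
    have := prod_univ_sum (fun _ : Fin M => (univ : Finset (Finset ι))) (fun _ Z => subW w Z)
    rw [Fintype.piFinset_univ] at this
    rw [← this]
    simp only [sum_subW, prod_const_one]
  have h := Bdd.sum (X := X) univ (fun Z : Fin M → Finset ι => ∏ i, subW w (Z i))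
    (fun Z _ => prod_nonneg fun i _ => subW_nonneg h0 h1 (Z i)) hs
    (fun Z U => ∏ i, (1 - 3 * (if Disjoint U (Z i) then (1 : ℝ) else 0)) / 4)
    (fun Z _ => bdd_prod hH hc M Z)
  have e : ∀ U : Finset ι, ∑ Z : Fin M → Finset ι, (∏ i, subW w (Z i)) *
      ∏ i, (1 - 3 * (if Disjoint U (Z i) then (1 : ℝ) else 0)) / 4 =
      ((1 - 3 * w ^ U.card) / 4) ^ M := by
    intro U
    have := prod_univ_sum (fun _ : Fin M => (univ : Finset (Finset ι)))
      (fun _ Z => subW w Z * ((1 - 3 * (if Disjoint U Z then (1 : ℝ) else 0)) / 4))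
    rw [Fintype.piFinset_univ] at this
    simp only [← prod_mul_distrib]
    rw [← this]
    have e2 : ∑ Z : Finset ι, subW w Z * ((1 - 3 * (if Disjoint U Z then (1 : ℝ) else 0)) / 4) =
        (1 - 3 * w ^ U.card) / 4 := by
      rw [← sum_subW_disjoint w U, mul_sum, ← sum_subW (ι := ι) w, ← sum_sub_distrib, sum_div]
      refine sum_congr rfl fun Z _ => ?_
      rw [sum_subW]
      ring
    simp only [e2, prod_const, card_univ, Fintype.card_fin]
  simpa only [e] using h

end Crest.Agent.R118
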