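import Crest.Agent.R118.Decay
import Crest.Agent.R118.Mult
import Crest.Agent.R118.Kato

/-! Row 118: assembly. -/

set_option autoImplicit false

open Finset Crest.AnalysisR
open scoped BigOperators

namespace Crest.Agent.R118

variable {X : Type*} [NormedAddCommGroup X] [NormedSpace ℝ X]

/-- The level-one multiplier is the Rademacher projection. -/
theorem isKConvex_of_bdd {K : ℝ} (hK : 0 ≤ K)
    (h : ∀ s : ℕ, Bdd X (fun U : Finset (Fin s) => if U.card = 1 then (1 : ℝ) else 0) K) :
    IsKConvex X := by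
  have avg : ∀ (s : ℕ) (g : (Fin s → Bool) → X),
      (signAverage fun ε : Fin s → Bool => ‖g ε‖ ^ (2 : ℝ)) = nsq g := by
    intro s g
    unfold signAverage nsq
    rw [Fintype.expect_eq_sum_div_card]
    simp only [Real.rpow_two, Fintype.card_fun, Fintype.card_bool, Fintype.card_fin]
    push_cast
    rw [div_eq_inv_mul]
  refine ⟨K, fun s f => ?_⟩
  have hm : ∀ ε : Fin s → Bool,
      mult (fun U : Finset (Fin s) => if U.card = 1 then (1 : ℝ) else 0) f ε =
        ∑ i : Fin s, signVal (ε i) •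
          (((2 : ℝ) ^ s)⁻¹ • ∑ η : Fin s → Bool, signVal (η i) • f η) := by
    intro ε
    unfold mult
    have h1 : ∀ U : Finset (Fin s),
        ((if U.card = 1 then (1 : ℝ) else 0) * wal U ε) • coef U f =
          if U.card = 1 then wal U ε • coef U f else 0 := by
      intro U
      split_ifs <;> simp
    rw [Finset.sum_congr rfl fun U _ => h1 U, ← Finset.sum_filter]
    have h2 : (Finset.univ.filter fun U : Finset (Fin s) => U.card = 1) =
        Finset.univ.image fun i : Fin s => ({i} : Finset (Fin s)) := by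
      ext U
      simp only [Finset.mem_filter, Finset.mem_univ, true_and, Finset.mem_image,
        Finset.card_eq_one]
      exact ⟨fun ⟨a, ha⟩ => ⟨a, ha.symm⟩, fun ⟨a, ha⟩ => ⟨a, ha.symm⟩⟩
    rw [h2, Finset.sum_image fun a _ b _ hab => Finset.singleton_injective hab]
    refine Finset.sum_congr rfl fun i _ => ?_
    simp only [coef, wal, Finset.prod_singleton, Fintype.card_fin]
  have key := h s f
  have e1 := avg s (mult (fun U : Finset (Fin s) => if U.card = 1 then (1 : ℝ) else 0) f)
  simp only [hm] at e1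
  rw [e1, avg s f, ← nrm_sq, ← nrm_sq, ← mul_pow]
  exact pow_le_pow_left₀ (nrm_nonneg _) key 2

theorem main [CompleteSpace X] (hAP : HasApproximationProperty X) {q r C D : ℝ} (hq : 2 ≤ q)
    (hr : 2 ≤ r) (hX : HasRademacherCotype X q C)
    (hX' : HasRademacherCotype (StrongDual ℝ X) r D) : IsKConvex X := by
  obtain ⟨ρ, c, hρ, hc, hH⟩ := decay hAP hq hr hX hX'
  have hθ0 : (0 : ℝ) ≤ (1 / 2 : ℝ) ^ ρ := by positivity
  have hθ : (1 / 2 : ℝ) ^ ρ < 1 := Real.rpow_lt_one (by norm_num) (by norm_num) hρ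
  have hK : 0 ≤ katoC c ((1 / 2 : ℝ) ^ ρ) := by
    have : 0 ≤ c / (1 - (1 / 2 : ℝ) ^ ρ) := div_nonneg hc (by linarith)
    unfold katoC
    positivity
  refine isKConvex_of_bdd hK fun s => ?_
  obtain ⟨N, hmul, hN⟩ := exists_seminorm (ι := Fin s) X
  refine (hN _ _ hK).mp (kato N hmul Finset.card hc hθ0 hθ (fun w h0 h1 => ?_) fun w h0 h1 M => ?_)
  · exact (hN _ _ zero_le_one).mpr (bdd_noise h0 h1)
  · exact (hN _ _ (by positivity)).mpr (bdd_pow hH hc h0 h1 M)

end Crest.Agent.R118
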