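import Crest.Agent.R118.Bichar

/-! Row 118: the odd Riesz product. -/

set_option autoImplicit false

open Finset Crest.AnalysisR
open scoped BigOperators

namespace Crest.Agent.R118

variable {A B : Type*} [NormedAddCommGroup A] [NormedSpace ℝ A] [NormedAddCommGroup B]
  [NormedSpace ℝ B] {V W ι κ : Type} [AddCommGroup V] [AddCommGroup W] [Fintype V] [Fintype W]
  [Fintype ι] [DecidableEq ι] [Fintype κ] [DecidableEq κ]

/-- The even part of the Riesz product. -/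
noncomputable def evenR (β : Bichar V W) (w : ℝ) (ξ : ι → Bool) (ζ : κ → Bool) (x : ι → V)
    (y : κ → W) : ℝ :=
  ∑ Γ ∈ (univ : Finset (Finset (ι × κ))).filter (fun Γ => Even Γ.card),
    w ^ Γ.card * ∏ e ∈ Γ, edge β ξ ζ x y e

/-- The odd part of the Riesz product. -/
noncomputable def oddR (β : Bichar V W) (w : ℝ) (ξ : ι → Bool) (ζ : κ → Bool) (x : ι → V)
    (y : κ → W) : ℝ :=
  ∑ Γ ∈ (univ : Finset (Finset (ι × κ))).filter (fun Γ => Odd Γ.card),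
    w ^ Γ.card * ∏ e ∈ Γ, edge β ξ ζ x y e

omit [Fintype V] [Fintype W] [Fintype ι] [DecidableEq ι] [Fintype κ] [DecidableEq κ] in
theorem h18_abs_edge (β : Bichar V W) (ξ : ι → Bool) (ζ : κ → Bool) (x : ι → V) (y : κ → W)
    (e : ι × κ) : |edge β ξ ζ x y e| = 1 := by
  unfold edge
  rw [abs_mul, abs_mul, abs_signVal, abs_signVal, β.abs_eq]
  norm_num

theorem h18_riesz_nonneg {T : Type} [Fintype T] [DecidableEq T] (m : T → ℝ) (hm : ∀ e, |m e| = 1)
    {w : ℝ} (hw : |w| ≤ 1) : 0 ≤ ∑ Γ : Finset T, w ^ Γ.card * ∏ e ∈ Γ, m e := by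
  have h : ∏ e : T, (1 + w * m e) = ∑ Γ : Finset T, w ^ Γ.card * ∏ e ∈ Γ, m e := by
    rw [prod_one_add, powerset_univ]
    refine sum_congr rfl fun Γ _ => ?_
    rw [prod_mul_distrib, prod_const]
  rw [← h]
  refine prod_nonneg fun e _ => ?_
  have h1 : |w * m e| ≤ 1 := by rw [abs_mul, hm, mul_one]; exact hw
  linarith [(abs_le.1 h1).1]

omit [Fintype V] [Fintype W] in
/-- `even + odd = ∏ (1 + w M) ≥ 0` and `even - odd = ∏ (1 - w M) ≥ 0`
(`Finset.prod_one_add`, `Finset.powerset_univ`, `|M| = 1`, `Finset.sum_filter_add_sum_filter_not`). -/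
theorem abs_oddR_le (β : Bichar V W) {w : ℝ} (hw0 : 0 ≤ w) (hw1 : w ≤ 1) (ξ : ι → Bool)
    (ζ : κ → Bool) (x : ι → V) (y : κ → W) : |oddR β w ξ ζ x y| ≤ evenR β w ξ ζ x y := by
  have h1 := h18_riesz_nonneg (edge β ξ ζ x y) (h18_abs_edge β ξ ζ x y) (w := w)
    (abs_le.2 ⟨by linarith, hw1⟩)
  have h2 := h18_riesz_nonneg (edge β ξ ζ x y) (h18_abs_edge β ξ ζ x y) (w := -w)
    (abs_le.2 ⟨by linarith, by linarith⟩)
  rw [← sum_filter_add_sum_filter_not univ (fun Γ : Finset (ι × κ) => Even Γ.card)] at h1 h2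
  simp only [Nat.not_even_iff_odd] at h1 h2
  have e1 : ∑ Γ ∈ (univ : Finset (Finset (ι × κ))).filter (fun Γ => Even Γ.card),
      (-w) ^ Γ.card * ∏ e ∈ Γ, edge β ξ ζ x y e = evenR β w ξ ζ x y :=
    sum_congr rfl fun Γ hΓ => by rw [(mem_filter.1 hΓ).2.neg_pow]
  have e2 : ∑ Γ ∈ (univ : Finset (Finset (ι × κ))).filter (fun Γ => Odd Γ.card),
      (-w) ^ Γ.card * ∏ e ∈ Γ, edge β ξ ζ x y e = -oddR β w ξ ζ x y := by
    unfold oddR
    rw [← sum_neg_distrib]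
    exact sum_congr rfl fun Γ hΓ => by rw [(mem_filter.1 hΓ).2.neg_pow, neg_mul]
  rw [e1, e2] at h2
  change 0 ≤ evenR β w ξ ζ x y + oddR β w ξ ζ x y at h1
  exact abs_le.2 ⟨by linarith, by linarith⟩

omit [Fintype V] [Fintype W] in
/-- Shifting all rows by `s` and all columns by `t`, where `x i = x₀ + u i`, `y j = y₀ + v j`, `s`
annihilates the `v j` and `t` annihilates the `u i`, multiplies every edge by the same sign. -/
theorem edge_shift (β : Bichar V W) (ξ : ι → Bool) (ζ : κ → Bool) (x₀ s : V) (y₀ t : W)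
    (u : ι → V) (v : κ → W) (hs : s ∈ β.annih v) (ht : t ∈ β.flip.annih u) (e : ι × κ) :
    edge β ξ ζ (fun i => x₀ + s + u i) (fun j => y₀ + t + v j) e =
      (β.toFun s y₀ * β.toFun x₀ t * β.toFun s t) *
        edge β ξ ζ (fun i => x₀ + u i) (fun j => y₀ + v j) e := by
  have h1 : β.toFun s (v e.2) = 1 := hs e.2
  have h2 : β.toFun (u e.1) t = 1 := ht e.1
  simp only [edge, β.add_left, β.add_right, h1, h2]
  ring

theorem h85_expect_coord (i : ι) (φ : V → ℝ) : 𝔼 x : ι → V, φ (x i) = 𝔼 v, φ v := by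
  have h1 : ∀ t : V, 𝔼 x : ι → V, φ (x i + t) = 𝔼 x : ι → V, φ (x i) := fun t =>
    Fintype.expect_equiv (Equiv.addRight fun _ : ι => t) _ _ fun _ => rfl
  have h2 : ∀ x : ι → V, 𝔼 t : V, φ (x i + t) = 𝔼 v, φ v := fun x =>
    Fintype.expect_equiv (Equiv.addLeft (x i)) _ _ fun _ => rfl
  calc 𝔼 x : ι → V, φ (x i) = 𝔼 t : V, 𝔼 x : ι → V, φ (x i + t) := by
        simp only [h1, Fintype.expect_const]
    _ = 𝔼 x : ι → V, 𝔼 t : V, φ (x i + t) := expect_comm _ _ _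
    _ = 𝔼 v, φ v := by simp only [h2, Fintype.expect_const]

omit [Fintype V] [Fintype W] [Fintype ι] [DecidableEq ι] [Fintype κ] [DecidableEq κ] in
theorem h85_prod_edge (β : Bichar V W) (Γ : Finset (ι × κ)) (ξ : ι → Bool) (ζ : κ → Bool)
    (x : ι → V) (y : κ → W) : ∏ e ∈ Γ, edge β ξ ζ x y e =
      (∏ e ∈ Γ, signVal (ξ e.1)) * (∏ e ∈ Γ, signVal (ζ e.2)) * (β.graph Γ).toFun x y := by
  simp only [edge, Bichar.graph, prod_mul_distrib]

omit [Fintype ι] in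
theorem h85_col_single (Γ : Finset (ι × κ)) {e₀ : ι × κ} (he : e₀ ∈ Γ)
    (h : ∀ e ∈ Γ, e.2 = e₀.2 → e = e₀) : 𝔼 ζ : κ → Bool, ∏ e ∈ Γ, signVal (ζ e.2) = 0 := by
  have hinv : Function.Involutive fun ζ : κ → Bool => Function.update ζ e₀.2 (!ζ e₀.2) := by
    intro ζ
    simp
  have h1 : 𝔼 ζ : κ → Bool, -∏ e ∈ Γ, signVal (ζ e.2) = 𝔼 ζ : κ → Bool, ∏ e ∈ Γ, signVal (ζ e.2) := by
    refine Fintype.expect_equiv hinv.toPerm _ _ fun ζ => ?_
    rw [Function.Involutive.coe_toPerm, ← mul_prod_erase Γ _ he, ← mul_prod_erase Γ _ he,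
      Function.update_self, ← neg_mul]
    congr 1
    · cases ζ e₀.2 <;> simp [signVal]
    · refine prod_congr rfl fun e he' => ?_
      rw [Function.update_of_ne fun h' => (mem_erase.mp he').1 (h e (mem_erase.mp he').2 h')]
  rw [expect_neg_distrib] at h1
  linarith

omit [NormedSpace ℝ A] [Fintype κ] [DecidableEq κ] in
theorem h85_dom_le {Λ c : ℝ} (a : V → A) (F : (ι → Bool) → (ι → V) → A) (hF : Dom Λ a F)
    (k : (ι → V) → ℝ) (hk : ∀ x, 0 ≤ k x)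
    (h : ∀ i, 𝔼 x : ι → V, k x * ‖a (x i)‖ ^ 2 = c * nsq a) :
    𝔼 ξ, 𝔼 x, k x * ‖F ξ x‖ ^ 2 ≤ c * (Λ ^ 2 * Fintype.card ι * nsq a) := by
  rw [expect_comm]
  calc 𝔼 x, 𝔼 ξ, k x * ‖F ξ x‖ ^ 2 ≤ 𝔼 x : ι → V, Λ ^ 2 * ∑ i, k x * ‖a (x i)‖ ^ 2 := by
        refine expect_le_expect fun x _ => ?_
        rw [← mul_expect, ← mul_sum, mul_left_comm]
        exact mul_le_mul_of_nonneg_left (hF x) (hk x)
    _ = c * (Λ ^ 2 * Fintype.card ι * nsq a) := by
        rw [← mul_expect, expect_sum_comm]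
        simp only [h, sum_const, card_univ, nsmul_eq_mul]
        ring

omit [NormedSpace ℝ A] in
theorem h85_term_le (β : Bichar V W) {Λ : ℝ} (a : V → A) (F : (ι → Bool) → (ι → V) → A)
    (hF : Dom Λ a F) (Γ : Finset (ι × κ)) :
    𝔼 ξ, 𝔼 ζ : κ → Bool, 𝔼 x, 𝔼 y : κ → W, (∏ e ∈ Γ, edge β ξ ζ x y e) * ‖F ξ x‖ ^ 2 ≤
      (if Γ = ∅ then Λ ^ 2 * Fintype.card ι * nsq a else 0) +
        β.bias * (Λ ^ 2 * Fintype.card ι * nsq a) := by
  have hM : 0 ≤ Λ ^ 2 * Fintype.card ι * nsq a :=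
    mul_nonneg (mul_nonneg (sq_nonneg _) (Nat.cast_nonneg _)) (nsq_nonneg a)
  have hbM := mul_nonneg β.bias_pos.le hM
  by_cases hΓ : Γ = ∅
  · rw [if_pos hΓ, hΓ]
    simp only [prod_empty, Fintype.expect_const]
    have h1 := h85_dom_le (c := 1) a F hF (fun _ => 1) (fun _ => zero_le_one) fun i => by
      simp only [one_mul]
      exact h85_expect_coord i fun v => ‖a v‖ ^ 2
    linarith
  rw [if_neg hΓ, zero_add]
  obtain ⟨e₀, he⟩ := nonempty_iff_ne_empty.mpr hΓ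
  by_cases hs : ∀ e ∈ Γ, e.2 = e₀.2 → e = e₀
  · have h0 := h85_col_single Γ he hs
    have h1 : ∀ ξ : ι → Bool, 𝔼 ζ : κ → Bool, 𝔼 x, 𝔼 y : κ → W,
        (∏ e ∈ Γ, edge β ξ ζ x y e) * ‖F ξ x‖ ^ 2 = 0 := by
      intro ξ
      have h2 : ∀ ζ : κ → Bool, 𝔼 x, 𝔼 y : κ → W, (∏ e ∈ Γ, edge β ξ ζ x y e) * ‖F ξ x‖ ^ 2 =
          (∏ e ∈ Γ, signVal (ζ e.2)) * 𝔼 x, 𝔼 y : κ → W,
            (∏ e ∈ Γ, signVal (ξ e.1)) * (β.graph Γ).toFun x y * ‖F ξ x‖ ^ 2 := by
        intro ζ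
        rw [mul_expect]
        refine expect_congr rfl fun x _ => ?_
        rw [mul_expect]
        refine expect_congr rfl fun y _ => ?_
        rw [h85_prod_edge]
        ring
      simp only [h2]
      rw [← expect_mul, h0, zero_mul]
    simp only [h1, expect_const_zero]
    exact hbM
  · push Not at hs
    obtain ⟨e₁, he₁, hc, hne⟩ := hs
    have hm0 : e₀.1 ∈ univ.filter (fun i => (i, e₀.2) ∈ Γ) := mem_filter.mpr ⟨mem_univ _, he⟩
    have hm1 : e₁.1 ∈ univ.filter (fun i => (i, e₀.2) ∈ Γ) :=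
      mem_filter.mpr ⟨mem_univ _, by rw [← hc]; exact he₁⟩
    have hne' : e₁.1 ≠ e₀.1 := fun h => hne (Prod.ext h hc)
    have h1 := h85_dom_le (c := β.bias) a F hF
      (fun x => β.ker (∑ i ∈ univ.filter (fun i => (i, e₀.2) ∈ Γ), x i))
      (fun _ => β.ker_nonneg _) fun i => by
        obtain ⟨i', hi', hii⟩ : ∃ i' ∈ univ.filter (fun i => (i, e₀.2) ∈ Γ), i ≠ i' := by
          by_cases h : i = e₀.1
          · exact ⟨e₁.1, hm1, fun h' => hne' (h'.symm.trans h)⟩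
          · exact ⟨e₀.1, hm0, h⟩
        rw [β.expect_ker_sum_mul _ hi' (fun x => ‖a (x i)‖ ^ 2) fun x t => by
          rw [Function.update_of_ne hii], ← β.bias_eq, h85_expect_coord i fun v => ‖a v‖ ^ 2]
        rfl
    refine le_trans (expect_le_expect fun ξ _ => expect_le univ_nonempty fun ζ _ =>
      expect_le_expect fun x _ => ?_) h1
    have h2 : 𝔼 y : κ → W, (∏ e ∈ Γ, edge β ξ ζ x y e) * ‖F ξ x‖ ^ 2 =
        ((∏ e ∈ Γ, signVal (ξ e.1)) * ∏ e ∈ Γ, signVal (ζ e.2)) *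
          (∏ j, β.ker (∑ i ∈ univ.filter (fun i => (i, j) ∈ Γ), x i)) * ‖F ξ x‖ ^ 2 := by
      rw [← β.expect_graph, mul_expect, expect_mul]
      exact expect_congr rfl fun y _ => by rw [h85_prod_edge]
    rw [h2]
    refine mul_le_mul_of_nonneg_right ?_ (sq_nonneg _)
    have h3 : (∏ e ∈ Γ, signVal (ξ e.1)) * ∏ e ∈ Γ, signVal (ζ e.2) ≤ 1 := by
      refine (le_abs_self _).trans ?_
      simp only [abs_mul, abs_prod, abs_signVal, prod_const_one, mul_one, le_refl]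
    have h4 : 0 ≤ ∏ j, β.ker (∑ i ∈ univ.filter (fun i => (i, j) ∈ Γ), x i) :=
      prod_nonneg fun j _ => β.ker_nonneg _
    refine (mul_le_of_le_one_left h4 h3).trans ?_
    rw [← mul_prod_erase univ _ (mem_univ e₀.2)]
    exact mul_le_of_le_one_right (β.ker_nonneg _)
      (prod_le_one (fun j _ => β.ker_nonneg _) fun j _ => β.ker_le_one _)

/-- Moment of the even Riesz product against a dominated function of the row variables.
For `Γ = ∅` the term is `E ‖F‖² ≤ Λ² card ι nsq a`.  For a non-empty even `Γ`: average in `ζ` first: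
the term vanishes unless every column of `Γ` has even size (flip `ζ j`, or `sum_prod_bool`); then pick a
non-empty column `I` (so `2 ≤ card I`), average in `y` (`Bichar.expect_graph`), bound by
`E_x ker (∑_I x) * E_ξ ‖F ξ x‖² ≤ Λ² ∑ i, E_x ker (∑_I x) ‖a (x i)‖² = Λ² card ι bias nsq a`
(`Bichar.expect_ker_sum_mul` resampling some `i' ∈ I`, `i' ≠ i`).  There are at most
`2 ^ (card ι * card κ)` graphs and `w ^ card ≤ 1`. -/
theorem expect_evenR_le (β : Bichar V W) {w Λ : ℝ} (hw0 : 0 ≤ w) (hw1 : w ≤ 1) (a : V → A)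
    (F : (ι → Bool) → (ι → V) → A) (hF : Dom Λ a F)
    (hb : 2 ^ (Fintype.card ι * Fintype.card κ) * β.bias ≤ 1) :
    𝔼 ξ, 𝔼 ζ : κ → Bool, 𝔼 x, 𝔼 y : κ → W, evenR β w ξ ζ x y * ‖F ξ x‖ ^ 2 ≤
      2 * (Λ ^ 2 * Fintype.card ι * nsq a) := by
  have hM : 0 ≤ Λ ^ 2 * Fintype.card ι * nsq a :=
    mul_nonneg (mul_nonneg (sq_nonneg _) (Nat.cast_nonneg _)) (nsq_nonneg a)
  have hbM := mul_nonneg β.bias_pos.le hM
  have hnn : ∀ Γ : Finset (ι × κ), 0 ≤ (if Γ = ∅ then Λ ^ 2 * Fintype.card ι * nsq a else 0) +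
      β.bias * (Λ ^ 2 * Fintype.card ι * nsq a) := by
    intro Γ
    split_ifs <;> linarith
  have h1 : 𝔼 ξ, 𝔼 ζ : κ → Bool, 𝔼 x, 𝔼 y : κ → W, evenR β w ξ ζ x y * ‖F ξ x‖ ^ 2 =
      ∑ Γ ∈ (univ : Finset (Finset (ι × κ))).filter (fun Γ => Even Γ.card), w ^ Γ.card *
        𝔼 ξ, 𝔼 ζ : κ → Bool, 𝔼 x, 𝔼 y : κ → W, (∏ e ∈ Γ, edge β ξ ζ x y e) * ‖F ξ x‖ ^ 2 := by
    simp only [evenR, sum_mul, expect_sum_comm, mul_expect, mul_assoc]
  rw [h1]
  calc _ ≤ ∑ Γ ∈ (univ : Finset (Finset (ι × κ))).filter (fun Γ => Even Γ.card),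
        ((if Γ = ∅ then Λ ^ 2 * Fintype.card ι * nsq a else 0) +
          β.bias * (Λ ^ 2 * Fintype.card ι * nsq a)) := by
        refine sum_le_sum fun Γ _ => ?_
        exact (mul_le_mul_of_nonneg_left (h85_term_le β a F hF Γ) (pow_nonneg hw0 _)).trans
          (mul_le_of_le_one_left (hnn Γ) (pow_le_one₀ hw0 hw1))
    _ ≤ ∑ Γ : Finset (ι × κ), ((if Γ = ∅ then Λ ^ 2 * Fintype.card ι * nsq a else 0) +
          β.bias * (Λ ^ 2 * Fintype.card ι * nsq a)) :=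
        sum_le_sum_of_subset_of_nonneg (filter_subset _ _) fun Γ _ _ => hnn Γ
    _ = Λ ^ 2 * Fintype.card ι * nsq a + (2 ^ (Fintype.card ι * Fintype.card κ) * β.bias) *
          (Λ ^ 2 * Fintype.card ι * nsq a) := by
        rw [sum_add_distrib, sum_ite_eq', if_pos (mem_univ _), sum_const, card_univ,
          Fintype.card_finset, Fintype.card_prod, nsmul_eq_mul]
        push_cast
        ring
    _ ≤ 2 * (Λ ^ 2 * Fintype.card ι * nsq a) := by
        have h2 := mul_le_of_le_one_left hM hb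
        linarith

omit [Fintype V] [Fintype W] in
/-- Transposition symmetry (`Finset.map (Equiv.prodComm ..).toEmbedding`, `Finset.sum_bij` or
`Equiv.finsetCongr`). -/
theorem evenR_flip (β : Bichar V W) (w : ℝ) (ξ : ι → Bool) (ζ : κ → Bool) (x : ι → V)
    (y : κ → W) : evenR β.flip w ζ ξ y x = evenR β w ξ ζ x y := by
  unfold evenR
  refine sum_equiv (Equiv.finsetCongr (Equiv.prodComm κ ι)) (fun Γ => ?_) (fun Γ _ => ?_)
  · simp
  · rw [Equiv.finsetCongr_apply, card_map, prod_map]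
    congr 1
    refine prod_congr rfl fun e _ => ?_
    simp only [edge, Bichar.flip, Equiv.coe_toEmbedding, Equiv.prodComm_apply, Prod.fst_swap,
      Prod.snd_swap]
    ring

/-- One fibre of the shift argument.  Fix `ξ ζ u v x₀ y₀`; let `V₁ = β.annih v`, `W₁ = β.flip.annih u`.
By `edge_shift` (odd graphs get the sign once) the average over `s ∈ V₁`, `t ∈ W₁` is
`oddR(x₀ + u, y₀ + v) * test (β.restrict V₁ W₁) Φ f g` with `f s = β s y₀ • F ξ (x₀ + s + u)`,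
`g t = β x₀ t • G ζ (y₀ + t + v)`; these take values in `PA`, `PB` (`β = ±1`, symmetry).  Use `hH`,
`bias_restrict_le`, `card_le_annih`, `Real.rpow_le_rpow`, `abs_oddR_le`. -/
theorem fibre_le {Φ : A →ₗ[ℝ] B →ₗ[ℝ] ℝ} {PA : Set A} {PB : Set B} {ρ c w : ℝ}
    (hH : H Φ PA PB ρ c) (hc : 0 ≤ c) (hρ : 0 ≤ ρ) (hA : ∀ a ∈ PA, -a ∈ PA)
    (hB : ∀ b ∈ PB, -b ∈ PB) (hw0 : 0 ≤ w) (hw1 : w ≤ 1) (β : Bichar V W)
    (F : (ι → V) → A) (G : (κ → W) → B) (hFP : ∀ x, F x ∈ PA) (hGP : ∀ y, G y ∈ PB)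
    (ξ : ι → Bool) (ζ : κ → Bool) (x₀ : V) (y₀ : W) (u : ι → V) (v : κ → W)
    [Fintype (β.annih v)] [Fintype (β.flip.annih u)] :
    |𝔼 s : β.annih v, 𝔼 t : β.flip.annih u,
        oddR β w ξ ζ (fun i => x₀ + s + u i) (fun j => y₀ + t + v j) *
          Φ (F fun i => x₀ + s + u i) (G fun j => y₀ + t + v j)| ≤
      c * (2 ^ (Fintype.card ι + Fintype.card κ) * β.bias) ^ ρ *
        (evenR β w ξ ζ (fun i => x₀ + u i) (fun j => y₀ + v j) *
          (nrm (fun s : β.annih v => F fun i => x₀ + s + u i) *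
            nrm (fun t : β.flip.annih u => G fun j => y₀ + t + v j))) := by
  have hodd : ∀ (s : β.annih v) (t : β.flip.annih u),
      oddR β w ξ ζ (fun i => x₀ + s + u i) (fun j => y₀ + t + v j) =
        (β.toFun s y₀ * β.toFun x₀ t * β.toFun s t) *
          oddR β w ξ ζ (fun i => x₀ + u i) (fun j => y₀ + v j) := by
    intro s t
    unfold oddR
    rw [mul_sum]
    refine sum_congr rfl fun Γ hΓ => ?_
    have hσ : (β.toFun s y₀ * β.toFun x₀ t * β.toFun s t) ^ Γ.card =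
        β.toFun s y₀ * β.toFun x₀ t * β.toFun s t := by
      have ho := (mem_filter.1 hΓ).2
      rcases β.eq_one_or s y₀ with h1 | h1 <;> rcases β.eq_one_or x₀ t with h2 | h2 <;>
        rcases β.eq_one_or s t with h3 | h3 <;> simp [h1, h2, h3, ho.neg_one_pow]
    simp only [edge_shift β ξ ζ x₀ s y₀ t u v s.2 t.2, prod_mul_distrib, prod_const]
    rw [← mul_pow, ← mul_pow, hσ]
    ring
  set f : β.annih v → A := fun s => β.toFun s y₀ • F fun i => x₀ + s + u i with hf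
  set g : β.flip.annih u → B := fun t => β.toFun x₀ t • G fun j => y₀ + t + v j with hg
  have hfP : ∀ s, f s ∈ PA := by
    intro s
    rcases β.eq_one_or s y₀ with h | h
    · simp only [hf, h, one_smul]; exact hFP _
    · simp only [hf, h, neg_smul, one_smul]; exact hA _ (hFP _)
  have hgP : ∀ t, g t ∈ PB := by
    intro t
    rcases β.eq_one_or x₀ t with h | h
    · simp only [hg, h, one_smul]; exact hGP _
    · simp only [hg, h, neg_smul, one_smul]; exact hB _ (hGP _)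
  have hfn : nrm f = nrm (fun s : β.annih v => F fun i => x₀ + s + u i) := by
    unfold nrm nsq
    simp only [hf, norm_smul, Real.norm_eq_abs, β.abs_eq, one_mul]
  have hgn : nrm g = nrm (fun t : β.flip.annih u => G fun j => y₀ + t + v j) := by
    unfold nrm nsq
    simp only [hg, norm_smul, Real.norm_eq_abs, β.abs_eq, one_mul]
  have hT := hH (β.annih v) (β.flip.annih u) (β.restrict (β.annih v) (β.flip.annih u)) f g hfP hgP
  have hE : (𝔼 s : β.annih v, 𝔼 t : β.flip.annih u,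
        oddR β w ξ ζ (fun i => x₀ + s + u i) (fun j => y₀ + t + v j) *
          Φ (F fun i => x₀ + s + u i) (G fun j => y₀ + t + v j)) =
      oddR β w ξ ζ (fun i => x₀ + u i) (fun j => y₀ + v j) *
        test (β.restrict (β.annih v) (β.flip.annih u)) Φ f g := by
    unfold test
    rw [mul_expect]
    refine expect_congr rfl fun s _ => ?_
    rw [mul_expect]
    refine expect_congr rfl fun t _ => ?_
    rw [hodd]
    simp only [hf, hg, Bichar.restrict, map_smul, LinearMap.smul_apply, smul_eq_mul]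
    ring
  have hbias : (β.restrict (β.annih v) (β.flip.annih u)).bias ≤
      2 ^ (Fintype.card ι + Fintype.card κ) * β.bias := by
    refine (β.bias_restrict_le _ _ (β.card_le_annih v) (β.flip.card_le_annih u)).trans (le_of_eq ?_)
    rw [pow_add]; ring
  have hpow := Real.rpow_le_rpow (Bichar.bias_pos _).le hbias hρ
  have hO := abs_oddR_le β hw0 hw1 ξ ζ (fun i => x₀ + u i) (fun j => y₀ + v j)
  have hE0 := (abs_nonneg _).trans hO
  rw [hE, abs_mul, ← hfn, ← hgn]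
  have hn1 := nrm_nonneg f
  have hn2 := nrm_nonneg g
  have hT' : |test (β.restrict (β.annih v) (β.flip.annih u)) Φ f g| ≤
      c * (2 ^ (Fintype.card ι + Fintype.card κ) * β.bias) ^ ρ * nrm f * nrm g :=
    hT.trans (by gcongr)
  refine (mul_le_mul hO hT' (abs_nonneg _) hE0).trans (le_of_eq ?_)
  ring

omit [Fintype W] [Fintype κ] [DecidableEq κ] in
private theorem shift_avg (φ : (ι → V) → ℝ) :
    𝔼 x, φ x = 𝔼 u : ι → V, 𝔼 x₀ : V, φ (fun i => x₀ + u i) := by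
  rw [expect_comm]
  have h : ∀ x₀ : V, 𝔼 u : ι → V, φ (fun i => x₀ + u i) = 𝔼 x, φ x := fun x₀ =>
    Fintype.expect_equiv (Equiv.addLeft (fun _ : ι => x₀)) _ _ fun u => rfl
  simp only [h, Fintype.expect_const]

omit [Fintype W] [Fintype ι] [DecidableEq ι] [Fintype κ] [DecidableEq κ] in
private theorem sub_avg (V₁ : AddSubgroup V) [Fintype V₁] (ψ : V → ℝ) :
    𝔼 x, ψ x = 𝔼 x₀ : V, 𝔼 s : V₁, ψ (x₀ + s) := by
  rw [expect_comm]
  have h : ∀ s : V₁, 𝔼 x₀ : V, ψ (x₀ + s) = 𝔼 x, ψ x := fun s =>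
    Fintype.expect_equiv (Equiv.addRight (s : V)) _ _ fun u => rfl
  simp only [h, Fintype.expect_const]

open Classical in
private theorem key_avg (β : Bichar V W) (Q : (ι → V) → (κ → W) → ℝ) :
    𝔼 x, 𝔼 y, Q x y = 𝔼 u : ι → V, 𝔼 v : κ → W, 𝔼 x₀ : V, 𝔼 y₀ : W,
      𝔼 s : β.annih v, 𝔼 t : β.flip.annih u,
        Q (fun i => x₀ + s + u i) (fun j => y₀ + t + v j) := by
  rw [shift_avg]
  refine expect_congr rfl fun u _ => ?_
  have h1 : ∀ x₀ : V, 𝔼 y, Q (fun i => x₀ + u i) y =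
      𝔼 v : κ → W, 𝔼 y₀ : W, Q (fun i => x₀ + u i) (fun j => y₀ + v j) := fun x₀ =>
    shift_avg fun y => Q (fun i => x₀ + u i) y
  simp only [h1]
  rw [expect_comm]
  refine expect_congr rfl fun v _ => ?_
  rw [sub_avg (β.annih v) fun x₀ => 𝔼 y₀ : W, Q (fun i => x₀ + u i) (fun j => y₀ + v j)]
  refine expect_congr rfl fun x₀ _ => ?_
  rw [expect_comm (univ : Finset W)]
  refine expect_congr rfl fun s _ => ?_
  exact sub_avg (β.flip.annih u) fun y₀ => Q (fun i => x₀ + s + u i) (fun j => y₀ + v j)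

omit [Fintype V] [Fintype W] in
private theorem evenR_shift (β : Bichar V W) (w : ℝ) (ξ : ι → Bool) (ζ : κ → Bool) (x₀ s : V)
    (y₀ t : W) (u : ι → V) (v : κ → W) (hs : s ∈ β.annih v) (ht : t ∈ β.flip.annih u) :
    evenR β w ξ ζ (fun i => x₀ + s + u i) (fun j => y₀ + t + v j) =
      evenR β w ξ ζ (fun i => x₀ + u i) (fun j => y₀ + v j) := by
  unfold evenR
  refine sum_congr rfl fun Γ hΓ => ?_
  have he : Even Γ.card := (mem_filter.mp hΓ).2
  simp only [edge_shift β ξ ζ x₀ s y₀ t u v hs ht, prod_mul_distrib, prod_const]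
  have h1 : ∀ (p : V) (q : W), β.toFun p q ^ Γ.card = 1 := fun p q => by
    rcases β.eq_one_or p q with h | h
    · rw [h, one_pow]
    · rw [h, he.neg_one_pow]
  rw [h1, h1, h1]
  ring

private theorem le_two_mul_of_forall {z P Q : ℝ} (hP : 0 ≤ P) (hQ : 0 ≤ Q)
    (h : ∀ l : ℝ, 0 < l → z ≤ l * P ^ 2 + Q ^ 2 / l) : z ≤ 2 * (P * Q) := by
  refine le_of_forall_pos_le_add fun ε hε => ?_
  set e := ε / (P + Q + 1) with he
  have he0 : 0 < e := div_pos hε (by positivity)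
  have hee : e * (P + Q + 1) = ε := by rw [he]; field_simp
  have h1 := h ((Q + e) / (P + e)) (by positivity)
  have h2 : (Q + e) / (P + e) * P ^ 2 ≤ (Q + e) * P := by
    rw [div_mul_eq_mul_div, div_le_iff₀ (by positivity)]
    have : 0 ≤ (Q + e) * P * e := by positivity
    nlinarith
  have h3 : Q ^ 2 / ((Q + e) / (P + e)) ≤ Q * (P + e) := by
    rw [div_div_eq_mul_div, div_le_iff₀ (by positivity)]
    have : 0 ≤ Q * (P + e) * e := by positivity
    nlinarith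
  nlinarith

/-- **The odd Riesz product test is bounded by tests with `card ι + card κ` fewer bits.**
The left side is `|E oddR * Φ (F, G)|`.  Reparametrise `x = x₀ + u`, `y = y₀ + v` (for fixed `x₀` the
map `u ↦ x₀ + u` is a bijection), insert for fixed `u, v` the averages over `s ∈ annih v`,
`t ∈ annih u` (translation invariance of `E x₀`, `E y₀`), apply `fibre_le`, then
`p q ≤ (λ p² + q²/λ)/2` or Cauchy-Schwarz with the weight `evenR ≥ 0`; `evenR` is invariant under the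
shifts (`edge_shift`, even graphs), so undoing the translations gives the two moments of
`expect_evenR_le` (second one through `evenR_flip`, `bias_flip`). -/
theorem riesz_total {Φ : A →ₗ[ℝ] B →ₗ[ℝ] ℝ} {PA : Set A} {PB : Set B} {ρ c w Λ Λ' : ℝ}
    (hH : H Φ PA PB ρ c) (hc : 0 ≤ c) (hρ : 0 ≤ ρ) (hA : ∀ a ∈ PA, -a ∈ PA)
    (hB : ∀ b ∈ PB, -b ∈ PB) (hw0 : 0 ≤ w) (hw1 : w ≤ 1) (hΛ : 0 ≤ Λ) (hΛ' : 0 ≤ Λ')
    (β : Bichar V W) (a : V → A) (b : W → B)
    (F : (ι → Bool) → (ι → V) → A) (G : (κ → Bool) → (κ → W) → B)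
    (hFP : ∀ ξ x, F ξ x ∈ PA) (hGP : ∀ ζ y, G ζ y ∈ PB) (hF : Dom Λ a F) (hG : Dom Λ' b G)
    (hb : 2 ^ (Fintype.card ι * Fintype.card κ) * β.bias ≤ 1) :
    |∑ Γ ∈ (univ : Finset (Finset (ι × κ))).filter (fun Γ => Odd Γ.card),
        w ^ Γ.card * cG β Φ F G Γ| ≤
      2 * c * (2 ^ (Fintype.card ι + Fintype.card κ) * β.bias) ^ ρ *
        ((Λ * √(Fintype.card ι) * nrm a) * (Λ' * √(Fintype.card κ) * nrm b)) := by
  
  classical
  set K := c * (2 ^ (Fintype.card ι + Fintype.card κ) * β.bias) ^ ρ with hK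
  have hK0 : 0 ≤ K := mul_nonneg hc (Real.rpow_nonneg (mul_nonneg (by positivity) β.bias_pos.le) _)
  set P := Λ * √(Fintype.card ι) * nrm a with hP
  set Q := Λ' * √(Fintype.card κ) * nrm b with hQ
  have hP0 : 0 ≤ P := mul_nonneg (mul_nonneg hΛ (Real.sqrt_nonneg _)) (nrm_nonneg _)
  have hQ0 : 0 ≤ Q := mul_nonneg (mul_nonneg hΛ' (Real.sqrt_nonneg _)) (nrm_nonneg _)
  have hP2 : P ^ 2 = Λ ^ 2 * Fintype.card ι * nsq a := by
    rw [hP, mul_pow, mul_pow, Real.sq_sqrt (Nat.cast_nonneg _), nrm_sq]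
  have hQ2 : Q ^ 2 = Λ' ^ 2 * Fintype.card κ * nsq b := by
    rw [hQ, mul_pow, mul_pow, Real.sq_sqrt (Nat.cast_nonneg _), nrm_sq]
  have hev : ∀ ξ ζ x y, 0 ≤ evenR (ι := ι) (κ := κ) β w ξ ζ x y := fun ξ ζ x y =>
    (abs_nonneg _).trans (abs_oddR_le β hw0 hw1 ξ ζ x y)
  have hL : ∑ Γ ∈ (univ : Finset (Finset (ι × κ))).filter (fun Γ => Odd Γ.card),
      w ^ Γ.card * cG β Φ F G Γ =
      𝔼 ξ, 𝔼 ζ, 𝔼 x, 𝔼 y, oddR β w ξ ζ x y * Φ (F ξ x) (G ζ y) := by
    unfold oddR cG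
    simp only [sum_mul, expect_sum_comm, mul_expect, mul_assoc]
  have hM1 := expect_evenR_le (κ := κ) β hw0 hw1 a F hF hb
  have hM2 : 𝔼 ξ : ι → Bool, 𝔼 ζ, 𝔼 x : ι → V, 𝔼 y, evenR β w ξ ζ x y * ‖G ζ y‖ ^ 2 ≤
      2 * (Λ' ^ 2 * Fintype.card κ * nsq b) := by
    have h := expect_evenR_le (κ := ι) β.flip hw0 hw1 b G hG
      (by rw [Bichar.bias_flip, mul_comm (Fintype.card κ)]; exact hb)
    rw [expect_comm] at h
    refine le_of_eq_of_le (expect_congr rfl fun ξ _ => expect_congr rfl fun ζ _ => ?_) h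
    rw [expect_comm]
    simp only [evenR_flip]
  have hfib : ∀ l : ℝ, 0 < l → ∀ ξ ζ,
      |𝔼 x, 𝔼 y, oddR β w ξ ζ x y * Φ (F ξ x) (G ζ y)| ≤
        K / 2 * (l * (𝔼 x, 𝔼 y : κ → W, evenR β w ξ ζ x y * ‖F ξ x‖ ^ 2) +
          (𝔼 x : ι → V, 𝔼 y, evenR β w ξ ζ x y * ‖G ζ y‖ ^ 2) / l) := by
    intro l hl ξ ζ
    rw [key_avg β, key_avg β fun x y => evenR β w ξ ζ x y * ‖F ξ x‖ ^ 2,
      key_avg β fun x y => evenR β w ξ ζ x y * ‖G ζ y‖ ^ 2]
    simp only [div_eq_mul_inv, mul_expect, expect_mul, ← expect_add_distrib]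
    refine (abs_expect_le _ _).trans (expect_le_expect fun u _ => ?_)
    refine (abs_expect_le _ _).trans (expect_le_expect fun v _ => ?_)
    refine (abs_expect_le _ _).trans (expect_le_expect fun x₀ _ => ?_)
    refine (abs_expect_le _ _).trans (expect_le_expect fun y₀ _ => ?_)
    refine (fibre_le hH hc hρ hA hB hw0 hw1 β (F ξ) (G ζ) (hFP ξ) (hGP ζ) ξ ζ x₀ y₀ u v).trans ?_
    have e1 : ∀ (s : β.annih v) (t : β.flip.annih u),
        evenR β w ξ ζ (fun i => x₀ + s + u i) (fun j => y₀ + t + v j) =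
          evenR β w ξ ζ (fun i => x₀ + u i) (fun j => y₀ + v j) := fun s t =>
      evenR_shift β w ξ ζ x₀ s y₀ t u v s.2 t.2
    simp only [e1]
    set E := evenR β w ξ ζ (fun i => x₀ + u i) (fun j => y₀ + v j) with hE
    have hE0 : 0 ≤ E := hev _ _ _ _
    set p := nrm (fun s : β.annih v => F ξ fun i => x₀ + s + u i) with hp
    set q := nrm (fun t : β.flip.annih u => G ζ fun j => y₀ + t + v j) with hq
    have hp2 : p ^ 2 = 𝔼 s : β.annih v, ‖F ξ fun i => x₀ + s + u i‖ ^ 2 := nrm_sq _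
    have hq2 : q ^ 2 = 𝔼 t : β.flip.annih u, ‖G ζ fun j => y₀ + t + v j‖ ^ 2 := nrm_sq _
    simp only [expect_add_distrib, ← mul_expect, ← expect_mul, Fintype.expect_const]
    rw [← hp2, ← hq2, ← hK]
    have h1 : p * q ≤ 2⁻¹ * (l * p ^ 2 + q ^ 2 * l⁻¹) := by
      have h2 : 0 ≤ (l * p - q) ^ 2 * l⁻¹ := by positivity
      have h3 : (l * p - q) ^ 2 * l⁻¹ = l * p ^ 2 + q ^ 2 * l⁻¹ - 2 * (p * q) := by
        field_simp
        ring
      linarith
    have h4 := mul_le_mul_of_nonneg_left h1 (mul_nonneg hK0 hE0)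
    calc K * (E * (p * q)) = K * E * (p * q) := by ring
      _ ≤ K * E * (2⁻¹ * (l * p ^ 2 + q ^ 2 * l⁻¹)) := h4
      _ = _ := by ring
  rw [hL]
  have hfin : ∀ l : ℝ, 0 < l →
      |𝔼 ξ, 𝔼 ζ, 𝔼 x, 𝔼 y, oddR β w ξ ζ x y * Φ (F ξ x) (G ζ y)| ≤
        K * (l * P ^ 2 + Q ^ 2 / l) := by
    intro l hl
    have h1 : |𝔼 ξ, 𝔼 ζ, 𝔼 x, 𝔼 y, oddR β w ξ ζ x y * Φ (F ξ x) (G ζ y)| ≤
        𝔼 ξ, 𝔼 ζ, K / 2 * (l * (𝔼 x, 𝔼 y : κ → W, evenR β w ξ ζ x y * ‖F ξ x‖ ^ 2) +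
          (𝔼 x : ι → V, 𝔼 y, evenR β w ξ ζ x y * ‖G ζ y‖ ^ 2) / l) := by
      refine (abs_expect_le _ _).trans (expect_le_expect fun ξ _ => ?_)
      exact (abs_expect_le _ _).trans (expect_le_expect fun ζ _ => hfib l hl ξ ζ)
    have hgen : ∀ A B : (ι → Bool) → (κ → Bool) → ℝ,
        𝔼 ξ, 𝔼 ζ, K / 2 * (l * A ξ ζ + B ξ ζ / l) =
          K / 2 * (l * (𝔼 ξ, 𝔼 ζ, A ξ ζ) + (𝔼 ξ, 𝔼 ζ, B ξ ζ) * l⁻¹) := fun A B => by
      simp only [div_eq_mul_inv _ l, ← mul_expect, expect_add_distrib, ← expect_mul]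
    rw [hgen] at h1
    refine h1.trans ?_
    rw [← hP2] at hM1
    rw [← hQ2] at hM2
    have h2 := mul_le_mul_of_nonneg_left hM1 hl.le
    have h3 := mul_le_mul_of_nonneg_right hM2 (inv_pos.mpr hl).le
    have h4 := mul_le_mul_of_nonneg_left (add_le_add h2 h3) (div_nonneg hK0 zero_le_two)
    refine h4.trans (le_of_eq ?_)
    rw [div_eq_mul_inv _ l]
    ring
  rcases hK0.eq_or_lt with h0 | h0
  · have h := hfin 1 one_pos
    rw [← h0, zero_mul] at h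
    refine h.trans (le_of_eq ?_)
    rw [mul_assoc 2 c, ← hK, ← h0]
    ring
  · have h := le_two_mul_of_forall (z := |𝔼 ξ, 𝔼 ζ, 𝔼 x, 𝔼 y,
        oddR β w ξ ζ x y * Φ (F ξ x) (G ζ y)| / K) hP0 hQ0 fun l hl => by
      rw [div_le_iff₀ h0, mul_comm]
      exact hfin l hl
    rw [div_le_iff₀ h0] at h
    refine h.trans (le_of_eq ?_)
    rw [mul_assoc 2 c, ← hK]
    ring

end Crest.Agent.R118
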