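import Crest.Agent.R118.Defs

/-! Row 118: combinatorics of odd bipartite graphs. -/

set_option autoImplicit false

open Finset Crest.AnalysisR
open scoped BigOperators

namespace Crest.Agent.R118

variable {ι κ : Type} [Fintype ι] [DecidableEq ι] [Fintype κ] [DecidableEq κ]

omit [Fintype ι] [Fintype κ] in
private theorem h97_row {Γ : Finset (ι × κ)} {i : ι} (h : Γ.image Prod.fst = {i}) :
    Γ = {i} ×ˢ Γ.image Prod.snd := by
  ext ⟨a, b⟩
  simp only [mem_product, mem_singleton, mem_image]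
  constructor
  · intro hab
    have : a ∈ Γ.image Prod.fst := mem_image.2 ⟨(a, b), hab, rfl⟩
    rw [h, mem_singleton] at this
    exact ⟨this, (a, b), hab, rfl⟩
  · rintro ⟨rfl, ⟨c, e⟩, hce, rfl⟩
    have : c ∈ Γ.image Prod.fst := mem_image.2 ⟨(c, e), hce, rfl⟩
    rw [h, mem_singleton] at this
    subst this
    exact hce

omit [Fintype ι] [Fintype κ] in
private theorem h97_col {Γ : Finset (ι × κ)} {j : κ} (h : Γ.image Prod.snd = {j}) :
    Γ = Γ.image Prod.fst ×ˢ {j} := by
  ext ⟨a, b⟩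
  simp only [mem_product, mem_singleton, mem_image]
  constructor
  · intro hab
    have : b ∈ Γ.image Prod.snd := mem_image.2 ⟨(a, b), hab, rfl⟩
    rw [h, mem_singleton] at this
    exact ⟨⟨(a, b), hab, rfl⟩, this⟩
  · rintro ⟨⟨⟨c, e⟩, hce, rfl⟩, rfl⟩
    have : e ∈ Γ.image Prod.snd := mem_image.2 ⟨(c, e), hce, rfl⟩
    rw [h, mem_singleton] at this
    subst this
    exact hce

private theorem h97_odd_ne {α : Type} {s : Finset α} (h : Odd s.card) : s.Nonempty :=
  card_pos.1 h.pos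

private theorem h97_A1 (t : Finset (ι × κ) → ℝ) :
    ∑ i, ∑ J ∈ (univ : Finset (Finset κ)).filter (fun J => Odd J.card), t ({i} ×ˢ J) =
      ∑ Γ ∈ (univ : Finset (Finset (ι × κ))).filter
        (fun Γ => Odd Γ.card ∧ (Γ.image Prod.fst).card = 1), t Γ := by
  rw [← sum_product' (f := fun (i : ι) (J : Finset κ) => t ({i} ×ˢ J))]
  refine sum_bij (fun p _ => ({p.1} : Finset ι) ×ˢ p.2) ?_ ?_ ?_ fun _ _ => rfl
  · intro p hp
    have hp2 : Odd p.2.card := (mem_filter.1 (mem_product.1 hp).2).2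
    refine mem_filter.2 ⟨mem_univ _, ?_, ?_⟩
    · rwa [card_product, card_singleton, one_mul]
    · rw [product_image_fst (h97_odd_ne hp2), card_singleton]
  · intro p hp q hq h
    have hp2 : Odd p.2.card := (mem_filter.1 (mem_product.1 hp).2).2
    have hq2 : Odd q.2.card := (mem_filter.1 (mem_product.1 hq).2).2
    have h1 := congrArg (image Prod.fst) h
    have h2 := congrArg (image Prod.snd) h
    rw [product_image_fst (h97_odd_ne hp2), product_image_fst (h97_odd_ne hq2)] at h1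
    rw [product_image_snd (singleton_nonempty _), product_image_snd (singleton_nonempty _)] at h2
    exact Prod.ext (singleton_injective h1) h2
  · intro Γ hΓ
    obtain ⟨ho, h1⟩ := (mem_filter.1 hΓ).2
    obtain ⟨i, hi⟩ := card_eq_one.1 h1
    have e := h97_row hi
    refine ⟨(i, Γ.image Prod.snd), mem_product.2 ⟨mem_univ _, mem_filter.2 ⟨mem_univ _, ?_⟩⟩,
      e.symm⟩
    rw [e, card_product, card_singleton, one_mul] at ho
    exact ho

private theorem h97_A2 (t : Finset (ι × κ) → ℝ) :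
    ∑ j, ∑ I ∈ (univ : Finset (Finset ι)).filter (fun I => Odd I.card), t (I ×ˢ {j}) =
      ∑ Γ ∈ (univ : Finset (Finset (ι × κ))).filter
        (fun Γ => Odd Γ.card ∧ (Γ.image Prod.snd).card = 1), t Γ := by
  rw [← sum_product' (f := fun (j : κ) (I : Finset ι) => t (I ×ˢ {j}))]
  refine sum_bij (fun p _ => p.2 ×ˢ ({p.1} : Finset κ)) ?_ ?_ ?_ fun _ _ => rfl
  · intro p hp
    have hp2 : Odd p.2.card := (mem_filter.1 (mem_product.1 hp).2).2
    refine mem_filter.2 ⟨mem_univ _, ?_, ?_⟩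
    · rwa [card_product, card_singleton, mul_one]
    · rw [product_image_snd (h97_odd_ne hp2), card_singleton]
  · intro p hp q hq h
    have hp2 : Odd p.2.card := (mem_filter.1 (mem_product.1 hp).2).2
    have hq2 : Odd q.2.card := (mem_filter.1 (mem_product.1 hq).2).2
    have h1 := congrArg (image Prod.snd) h
    have h2 := congrArg (image Prod.fst) h
    rw [product_image_snd (h97_odd_ne hp2), product_image_snd (h97_odd_ne hq2)] at h1
    rw [product_image_fst (singleton_nonempty _), product_image_fst (singleton_nonempty _)] at h2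
    exact Prod.ext (singleton_injective h1) h2
  · intro Γ hΓ
    obtain ⟨ho, h1⟩ := (mem_filter.1 hΓ).2
    obtain ⟨j, hj⟩ := card_eq_one.1 h1
    have e := h97_col hj
    refine ⟨(j, Γ.image Prod.fst), mem_product.2 ⟨mem_univ _, mem_filter.2 ⟨mem_univ _, ?_⟩⟩,
      e.symm⟩
    rw [e, card_product, card_singleton, mul_one] at ho
    exact ho

private theorem h97_A3 (t : Finset (ι × κ) → ℝ) :
    ∑ i, ∑ j, t ({i} ×ˢ {j}) =
      ∑ Γ ∈ (univ : Finset (Finset (ι × κ))).filter
        (fun Γ => Odd Γ.card ∧ (Γ.image Prod.fst).card = 1 ∧ (Γ.image Prod.snd).card = 1), t Γ := by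
  rw [← sum_product' (f := fun (i : ι) (j : κ) => t ({i} ×ˢ {j}))]
  refine sum_bij (fun p _ => ({p.1} : Finset ι) ×ˢ ({p.2} : Finset κ)) ?_ ?_ ?_ fun _ _ => rfl
  · intro p _
    refine mem_filter.2 ⟨mem_univ _, ?_, ?_, ?_⟩
    · rw [card_product, card_singleton, card_singleton]; exact odd_one
    · rw [product_image_fst (singleton_nonempty _), card_singleton]
    · rw [product_image_snd (singleton_nonempty _), card_singleton]
  · intro p _ q _ h
    have h1 := congrArg (image Prod.fst) h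
    have h2 := congrArg (image Prod.snd) h
    rw [product_image_fst (singleton_nonempty _), product_image_fst (singleton_nonempty _)] at h1
    rw [product_image_snd (singleton_nonempty _), product_image_snd (singleton_nonempty _)] at h2
    exact Prod.ext (singleton_injective h1) (singleton_injective h2)
  · intro Γ hΓ
    obtain ⟨_, h1, h2⟩ := (mem_filter.1 hΓ).2
    obtain ⟨i, hi⟩ := card_eq_one.1 h1
    obtain ⟨j, hj⟩ := card_eq_one.1 h2
    have e := h97_row hi
    rw [hj] at e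
    exact ⟨(i, j), mem_product.2 ⟨mem_univ _, mem_univ _⟩, e.symm⟩

/-- Inclusion-exclusion.  An odd graph is non-empty; it has one row, or one column, or at least two
of each.  Graphs with exactly one row are the `{i} ×ˢ J` (`J` non-empty, `card = card J`), graphs with
one row and one column are the single edges. -/
theorem odd_split (t : Finset (ι × κ) → ℝ) :
    ∑ Γ ∈ (univ : Finset (Finset (ι × κ))).filter (fun Γ => Odd Γ.card), t Γ =
      ∑ i, ∑ J ∈ (univ : Finset (Finset κ)).filter (fun J => Odd J.card), t ({i} ×ˢ J) +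
      ∑ j, ∑ I ∈ (univ : Finset (Finset ι)).filter (fun I => Odd I.card), t (I ×ˢ {j}) -
      ∑ i, ∑ j, t ({i} ×ˢ {j}) +
      ∑ Γ ∈ (univ : Finset (Finset (ι × κ))).filter (fun Γ => Odd Γ.card ∧
        2 ≤ (Γ.image Prod.fst).card ∧ 2 ≤ (Γ.image Prod.snd).card), t Γ := by
  rw [h97_A1, h97_A2, h97_A3]
  simp only [sum_filter]
  rw [← sum_add_distrib, ← sum_sub_distrib, ← sum_add_distrib]
  refine sum_congr rfl fun Γ _ => ?_
  by_cases ho : Odd Γ.card
  · have h1 : 0 < (Γ.image Prod.fst).card := card_pos.2 ((h97_odd_ne ho).image _)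
    have h2 : 0 < (Γ.image Prod.snd).card := card_pos.2 ((h97_odd_ne ho).image _)
    by_cases ha : (Γ.image Prod.fst).card = 1 <;> by_cases hb : (Γ.image Prod.snd).card = 1
    · simp [ho, ha, hb]
    · simp [ho, ha, hb]
    · simp [ho, ha, hb]
    · have ha' : 2 ≤ (Γ.image Prod.fst).card := by omega
      have hb' : 2 ≤ (Γ.image Prod.snd).card := by omega
      simp [ho, ha, hb, ha', hb']
  · simp [ho]

/-- Large rectangles have small total weight.  With `η = 1 / k`: for `s, t ≥ d + 1` one has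
`2 s t ≥ (d + 1) (s + t)`, so `(w ^ (s t))² ≤ (w ^ (d+1)) ^ (s + t) ≤ (η ^ (s + t))²`.  The map
`Γ ↦ (rows, cols)` is injective on rectangles, and `∑ I, ∑ J, η ^ (card I + card J) = (1 + η) ^ (2 k)
≤ exp 2 ≤ 8` (`Finset.prod_one_add` / `Finset.sum_pow_mul_eq_add_pow`, `Real.add_one_le_exp`,
`Real.exp_one_lt_d9`). -/
theorem rect_weight {k d : ℕ} (hk : 0 < k) {w : ℝ} (hw0 : 0 ≤ w) (hw1 : w ≤ 1)
    (hw : w ^ (d + 1) * (k : ℝ) ^ 2 ≤ 1) :
    ∑ Γ ∈ (univ : Finset (Finset (Fin k × Fin k))).filter (fun Γ =>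
      Γ = Γ.image Prod.fst ×ˢ Γ.image Prod.snd ∧ d < (Γ.image Prod.fst).card ∧
        d < (Γ.image Prod.snd).card), w ^ Γ.card ≤ 8 := by
  have hk0 : (0 : ℝ) < k := by exact_mod_cast hk
  set η : ℝ := (k : ℝ)⁻¹ with hη
  have hη0 : 0 ≤ η := by positivity
  have h1 : w ^ (d + 1) ≤ η ^ 2 := by
    rw [hη, inv_pow, ← one_div, le_div_iff₀ (by positivity)]
    exact hw
  have h2 : ∀ s t : ℕ, d < s → d < t → w ^ (s * t) ≤ η ^ s * η ^ t := by
    intro s t hs ht
    have e : (d + 1) * (s + t) ≤ s * t * 2 := by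
      have e1 : (d + 1) * s ≤ t * s := Nat.mul_le_mul_right _ ht
      have e2 : (d + 1) * t ≤ s * t := Nat.mul_le_mul_right _ hs
      nlinarith
    refine (pow_le_pow_iff_left₀ (by positivity) (by positivity) two_ne_zero).1 ?_
    calc (w ^ (s * t)) ^ 2 = w ^ (s * t * 2) := (pow_mul _ _ _).symm
      _ ≤ w ^ ((d + 1) * (s + t)) := pow_le_pow_of_le_one hw0 hw1 e
      _ = (w ^ (d + 1)) ^ (s + t) := pow_mul _ _ _
      _ ≤ (η ^ 2) ^ (s + t) := pow_le_pow_left₀ (by positivity) h1 _
      _ = _ := by ring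
  have h3 : ∑ I : Finset (Fin k), η ^ I.card ≤ Real.exp 1 := by
    have e := Fintype.sum_pow_mul_eq_add_pow (Fin k) η 1
    simp only [one_pow, mul_one, Fintype.card_fin] at e
    rw [e]
    calc (η + 1) ^ k ≤ Real.exp η ^ k := pow_le_pow_left₀ (by positivity) (Real.add_one_le_exp η) k
      _ = Real.exp 1 := by rw [← Real.exp_nat_mul, hη, mul_inv_cancel₀ hk0.ne']
  have h4 : 0 ≤ ∑ I : Finset (Fin k), η ^ I.card := sum_nonneg fun _ _ => by positivity
  set R := (univ : Finset (Finset (Fin k × Fin k))).filter (fun Γ =>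
      Γ = Γ.image Prod.fst ×ˢ Γ.image Prod.snd ∧ d < (Γ.image Prod.fst).card ∧
        d < (Γ.image Prod.snd).card) with hR
  let e : Finset (Fin k × Fin k) → Finset (Fin k) × Finset (Fin k) :=
    fun Γ => (Γ.image Prod.fst, Γ.image Prod.snd)
  have hinj : ∀ Γ ∈ R, ∀ Γ' ∈ R, e Γ = e Γ' → Γ = Γ' := by
    intro Γ hΓ Γ' hΓ' h
    have a1 := (mem_filter.1 hΓ).2.1
    have a2 := (mem_filter.1 hΓ').2.1
    have b1 : Γ.image Prod.fst = Γ'.image Prod.fst := congrArg Prod.fst h
    have b2 : Γ.image Prod.snd = Γ'.image Prod.snd := congrArg Prod.snd h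
    rw [a1, a2, ← b1, ← b2]
  calc ∑ Γ ∈ R, w ^ Γ.card ≤ ∑ Γ ∈ R, η ^ (e Γ).1.card * η ^ (e Γ).2.card := by
        refine sum_le_sum fun Γ hΓ => ?_
        obtain ⟨a1, a2, a3⟩ := (mem_filter.1 hΓ).2
        have : Γ.card = (Γ.image Prod.fst).card * (Γ.image Prod.snd).card := by
          rw [← card_product, ← a1]
        rw [this]
        exact h2 _ _ a2 a3
    _ = ∑ p ∈ R.image e, η ^ p.1.card * η ^ p.2.card :=
        (sum_image (f := fun p : Finset (Fin k) × Finset (Fin k) => η ^ p.1.card * η ^ p.2.card)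
          hinj).symm
    _ ≤ ∑ p : Finset (Fin k) × Finset (Fin k), η ^ p.1.card * η ^ p.2.card :=
        sum_le_sum_of_subset_of_nonneg (subset_univ _) fun _ _ _ => by positivity
    _ = (∑ I : Finset (Fin k), η ^ I.card) * ∑ I : Finset (Fin k), η ^ I.card := by
        rw [Fintype.sum_prod_type, sum_mul_sum]
    _ ≤ Real.exp 1 * Real.exp 1 := mul_le_mul h3 h3 h4 (Real.exp_pos 1).le
    _ ≤ 8 := by
        have := Real.exp_one_lt_d9
        have := Real.exp_pos 1
        nlinarith

end Crest.Agent.R118
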