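import Crest.Agent.R118.Coef
import Crest.Agent.R118.Split

/-! Row 118: the improvement step and its iteration. -/

set_option autoImplicit false

open Finset Crest.AnalysisR
open scoped BigOperators

namespace Crest.Agent.R118

variable {A B : Type*} [NormedAddCommGroup A] [NormedSpace ℝ A] [NormedAddCommGroup B]
  [NormedSpace ℝ B]

/-- The graphs with at least two rows and two columns.  Non-rectangles: `abs_cG_le`,
`bias_graph_le_sq`, `(bias ^ 2) ^ ρ = bias ^ ρ * bias ^ ρ`, at most `2 ^ (k * k)` graphs.  Odd rectangles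
have odd sides; if a side has at most `d` elements the coefficient vanishes (`cG_rect`, `cG_flip`);
otherwise `bias_graph_le` and `rect_weight`. -/
theorem rest_le {V W : Type} [AddCommGroup V] [AddCommGroup W] [Fintype V] [Fintype W]
    {Φ : A →ₗ[ℝ] B →ₗ[ℝ] ℝ} {PA : Set A} {PB : Set B} {k d : ℕ} {ρ c w Λ : ℝ}
    (hH : H Φ PA PB ρ c) (hc : 0 ≤ c) (hρ : 0 ≤ ρ) (hk : 0 < k) (hw0 : 0 ≤ w) (hw1 : w ≤ 1)
    (hw : w ^ (d + 1) * (k : ℝ) ^ 2 ≤ 1) (hΛ : 0 ≤ Λ) (β : Bichar V W) (a : V → A) (b : W → B)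
    (F : (Fin k → Bool) → (Fin k → V) → A) (G : (Fin k → Bool) → (Fin k → W) → B)
    (hFP : ∀ ξ x, F ξ x ∈ PA) (hGP : ∀ ζ y, G ζ y ∈ PB)
    (hF : ∀ x, IsLift d Λ (fun i => a (x i)) fun ξ => F ξ x)
    (hG : ∀ y, IsLift d Λ (fun j => b (y j)) fun ζ => G ζ y)
    (hb : 2 ^ (k * k) * β.bias ^ ρ ≤ 1) :
    |∑ Γ ∈ (univ : Finset (Finset (Fin k × Fin k))).filter (fun Γ => Odd Γ.card ∧
        2 ≤ (Γ.image Prod.fst).card ∧ 2 ≤ (Γ.image Prod.snd).card),
        w ^ Γ.card * cG β Φ F G Γ| ≤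
      9 * c * β.bias ^ ρ * ((Λ * √k * nrm a) * (Λ * √k * nrm b)) := by
  set N : ℝ := (Λ * √k * nrm a) * (Λ * √k * nrm b) with hN
  have hN0 : 0 ≤ N := by
    have := nrm_nonneg a
    have := nrm_nonneg b
    positivity
  have hb0 := β.bias_pos
  set Bρ : ℝ := β.bias ^ ρ with hB
  have hB0 : 0 ≤ Bρ := Real.rpow_nonneg hb0.le _
  have habs : ∀ Γ : Finset (Fin k × Fin k), |cG β Φ F G Γ| ≤ c * (β.graph Γ).bias ^ ρ * N := by
    intro Γ
    have := abs_cG_le hH hc hΛ hΛ β a b F G hFP hGP (fun x => (hF x).le) (fun y => (hG y).le) Γ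
    simpa only [Fintype.card_fin] using this
  set S := (univ : Finset (Finset (Fin k × Fin k))).filter (fun Γ => Odd Γ.card ∧
        2 ≤ (Γ.image Prod.fst).card ∧ 2 ≤ (Γ.image Prod.snd).card) with hS
  have hpt : ∀ Γ ∈ S, |w ^ Γ.card * cG β Φ F G Γ| ≤
      (if Γ = Γ.image Prod.fst ×ˢ Γ.image Prod.snd ∧ d < (Γ.image Prod.fst).card ∧
        d < (Γ.image Prod.snd).card then w ^ Γ.card else 0) * (c * Bρ * N) + c * (Bρ * Bρ) * N := by
    intro Γ hΓ
    obtain ⟨ho, h1, h2⟩ := (mem_filter.1 hΓ).2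
    have hwp : 0 ≤ w ^ Γ.card := pow_nonneg hw0 _
    have hwp1 : w ^ Γ.card ≤ 1 := pow_le_one₀ hw0 hw1
    have hq : 0 ≤ c * (Bρ * Bρ) * N := by positivity
    rw [abs_mul, abs_of_nonneg hwp]
    by_cases hr : Γ = Γ.image Prod.fst ×ˢ Γ.image Prod.snd
    · have hcard : Γ.card = (Γ.image Prod.fst).card * (Γ.image Prod.snd).card := by
        rw [← card_product, ← hr]
      obtain ⟨o1, o2⟩ := Nat.odd_mul.1 (hcard ▸ ho)
      by_cases hI : d < (Γ.image Prod.fst).card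
      · by_cases hJ : d < (Γ.image Prod.snd).card
        · rw [if_pos ⟨hr, hI, hJ⟩]
          have hne : Γ.Nonempty := card_pos.1 ho.pos
          have e1 : (β.graph Γ).bias ^ ρ ≤ Bρ :=
            Real.rpow_le_rpow (β.graph Γ).bias_pos.le (β.bias_graph_le Γ hne) hρ
          have e2 : |cG β Φ F G Γ| ≤ c * Bρ * N := (habs Γ).trans (by gcongr)
          have e3 := mul_le_mul_of_nonneg_left e2 hwp
          linarith
        · have e : cG β Φ F G Γ = 0 := by
            rw [hr, ← cG_flip, cG_rect _ _ _ _ _ _ o2 o1]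
            simp [fun y => (hG y).mid _ h2 (not_lt.1 hJ)]
          rw [e, if_neg fun h => hJ h.2.2]
          simpa using hq
      · have e : cG β Φ F G Γ = 0 := by
          rw [hr, cG_rect _ _ _ _ _ _ o1 o2]
          simp [fun x => (hF x).mid _ h1 (not_lt.1 hI)]
        rw [e, if_neg fun h => hI h.2.1]
        simpa using hq
    · rw [if_neg fun h => hr h.1]
      have e1 : (β.graph Γ).bias ^ ρ ≤ Bρ * Bρ := by
        calc (β.graph Γ).bias ^ ρ ≤ (β.bias ^ 2) ^ ρ :=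
              Real.rpow_le_rpow (β.graph Γ).bias_pos.le (β.bias_graph_le_sq Γ hr) hρ
          _ = Bρ * Bρ := by rw [sq, Real.mul_rpow hb0.le hb0.le]
      have e2 : |cG β Φ F G Γ| ≤ c * (Bρ * Bρ) * N := (habs Γ).trans (by gcongr)
      have e3 := mul_le_mul hwp1 e2 (abs_nonneg _) zero_le_one
      linarith
  have hcardS : (S.card : ℝ) ≤ 2 ^ (k * k) := by
    have : S.card ≤ 2 ^ (k * k) := by
      refine (card_le_univ S).trans (le_of_eq ?_)
      simp [Fintype.card_finset]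
    exact_mod_cast this
  have hrect : ∑ Γ ∈ S, (if Γ = Γ.image Prod.fst ×ˢ Γ.image Prod.snd ∧
      d < (Γ.image Prod.fst).card ∧ d < (Γ.image Prod.snd).card then w ^ Γ.card else 0) ≤ 8 := by
    refine le_trans ?_ (rect_weight hk hw0 hw1 hw)
    rw [← sum_filter]
    exact sum_le_sum_of_subset_of_nonneg (filter_subset_filter _ (subset_univ S))
      fun Γ _ _ => pow_nonneg hw0 _
  have hq1 : 0 ≤ c * Bρ * N := by positivity
  calc _ ≤ ∑ Γ ∈ S, |w ^ Γ.card * cG β Φ F G Γ| := abs_sum_le_sum_abs _ _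
    _ ≤ _ := sum_le_sum hpt
    _ = (∑ Γ ∈ S, (if Γ = Γ.image Prod.fst ×ˢ Γ.image Prod.snd ∧
          d < (Γ.image Prod.fst).card ∧ d < (Γ.image Prod.snd).card then w ^ Γ.card else 0)) *
          (c * Bρ * N) + S.card * Bρ * (c * Bρ * N) := by
        rw [sum_add_distrib, ← sum_mul, sum_const, nsmul_eq_mul]
        ring
    _ ≤ 8 * (c * Bρ * N) + 1 * (c * Bρ * N) := by
        refine add_le_add (mul_le_mul_of_nonneg_right hrect hq1)
          (mul_le_mul_of_nonneg_right ?_ hq1)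
        exact (mul_le_mul_of_nonneg_right hcardS hB0).trans hb
    _ = _ := by ring

private theorem step_arith {k c κ w Λ r nf ng σ T R C E : ℝ} (hk : 1 ≤ k) (hc : 0 ≤ c)
    (hκ : 0 ≤ κ) (hw1 : w ≤ 1) (hwk : 0 < w) (hΛ : 0 ≤ Λ) (hr0 : 0 ≤ r) (hr : r * r = k)
    (hnum : 64 * Λ ≤ w * r) (hf : 0 ≤ nf) (hg : 0 ≤ ng)
    (hT : |T| ≤ 2 * c * (2 * κ) * ((Λ * r * nf) * (Λ * r * ng)))
    (hR : |R| ≤ 2 * c * (2 * κ) * (nf * (Λ * r * ng)))
    (hC : |C| ≤ 2 * c * (2 * κ) * (ng * (Λ * r * nf)))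
    (hE : |E| ≤ 9 * c * κ * ((Λ * r * nf) * (Λ * r * ng)))
    (h : T = k * R + k * C - k * (k * (w * σ)) + E) :
    |σ| ≤ c / 4 * κ * nf * ng := by
  have hk0 : 0 < k := by linarith
  set N := c * κ * nf * ng with hN
  have hN0 : 0 ≤ N := by positivity
  set L := Λ * r with hL
  have hL0 : 0 ≤ L := by positivity
  have hLk : 64 * L ≤ w * k := by
    have := mul_le_mul_of_nonneg_right hnum hr0
    calc 64 * L = 64 * Λ * r := by rw [hL]; ring
      _ ≤ w * r * r := this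
      _ = w * k := by rw [mul_assoc, hr]
  have hT' : |T| ≤ 4 * L ^ 2 * N := hT.trans_eq (by rw [hN]; ring)
  have hR' : |R| ≤ 4 * L * N := hR.trans_eq (by rw [hN]; ring)
  have hC' : |C| ≤ 4 * L * N := hC.trans_eq (by rw [hN]; ring)
  have hE' : |E| ≤ 9 * L ^ 2 * N := hE.trans_eq (by rw [hN]; ring)
  have hσ : k * (k * (w * σ)) = k * R + k * C + E - T := by linarith
  have habs : k * (k * (w * |σ|)) ≤ k * |R| + k * |C| + |E| + |T| := by
    have h1 : |k * (k * (w * σ))| = k * (k * (w * |σ|)) := by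
      rw [abs_mul, abs_mul, abs_mul, abs_of_pos hk0, abs_of_pos hwk]
    rw [← h1, hσ]
    calc |k * R + k * C + E - T| ≤ |k * R + k * C + E| + |T| := abs_sub _ _
      _ ≤ |k * R + k * C| + |E| + |T| := by gcongr; exact abs_add_le _ _
      _ ≤ |k * R| + |k * C| + |E| + |T| := by gcongr; exact abs_add_le _ _
      _ = k * |R| + k * |C| + |E| + |T| := by rw [abs_mul, abs_mul, abs_of_pos hk0]
  have hL2 : 13 * L ^ 2 ≤ k * (k * w) / 8 := by
    have h1 : L ≤ w * k / 64 := by linarith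
    have h2 : L ^ 2 ≤ (w * k / 64) ^ 2 := by gcongr
    have h3 : w * w ≤ w := by nlinarith
    have h4 : w * w * (k * k) ≤ w * (k * k) := by gcongr
    have h5 : 0 ≤ w * (k * k) := by positivity
    nlinarith
  have hL1 : 8 * k * L ≤ k * (k * w) / 8 := by nlinarith
  have hfin : k * (k * (w * |σ|)) ≤ k * (k * (w * (N / 4))) := by
    calc k * (k * (w * |σ|)) ≤ k * |R| + k * |C| + |E| + |T| := habs
      _ ≤ k * (4 * L * N) + k * (4 * L * N) + 9 * L ^ 2 * N + 4 * L ^ 2 * N := by gcongr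
      _ = (8 * k * L + 13 * L ^ 2) * N := by ring
      _ ≤ (k * (k * w) / 8 + k * (k * w) / 8) * N := by gcongr
      _ = k * (k * (w * (N / 4))) := by ring
  have := le_of_mul_le_mul_left (le_of_mul_le_mul_left (le_of_mul_le_mul_left hfin hk0) hk0) hwk
  calc |σ| ≤ N / 4 := this
    _ = c / 4 * κ * nf * ng := by rw [hN]; ring

private theorem step_rpow {k m : ℕ} (hk : 0 < k) (hm : m ≤ 2 * k) {b : ℝ} (hb : 0 ≤ b) :
    (2 ^ m * b) ^ (1 / (2 * (k : ℝ))) ≤ 2 * b ^ (1 / (2 * (k : ℝ))) := by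
  have hk' : (0 : ℝ) < k := by exact_mod_cast hk
  rw [Real.mul_rpow (by positivity) hb]
  refine mul_le_mul_of_nonneg_right ?_ (Real.rpow_nonneg hb _)
  rw [← Real.rpow_natCast, ← Real.rpow_mul (by norm_num)]
  have hm' : (m : ℝ) ≤ 2 * k := by exact_mod_cast hm
  calc (2 : ℝ) ^ ((m : ℝ) * (1 / (2 * (k : ℝ)))) ≤ 2 ^ (1 : ℝ) := by
        refine Real.rpow_le_rpow_of_exponent_le (by norm_num) ?_
        rw [mul_one_div, div_le_one (by positivity)]
        exact hm'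
    _ = 2 := Real.rpow_one 2

/-- **The improvement step.** -/
theorem step {Φ : A →ₗ[ℝ] B →ₗ[ℝ] ℝ} {PA PA' : Set A} {PB : Set B} {k d : ℕ} {c w Λ : ℝ}
    (hH : H Φ PA' PB (1 / (2 * k)) c) (hc : 0 ≤ c) (hk : 0 < k) (hw0 : 0 ≤ w) (hw1 : w ≤ 1)
    (hw : w ^ (d + 1) * (k : ℝ) ^ 2 ≤ 1) (hΛ : 0 ≤ Λ) (hnum : 64 * Λ ≤ w * √k)
    (hwk : 0 < w) (hsub : PA ⊆ PA') (hA : ∀ a ∈ PA', -a ∈ PA') (hB : ∀ b ∈ PB, -b ∈ PB)
    (liftA : ∀ a : Fin k → A, (∀ i, a i ∈ PA) → ∃ F, (∀ ξ, F ξ ∈ PA') ∧ IsLift d Λ a F)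
    (liftB : ∀ b : Fin k → B, (∀ j, b j ∈ PB) → ∃ G, (∀ ζ, G ζ ∈ PB) ∧ IsLift d Λ b G)
    {V W : Type} [AddCommGroup V] [AddCommGroup W] [Fintype V] [Fintype W] (β : Bichar V W)
    (hb : 2 ^ (k * k) * β.bias ^ (1 / (2 * (k : ℝ))) ≤ 1) (f : V → A) (g : W → B)
    (hf : ∀ x, f x ∈ PA) (hg : ∀ y, g y ∈ PB) :
    |test β Φ f g| ≤ c / 4 * β.bias ^ (1 / (2 * (k : ℝ))) * nrm f * nrm g := by
  classical
  have hk' : (1 : ℝ) ≤ k := by exact_mod_cast hk
  have hρ0 : (0 : ℝ) ≤ 1 / (2 * (k : ℝ)) := by positivity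
  have hρ1 : 1 / (2 * (k : ℝ)) ≤ 1 := by
    rw [div_le_one (by positivity)]
    linarith
  have hbκ : β.bias ≤ β.bias ^ (1 / (2 * (k : ℝ))) := by
    have := Real.rpow_le_rpow_of_exponent_ge β.bias_pos β.bias_le_one hρ1
    rwa [Real.rpow_one] at this
  have hb1 : 2 ^ (k * k) * β.bias ≤ 1 :=
    (mul_le_mul_of_nonneg_left hbκ (by positivity)).trans hb
  have hb2 : 2 ^ k * β.bias ≤ 1 := by
    refine le_trans (mul_le_mul_of_nonneg_right ?_ β.bias_pos.le) hb1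
    exact pow_le_pow_right₀ (by norm_num) (Nat.le_mul_self k)
  choose F hFP hF using fun x : Fin k → V => liftA (fun i => f (x i)) fun i => hf (x i)
  choose G hGP hG using fun y : Fin k → W => liftB (fun j => g (y j)) fun j => hg (y j)
  set F' : (Fin k → Bool) → (Fin k → V) → A := fun ξ x => F x ξ with hF'
  set G' : (Fin k → Bool) → (Fin k → W) → B := fun ζ y => G y ζ with hG'
  have hFP' : ∀ ξ x, F' ξ x ∈ PA' := fun ξ x => hFP x ξ
  have hGP' : ∀ ζ y, G' ζ y ∈ PB := fun ζ y => hGP y ζ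
  have hFD : Dom Λ f F' := fun x => (hF x).le
  have hGD : Dom Λ g G' := fun y => (hG y).le
  have hF1 : ∀ x i, coef {i} (fun ξ => F' ξ x) = f (x i) := fun x i => (hF x).one i
  have hG1 : ∀ y j, coef {j} (fun ζ => G' ζ y) = g (y j) := fun y j => (hG y).one j
  have hT := riesz_total hH hc hρ0 hA hB hw0 hw1 hΛ hΛ β f g F' G' hFP' hGP' hFD hGD
    (by simpa using hb1)
  have hR := star_total hH hc hρ0 hA hB hw0 hw1 hΛ β f g G' (fun x => hsub (hf x)) hGP' hGD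
    (by simpa using hb2)
  have hC := star_total hH.flip hc hρ0 hB hA hw0 hw1 hΛ β.flip g f F' hg hFP' hFD
    (by simpa [β.bias_flip] using hb2)
  have hE := rest_le hH hc hρ0 hk hw0 hw1 hw hΛ β f g F' G' hFP' hGP' hF hG hb
  rw [β.bias_flip] at hC
  simp only [Fintype.card_fin] at hT hR hC
  have hsplit := odd_split (fun Γ : Finset (Fin k × Fin k) => w ^ Γ.card * cG β Φ F' G' Γ)
  have hrow : ∑ i : Fin k, ∑ J ∈ (univ : Finset (Finset (Fin k))).filter (fun J => Odd J.card),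
      w ^ (({i} : Finset (Fin k)) ×ˢ J).card * cG β Φ F' G' ({i} ×ˢ J) =
      k * ∑ J ∈ (univ : Finset (Finset (Fin k))).filter (fun J => Odd J.card),
        w ^ J.card * sC β Φ f G' J := by
    rw [sum_congr rfl (g := fun _ => ∑ J ∈ (univ : Finset (Finset (Fin k))).filter
      (fun J => Odd J.card), w ^ J.card * sC β Φ f G' J)]
    · simp
    · intro i _
      refine sum_congr rfl fun J hJ => ?_
      rw [cG_row β Φ f F' G' hF1 i J (mem_filter.1 hJ).2, card_product, card_singleton, one_mul]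
  have hcol : ∑ j : Fin k, ∑ I ∈ (univ : Finset (Finset (Fin k))).filter (fun I => Odd I.card),
      w ^ (I ×ˢ ({j} : Finset (Fin k))).card * cG β Φ F' G' (I ×ˢ {j}) =
      k * ∑ I ∈ (univ : Finset (Finset (Fin k))).filter (fun I => Odd I.card),
        w ^ I.card * sC β.flip Φ.flip g F' I := by
    rw [sum_congr rfl (g := fun _ => ∑ I ∈ (univ : Finset (Finset (Fin k))).filter
      (fun I => Odd I.card), w ^ I.card * sC β.flip Φ.flip g F' I)]
    · simp
    · intro j _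
      refine sum_congr rfl fun I hI => ?_
      rw [← cG_flip, cG_row β.flip Φ.flip g G' F' hG1 j I (mem_filter.1 hI).2, card_product,
        card_singleton, mul_one]
  have hone : ∑ i : Fin k, ∑ j : Fin k,
      w ^ (({i} : Finset (Fin k)) ×ˢ ({j} : Finset (Fin k))).card * cG β Φ F' G' ({i} ×ˢ {j}) =
      k * (k * (w * test β Φ f g)) := by
    rw [sum_congr rfl (g := fun _ => (k : ℝ) * (w * test β Φ f g))]
    · simp
    · intro i _
      rw [sum_congr rfl (g := fun _ => w * test β Φ f g)]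
      · simp
      · intro j _
        rw [cG_row β Φ f F' G' hF1 i {j} (by simp), sC_single β Φ f g G' hG1 j, card_product,
          card_singleton, card_singleton, one_mul, pow_one]
  rw [hrow, hcol, hone] at hsplit
  have hκ0 : 0 ≤ β.bias ^ (1 / (2 * (k : ℝ))) := Real.rpow_nonneg β.bias_pos.le _
  have hf0 := nrm_nonneg f
  have hg0 := nrm_nonneg g
  have hr0 := Real.sqrt_nonneg (k : ℝ)
  have p2 := step_rpow (m := k + k) hk (by omega) β.bias_pos.le
  have p1 := step_rpow (m := 1 + k) hk (by omega) β.bias_pos.le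
  refine step_arith hk' hc hκ0 hw1 hwk hΛ hr0 (Real.mul_self_sqrt (by positivity)) hnum hf0 hg0
    (hT.trans ?_) (hR.trans ?_) (hC.trans ?_) hE hsplit
  · gcongr
  · gcongr
  · gcongr

private theorem core_triv {Φ : A →ₗ[ℝ] B →ₗ[ℝ] ℝ} {V W : Type} [AddCommGroup V] [AddCommGroup W]
    [Fintype V] [Fintype W] (β : Bichar V W) (f : V → A) (g : W → B) {C : ℝ} (hC : 0 ≤ C)
    (h : ∀ x y, |Φ (f x) (g y)| ≤ C * (‖f x‖ * ‖g y‖)) :
    |test β Φ f g| ≤ C * nrm f * nrm g := by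
  have h1 : |test β Φ f g| ≤ 𝔼 x, 𝔼 y, C * (‖f x‖ * ‖g y‖) := by
    unfold test
    refine (abs_expect_le _ _).trans (expect_le_expect fun x _ => ?_)
    refine (abs_expect_le _ _).trans (expect_le_expect fun y _ => ?_)
    rw [abs_mul, β.abs_eq, one_mul]
    exact h x y
  have h2 : (𝔼 x, 𝔼 y, C * (‖f x‖ * ‖g y‖)) = C * (𝔼 x, ‖f x‖) * 𝔼 y, ‖g y‖ := by
    have : ∀ x, (𝔼 y, C * (‖f x‖ * ‖g y‖)) = C * ‖f x‖ * 𝔼 y, ‖g y‖ := by
      intro x
      rw [mul_expect]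
      exact expect_congr rfl fun y _ => by ring
    simp only [this]
    rw [← expect_mul, ← mul_expect]
  rw [h2] at h1
  refine h1.trans ?_
  have hf := expect_norm_le_nrm f
  have hg := expect_norm_le_nrm g
  have hf0 : 0 ≤ 𝔼 x, ‖f x‖ := expect_nonneg fun _ _ => norm_nonneg _
  have hg0 : 0 ≤ 𝔼 y, ‖g y‖ := expect_nonneg fun _ _ => norm_nonneg _
  exact mul_le_mul (mul_le_mul_of_nonneg_left hf hC) hg hg0
    (mul_nonneg hC (nrm_nonneg f))

/-- **Iteration over the levels.**  By induction on `n`, for all `j`: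
`H Φ (P j) univ ρ (2 * 2 ^ j * 2 ^ (k * k) + Θ / 4 ^ n)`.  In the step, if `2 ^ (k*k) * bias ^ ρ > 1`
use the trivial bound `|test| ≤ 2 * 2 ^ j * nrm f * nrm g` (`expect_norm_le_nrm`), otherwise `step`.
Finally take `n` with `Θ / 4 ^ n ≤ 1`. -/
theorem core {Φ : A →ₗ[ℝ] B →ₗ[ℝ] ℝ} (P : ℕ → Set A) {k d : ℕ} {Θ w Λ : ℝ}
    (hH : H Φ Set.univ Set.univ (1 / (2 * k)) Θ) (hΘ : 0 ≤ Θ) (hk : 0 < k) (hw0 : 0 < w)
    (hw1 : w ≤ 1) (hw : w ^ (d + 1) * (k : ℝ) ^ 2 ≤ 1) (hΛ : 0 ≤ Λ) (hnum : 64 * Λ ≤ w * √k)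
    (hsub : ∀ j, P j ⊆ P (j + 1)) (hA : ∀ j, ∀ a ∈ P j, -a ∈ P j)
    (liftA : ∀ j, ∀ a : Fin k → A, (∀ i, a i ∈ P j) →
      ∃ F, (∀ ξ, F ξ ∈ P (j + 1)) ∧ IsLift d Λ a F)
    (liftB : ∀ b : Fin k → B, ∃ G, IsLift d Λ b G)
    (hbd : ∀ j, ∀ a ∈ P j, ∀ b, |Φ a b| ≤ 2 * 2 ^ j * (‖a‖ * ‖b‖)) :
    H Φ (P 0) Set.univ (1 / (2 * k)) (2 * 2 ^ (k * k) + 1) := by
  have hK : (0 : ℝ) < 2 ^ (k * k) := by positivity
  have key : ∀ n j : ℕ,
      H Φ (P j) Set.univ (1 / (2 * k)) (2 * 2 ^ j * 2 ^ (k * k) + Θ / 4 ^ n) := by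
    intro n
    induction n with
    | zero =>
      intro j
      refine hH.mono (Set.subset_univ _) (Set.subset_univ _) ?_
      have : (0 : ℝ) ≤ 2 * 2 ^ j * 2 ^ (k * k) := by positivity
      simp only [pow_zero, div_one]
      linarith
    | succ n ih =>
      intro j V W _ _ _ _ β f g hf hg
      have hb0 : 0 ≤ β.bias ^ (1 / (2 * (k : ℝ))) := Real.rpow_nonneg β.bias_pos.le _
      have hfg : 0 ≤ nrm f * nrm g := mul_nonneg (nrm_nonneg f) (nrm_nonneg g)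
      have hΘn : 0 ≤ Θ / 4 ^ (n + 1) := by positivity
      have h2j : (0 : ℝ) < 2 ^ j := by positivity
      by_cases hb : 2 ^ (k * k) * β.bias ^ (1 / (2 * (k : ℝ))) ≤ 1
      · have hc : (0 : ℝ) ≤ 2 * 2 ^ (j + 1) * 2 ^ (k * k) + Θ / 4 ^ n := by positivity
        have h := step (PA := P j) (ih (j + 1)) hc hk hw0.le hw1 hw hΛ hnum hw0 (hsub j)
          (hA (j + 1)) (fun _ _ => Set.mem_univ _) (liftA j)
          (fun b _ => by
            obtain ⟨G, hG⟩ := liftB b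
            exact ⟨G, fun _ => Set.mem_univ _, hG⟩) β hb f g hf hg
        refine h.trans ?_
        have hle : (2 * 2 ^ (j + 1) * 2 ^ (k * k) + Θ / 4 ^ n) / 4 ≤
            2 * 2 ^ j * 2 ^ (k * k) + Θ / 4 ^ (n + 1) := by
          have e1 : (2 * 2 ^ (j + 1) * 2 ^ (k * k) + Θ / 4 ^ n) / 4 =
              (2 : ℝ) ^ j * 2 ^ (k * k) + Θ / 4 ^ (n + 1) := by
            rw [pow_succ, pow_succ]; field_simp; ring
          rw [e1]
          have : (0 : ℝ) < 2 ^ j * 2 ^ (k * k) := by positivity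
          linarith
        have := mul_le_mul_of_nonneg_right (mul_le_mul_of_nonneg_right hle hb0) hfg
        simpa only [mul_assoc] using this
      · push_neg at hb
        have h := core_triv (Φ := Φ) β f g (C := 2 * 2 ^ j) (by positivity)
          (fun x y => hbd j (f x) (hf x) (g y))
        refine h.trans ?_
        have hle : (2 : ℝ) * 2 ^ j ≤ (2 * 2 ^ j * 2 ^ (k * k) + Θ / 4 ^ (n + 1)) *
            β.bias ^ (1 / (2 * (k : ℝ))) := by
          have h1 := mul_le_mul_of_nonneg_left hb.le (show (0 : ℝ) ≤ 2 * 2 ^ j by positivity)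
          have h2 := mul_nonneg hΘn hb0
          nlinarith
        have := mul_le_mul_of_nonneg_right hle hfg
        simpa only [mul_assoc] using this
  obtain ⟨n, hn⟩ := pow_unbounded_of_one_lt Θ (show (1 : ℝ) < 4 by norm_num)
  refine (key n 0).mono subset_rfl subset_rfl ?_
  have : Θ / 4 ^ n ≤ 1 := (div_le_one (by positivity)).2 hn.le
  simp only [pow_zero, mul_one]
  linarith

end Crest.Agent.R118
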