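import Crest.Agent.R118.Defs

/-! Row 118: Walsh functions, coefficients, multipliers and the normalised `L₂` norm. -/

set_option autoImplicit false

open Finset Crest.AnalysisR
open scoped BigOperators

namespace Crest.Agent.R118

theorem signVal_mul_self (b : Bool) : signVal b * signVal b = 1 := by
  cases b <;> simp [signVal]

theorem abs_signVal (b : Bool) : |signVal b| = 1 := by
  cases b <;> simp [signVal]

theorem signVal_beq (b c : Bool) : signVal (b == c) = signVal b * signVal c := by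
  cases b <;> cases c <;> simp [signVal]

section Nrm

variable {V A B : Type*} [Fintype V] [SeminormedAddCommGroup A] [SeminormedAddCommGroup B]

theorem nsq_nonneg (f : V → A) : 0 ≤ nsq f :=
  expect_nonneg fun _ _ => sq_nonneg _

theorem nrm_nonneg (f : V → A) : 0 ≤ nrm f := Real.sqrt_nonneg _

theorem nrm_sq (f : V → A) : nrm f ^ 2 = nsq f := Real.sq_sqrt (nsq_nonneg f)

/-- From a bound on `nsq` to a bound on `nrm` (`Real.sqrt_le_iff` / `Real.sqrt_le_left`). -/
theorem nrm_le_of_nsq_le (f : V → A) {c : ℝ} (hc : 0 ≤ c) (h : nsq f ≤ c ^ 2) : nrm f ≤ c := by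
  exact Real.sqrt_le_iff.2 ⟨hc, h⟩

/-- Cauchy-Schwarz for averages (`Finset.expect_mul_sq_le_sq_mul_sq`). -/
theorem expect_mul_le_sqrt (u v : V → ℝ) :
    𝔼 x, u x * v x ≤ √(𝔼 x, u x ^ 2) * √(𝔼 x, v x ^ 2) := by
  rw [← Real.sqrt_mul (expect_nonneg fun _ _ => sq_nonneg _)]
  exact Real.le_sqrt_of_sq_le (expect_mul_sq_le_sq_mul_sq _ u v)

/-- Cauchy-Schwarz. -/
theorem expect_norm_mul_le (f : V → A) (g : V → B) :
    𝔼 x, ‖f x‖ * ‖g x‖ ≤ nrm f * nrm g := by
  exact expect_mul_le_sqrt (fun x => ‖f x‖) fun x => ‖g x‖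

/-- `L₁ ≤ L₂` (if `V` is empty both sides are `0`). -/
theorem expect_norm_le_nrm (f : V → A) : 𝔼 x, ‖f x‖ ≤ nrm f := by
  rcases isEmpty_or_nonempty V with h | h
  · simpa using nrm_nonneg f
  · simpa [nrm, nsq] using expect_mul_le_sqrt (fun x => ‖f x‖) fun _ => 1

/-- Minkowski: expand `‖f+g‖² ≤ ‖f‖² + 2‖f‖‖g‖ + ‖g‖²` and use `expect_norm_mul_le`. -/
theorem nrm_add_le (f g : V → A) : nrm (fun x => f x + g x) ≤ nrm f + nrm g := by
  refine nrm_le_of_nsq_le _ (add_nonneg (nrm_nonneg f) (nrm_nonneg g)) ?_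
  have h1 : nsq (fun x => f x + g x) ≤
      𝔼 x, (‖f x‖ ^ 2 + 2 * (‖f x‖ * ‖g x‖) + ‖g x‖ ^ 2) :=
    expect_le_expect fun x _ => by
      have := pow_le_pow_left₀ (norm_nonneg _) (norm_add_le (f x) (g x)) 2
      linarith
  rw [expect_add_distrib, expect_add_distrib, ← mul_expect] at h1
  have h2 := expect_norm_mul_le f g
  have h3 : nrm f ^ 2 = 𝔼 x, ‖f x‖ ^ 2 := nrm_sq f
  have h4 : nrm g ^ 2 = 𝔼 x, ‖g x‖ ^ 2 := nrm_sq g
  linarith

theorem nrm_smul [NormedSpace ℝ A] (t : ℝ) (f : V → A) :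
    nrm (fun x => t • f x) = |t| * nrm f := by
  unfold nrm nsq
  simp only [norm_smul, mul_pow]
  rw [← mul_expect, Real.sqrt_mul (sq_nonneg _), Real.sqrt_sq (norm_nonneg _), Real.norm_eq_abs]

/-- Monotonicity. -/
theorem nrm_mono {f : V → A} {g : V → B} (h : ∀ x, ‖f x‖ ≤ ‖g x‖) : nrm f ≤ nrm g := by
  exact Real.sqrt_le_sqrt (expect_le_expect fun x _ => pow_le_pow_left₀ (norm_nonneg _) (h x) 2)

/-- Finite triangle inequality (induction on `s`). -/
theorem nrm_sum_le {T : Type*} (s : Finset T) (f : T → V → A) :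
    nrm (fun x => ∑ t ∈ s, f t x) ≤ ∑ t ∈ s, nrm (f t) := by
  classical
  induction s using Finset.induction_on with
  | empty => simp [nrm, nsq]
  | insert a s ha ih =>
    simp only [sum_insert ha]
    exact (nrm_add_le (f a) _).trans (add_le_add le_rfl ih)

/-- Invariance under a bijection of the index set. -/
theorem nsq_equiv {V' : Type*} [Fintype V'] (e : V' ≃ V) (f : V → A) :
    nsq (fun x => f (e x)) = nsq f := by
  exact Fintype.expect_equiv e _ _ fun _ => rfl

end Nrm

section Wal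

variable {ι : Type*} [Fintype ι] [DecidableEq ι]

omit [Fintype ι] [DecidableEq ι] in
theorem wal_mul_self (S : Finset ι) (ξ : ι → Bool) : wal S ξ * wal S ξ = 1 := by
  unfold wal
  rw [← prod_mul_distrib]
  simp [signVal_mul_self]

omit [Fintype ι] [DecidableEq ι] in
theorem abs_wal (S : Finset ι) (ξ : ι → Bool) : |wal S ξ| = 1 := by
  unfold wal
  rw [abs_prod]
  simp [abs_signVal]

omit [Fintype ι] [DecidableEq ι] in
theorem wal_singleton (i : ι) (ξ : ι → Bool) : wal {i} ξ = signVal (ξ i) := by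
  simp [wal]

omit [Fintype ι] [DecidableEq ι] in
theorem wal_beq (S : Finset ι) (ξ η : ι → Bool) :
    wal S (fun i => ξ i == η i) = wal S ξ * wal S η := by
  unfold wal
  rw [← prod_mul_distrib]
  simp [signVal_beq]

/-- Averages of products of one-variable functions factor
(`Finset.prod_univ_sum`, `Fintype.piFinset_univ`). -/
theorem sum_prod_bool (p : ι → Bool → ℝ) :
    ∑ ξ : ι → Bool, ∏ i, p i (ξ i) = ∏ i, (p i true + p i false) := by
  have h := Finset.prod_univ_sum (fun _ : ι => (univ : Finset Bool)) p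
  rw [Fintype.piFinset_univ] at h
  rw [← h]
  refine prod_congr rfl fun i _ => ?_
  rw [Fintype.sum_bool]

/-- Orthogonality in the set variable: write both products over `univ` with `if i ∈ S` and use
`sum_prod_bool`. -/
theorem sum_wal_mul (S T : Finset ι) :
    ∑ ξ : ι → Bool, wal S ξ * wal T ξ = if S = T then (2 : ℝ) ^ Fintype.card ι else 0 := by
  have hw : ∀ (U : Finset ι) (ξ : ι → Bool),
      wal U ξ = ∏ i, if i ∈ U then signVal (ξ i) else 1 := by
    intro U ξ
    rw [prod_ite_mem, univ_inter, wal]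
  have h := sum_prod_bool (ι := ι) fun i b =>
    (if i ∈ S then signVal b else 1) * (if i ∈ T then signVal b else 1)
  simp only [hw, ← prod_mul_distrib]
  rw [h]
  split_ifs with hST
  · subst hST
    rw [← card_univ, ← prod_const]
    refine prod_congr rfl fun i _ => ?_
    split_ifs
    · rw [signVal_mul_self, signVal_mul_self]; norm_num
    · norm_num
  · obtain ⟨i, hi⟩ : ∃ i, ¬ (i ∈ S ↔ i ∈ T) := by
      by_contra hcon
      push Not at hcon
      exact hST (Finset.ext hcon)
    refine prod_eq_zero (mem_univ i) ?_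
    by_cases h1 : i ∈ S <;> by_cases h2 : i ∈ T
    · exact (hi (iff_of_true h1 h2)).elim
    · simp [h1, h2, signVal]
    · simp [h1, h2, signVal]
    · exact (hi (iff_of_false h1 h2)).elim

/-- Orthogonality in the sign variable: `∑ U, ∏ i ∈ U, t i = ∏ i, (1 + t i)`
(`Finset.prod_one_add` / `Finset.prod_add_one`, `Finset.powerset_univ`). -/
theorem sum_wal_mul' (ξ η : ι → Bool) :
    ∑ U : Finset ι, wal U ξ * wal U η = if ξ = η then (2 : ℝ) ^ Fintype.card ι else 0 := by
  have h := Finset.prod_one_add (f := fun i => signVal (ξ i) * signVal (η i)) (univ : Finset ι)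
  rw [powerset_univ] at h
  simp only [wal, ← prod_mul_distrib]
  rw [← h]
  split_ifs with hξ
  · subst hξ
    rw [← card_univ, ← prod_const]
    refine prod_congr rfl fun i _ => ?_
    rw [signVal_mul_self]; norm_num
  · obtain ⟨i, hi⟩ := Function.ne_iff.1 hξ
    refine prod_eq_zero (mem_univ i) ?_
    revert hi
    cases ξ i <;> cases η i <;> simp [signVal]

variable {A : Type*} [AddCommGroup A] [Module ℝ A]

/-- A linear functional of a coefficient is the average (`Fintype.expect_eq_sum_div_card`,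
`Fintype.card_fun`, `Fintype.card_bool`). -/
theorem map_coef (ℓ : A →ₗ[ℝ] ℝ) (S : Finset ι) (F : (ι → Bool) → A) :
    ℓ (coef S F) = 𝔼 ξ, wal S ξ * ℓ (F ξ) := by
  rw [coef, map_smul, map_sum, Fintype.expect_eq_sum_div_card, Fintype.card_fun, Fintype.card_bool,
    smul_eq_mul, div_eq_inv_mul]
  simp only [map_smul, smul_eq_mul, Nat.cast_pow, Nat.cast_ofNat]

theorem coef_add (S : Finset ι) (F G : (ι → Bool) → A) :
    coef S (fun ξ => F ξ + G ξ) = coef S F + coef S G := by
  simp only [coef, smul_add, sum_add_distrib]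

theorem coef_smul (S : Finset ι) (t : ℝ) (F : (ι → Bool) → A) :
    coef S (fun ξ => t • F ξ) = t • coef S F := by
  unfold coef
  rw [smul_comm t, smul_sum (r := t)]
  exact congrArg _ (sum_congr rfl fun ξ _ => smul_comm _ _ _)

theorem coef_sum {T : Type*} (s : Finset T) (S : Finset ι) (F : T → (ι → Bool) → A) :
    coef S (fun ξ => ∑ t ∈ s, F t ξ) = ∑ t ∈ s, coef S (F t) := by
  simp only [coef, smul_sum]
  rw [sum_comm]

/-- Coefficient of a single Walsh function (`sum_wal_mul`). -/
theorem coef_wal_smul (S T : Finset ι) (a : A) :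
    coef S (fun ξ => wal T ξ • a) = if S = T then a else 0 := by
  simp only [coef, smul_smul, ← sum_smul, sum_wal_mul]
  split_ifs
  · rw [inv_mul_cancel₀ (by positivity), one_smul]
  · rw [mul_zero, zero_smul]

theorem coef_mult (μ : Finset ι → ℝ) (f : (ι → Bool) → A) (U : Finset ι) :
    coef U (mult μ f) = μ U • coef U f := by
  unfold mult
  rw [coef_sum]
  have h : ∀ T : Finset ι, coef U (fun ε => (μ T * wal T ε) • coef T f) =
      if U = T then μ T • coef T f else 0 := by
    intro T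
    rw [← coef_wal_smul]
    congr 1
    funext ε
    rw [smul_smul, mul_comm]
  simp only [h]
  rw [sum_ite_eq, if_pos (mem_univ _)]

/-- Walsh inversion (`sum_wal_mul'`). -/
theorem mult_one (f : (ι → Bool) → A) : mult (fun _ => 1) f = f := by
  funext ε
  simp only [mult, one_mul, coef, smul_sum, smul_smul]
  rw [sum_comm]
  have h : ∀ ξ : ι → Bool, ∑ U : Finset ι,
      (wal U ε * (((2 : ℝ) ^ Fintype.card ι)⁻¹ * wal U ξ)) • f ξ = if ε = ξ then f ξ else 0 := by
    intro ξ
    rw [← sum_smul]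
    have : ∑ U : Finset ι, wal U ε * (((2 : ℝ) ^ Fintype.card ι)⁻¹ * wal U ξ) =
        ((2 : ℝ) ^ Fintype.card ι)⁻¹ * ∑ U : Finset ι, wal U ε * wal U ξ := by
      rw [mul_sum]
      exact sum_congr rfl fun U _ => by ring
    rw [this, sum_wal_mul']
    split_ifs
    · rw [inv_mul_cancel₀ (by positivity), one_smul]
    · rw [mul_zero, zero_smul]
  simp only [h]
  rw [sum_ite_eq, if_pos (mem_univ _)]

theorem mult_mult (μ ν : Finset ι → ℝ) (f : (ι → Bool) → A) :
    mult μ (mult ν f) = mult (μ * ν) f := by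
  funext ε
  rw [mult, mult]
  refine sum_congr rfl fun U _ => ?_
  rw [coef_mult, smul_smul, Pi.mul_apply, mul_right_comm]

/-- Functions with the same coefficients agree (`mult_one`). -/
theorem eq_of_coef_eq {f g : (ι → Bool) → A} (h : ∀ U, coef U f = coef U g) : f = g := by
  rw [← mult_one f, ← mult_one g]
  funext ε
  simp only [mult, h]

/-- Parseval for a bilinear form (expand both multipliers, `sum_wal_mul`). -/
theorem expect_mult_mult {B : Type*} [AddCommGroup B] [Module ℝ B] (Φ : A →ₗ[ℝ] B →ₗ[ℝ] ℝ)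
    (μ ν : Finset ι → ℝ) (f : (ι → Bool) → A) (g : (ι → Bool) → B) :
    𝔼 ε, Φ (mult μ f ε) (mult ν g ε) = ∑ U, μ U * ν U * Φ (coef U f) (coef U g) := by
  have h : ∀ ε : ι → Bool, Φ (mult μ f ε) (mult ν g ε) = ∑ U, ∑ T,
      (wal U ε * wal T ε) * (μ U * ν T * Φ (coef U f) (coef T g)) := by
    intro ε
    simp only [mult, map_sum, map_smul, LinearMap.sum_apply, LinearMap.smul_apply, smul_eq_mul,
      mul_sum]
    rw [sum_comm]
    exact sum_congr rfl fun U _ => sum_congr rfl fun T _ => by ring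
  simp only [h]
  rw [Fintype.expect_eq_sum_div_card, Fintype.card_fun, Fintype.card_bool, sum_comm, sum_div]
  refine sum_congr rfl fun U _ => ?_
  rw [sum_comm]
  simp only [← sum_mul, sum_wal_mul, ite_mul, zero_mul]
  rw [sum_ite_eq, if_pos (mem_univ _)]
  push_cast
  field_simp

end Wal

end Crest.Agent.R118
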